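import Vale.Agent.P116.KB.TopDef
import Vale.Agent.P116.Slow.Tree

/-!
# Oscillations: basic facts
-/

open Set Filter Topology Metric Bornology MeasureTheory

namespace Vale.Agent.P116.KB

open H906 PBC Slow

variable {K w A A' : Set ℂ} {u v ρ : ℂ → ℝ}

/-- `u` is bounded near `K` -/
def BdK (K : Set ℂ) (u : ℂ → ℝ) : Prop := ∃ B, ∀ z ∈ lev K 0, z ∉ K → |u z| ≤ B

/-- `u` is bounded on `A`, off `K` -/
def BdA (K A : Set ℂ) (u : ℂ → ℝ) : Prop := ∃ B, ∀ z ∈ A, z ∉ K → |u z| ≤ B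

lemma BdK.bdA (h : BdK K u) (hA : A ⊆ lev K 0) : BdA K A u := by
  obtain ⟨B, hB⟩ := h
  exact ⟨B, fun z hz hzK => hB z (hA hz) hzK⟩

lemma BdA.mono (h : BdA K A' u) (hA : A ⊆ A') : BdA K A u := by
  obtain ⟨B, hB⟩ := h
  exact ⟨B, fun z hz hzK => hB z (hA hz) hzK⟩

lemma BdA.above (h : BdA K A u) : BddAbove (u '' (A \ K)) := by
  obtain ⟨B, hB⟩ := h
  refine ⟨B, ?_⟩
  rintro _ ⟨z, hz, rfl⟩
  exact (abs_le.1 (hB z hz.1 hz.2)).2

lemma BdA.below (h : BdA K A u) : BddBelow (u '' (A \ K)) := by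
  obtain ⟨B, hB⟩ := h
  refine ⟨-B, ?_⟩
  rintro _ ⟨z, hz, rfl⟩
  exact (abs_le.1 (hB z hz.1 hz.2)).1

lemma oscS_empty (h : A \ K = ∅) : oscS K u A = 0 := by
  simp [oscS, h]

lemma oscS_nonneg (h : BdA K A u) : 0 ≤ oscS K u A := by
  rcases (A \ K).eq_empty_or_nonempty with h1 | ⟨z, hz⟩
  · exact (oscS_empty h1).ge
  · rw [oscS, sub_nonneg]
    exact (csInf_le h.below (mem_image_of_mem u hz)).trans (le_csSup h.above (mem_image_of_mem u hz))

lemma le_oscS (h : BdA K A u) {x y : ℂ} (hx : x ∈ A) (hxK : x ∉ K) (hy : y ∈ A) (hyK : y ∉ K) :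
    |u x - u y| ≤ oscS K u A := by
  have h1 := csInf_le h.below (mem_image_of_mem u (show x ∈ A \ K from ⟨hx, hxK⟩))
  have h2 := csInf_le h.below (mem_image_of_mem u (show y ∈ A \ K from ⟨hy, hyK⟩))
  have h3 := le_csSup h.above (mem_image_of_mem u (show x ∈ A \ K from ⟨hx, hxK⟩))
  have h4 := le_csSup h.above (mem_image_of_mem u (show y ∈ A \ K from ⟨hy, hyK⟩))
  rw [oscS, abs_le]
  constructor <;> linarith

lemma oscS_le {C : ℝ} (hC : 0 ≤ C)
    (h : ∀ x ∈ A, x ∉ K → ∀ y ∈ A, y ∉ K → u x - u y ≤ C) : oscS K u A ≤ C := by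
  rcases (A \ K).eq_empty_or_nonempty with h1 | ⟨z, hz⟩
  · exact (oscS_empty h1).trans_le hC
  · have h2 : sSup (u '' (A \ K)) ≤ sInf (u '' (A \ K)) + C := by
      refine csSup_le ⟨_, mem_image_of_mem u hz⟩ ?_
      rintro _ ⟨x, hx, rfl⟩
      rw [← sub_le_iff_le_add]
      refine le_csInf ⟨_, mem_image_of_mem u hz⟩ ?_
      rintro _ ⟨y, hy, rfl⟩
      have := h x hx.1 hx.2 y hy.1 hy.2
      linarith
    rw [oscS]
    linarith

/-- values in an interval of length `C` -/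
lemma oscS_le_of_Icc {a b : ℝ} (hab : a ≤ b) (h : ∀ x ∈ A, x ∉ K → a ≤ u x ∧ u x ≤ b) :
    oscS K u A ≤ b - a := by
  refine oscS_le (by linarith) fun x hx hxK y hy hyK => ?_
  have h1 := h x hx hxK
  have h2 := h y hy hyK
  linarith [h1.2, h2.1]

lemma oscS_mono (h : BdA K A' u) (hA : A ⊆ A') : oscS K u A ≤ oscS K u A' :=
  oscS_le (oscS_nonneg h) fun _ hx hxK _ hy hyK =>
    (le_abs_self _).trans (le_oscS h (hA hx) hxK (hA hy) hyK)

/-- all the values are in an interval of length `oscS` -/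
lemma exists_Icc (h : BdA K A u) : ∃ a, ∀ x ∈ A, x ∉ K → a ≤ u x ∧ u x ≤ a + oscS K u A := by
  refine ⟨sInf (u '' (A \ K)), fun x hx hxK => ?_⟩
  have h1 := csInf_le h.below (mem_image_of_mem u (show x ∈ A \ K from ⟨hx, hxK⟩))
  have h3 := le_csSup h.above (mem_image_of_mem u (show x ∈ A \ K from ⟨hx, hxK⟩))
  refine ⟨h1, ?_⟩
  rw [oscS]
  linarith

lemma oscS_neg (h : BdA K A u) : oscS K (fun z => - u z) A = oscS K u A := by
  have hn : BdA K A (fun z => - u z) := by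
    obtain ⟨B, hB⟩ := h
    exact ⟨B, fun z hz hzK => by rw [abs_neg]; exact hB z hz hzK⟩
  refine le_antisymm (oscS_le (oscS_nonneg h) fun x hx hxK y hy hyK => ?_)
    (oscS_le (oscS_nonneg hn) fun x hx hxK y hy hyK => ?_)
  · have := le_oscS h hy hyK hx hxK
    have h2 := le_abs_self (u y - u x)
    linarith
  · have := le_oscS hn hy hyK hx hxK
    have h2 := le_abs_self (-u y - -u x)
    linarith

lemma oscS_add_le (hu : BdA K A u) (hv : BdA K A v) :
    oscS K (fun z => u z + v z) A ≤ oscS K u A + oscS K v A := by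
  refine oscS_le (add_nonneg (oscS_nonneg hu) (oscS_nonneg hv)) fun x hx hxK y hy hyK => ?_
  have h1 := (le_abs_self _).trans (le_oscS hu hx hxK hy hyK)
  have h2 := (le_abs_self _).trans (le_oscS hv hx hxK hy hyK)
  linarith

/-! ### nodes -/

lemma ndC_nd {x : ℂ} (hx : x ∈ K) (n : ℕ) : ndC K n (connectedComponentIn K x) = nd K n x := by
  have hc : connectedComponentIn K x ∈ comps K := ⟨x, hx, rfl⟩
  refine Subset.antisymm ?_ ?_
  · refine iUnion₂_subset fun y hy => ?_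
    exact (nd_eq (comp_subset_nd hc (mem_connectedComponentIn hx) n hy)).subset
  · exact subset_iUnion₂_of_subset x (mem_connectedComponentIn hx) Subset.rfl

lemma ndC_of {c : Set ℂ} (hc : c ∈ comps K) {x : ℂ} (hx : x ∈ c) (n : ℕ) :
    ndC K n c = nd K n x := by
  have h1 := comps_eq hc hx
  rw [h1]
  exact ndC_nd (comps_subset hc hx) n

lemma ndC_sub_lev {c : Set ℂ} (hc : c ∈ comps K) (n : ℕ) : ndC K n c ⊆ lev K n := by
  obtain ⟨x, hx⟩ := comps_nonempty hc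
  rw [ndC_of hc hx]
  exact nd_subset n x

lemma comp_sub_ndC {c : Set ℂ} (hc : c ∈ comps K) (n : ℕ) : c ⊆ ndC K n c := by
  obtain ⟨x, hx⟩ := comps_nonempty hc
  rw [ndC_of hc hx]
  exact comp_subset_nd hc hx n

lemma ndC_anti {c : Set ℂ} (hc : c ∈ comps K) {m n : ℕ} (h : m ≤ n) : ndC K n c ⊆ ndC K m c := by
  obtain ⟨x, hx⟩ := comps_nonempty hc
  rw [ndC_of hc hx, ndC_of hc hx]
  exact nd_anti h

lemma BdK.ndC (h : BdK K u) {c : Set ℂ} (hc : c ∈ comps K) (n : ℕ) : BdA K (ndC K n c) u :=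
  h.bdA ((ndC_sub_lev hc n).trans (lev_anti (Nat.zero_le n)))

lemma BdK.nd (h : BdK K u) (n : ℕ) (x : ℂ) : BdA K (nd K n x) u := h.bdA (nd_sub_lev0 n x)

lemma oscC_bdd (h : BdK K u) {c : Set ℂ} (hc : c ∈ comps K) :
    BddBelow (range fun n => oscS K u (ndC K n c)) := by
  refine ⟨0, ?_⟩
  rintro _ ⟨n, rfl⟩
  exact oscS_nonneg (h.ndC hc n)

lemma oscC_nonneg (h : BdK K u) {c : Set ℂ} (hc : c ∈ comps K) : 0 ≤ oscC K u c :=
  le_ciInf fun n => oscS_nonneg (h.ndC hc n)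

lemma oscC_le (h : BdK K u) {c : Set ℂ} (hc : c ∈ comps K) (n : ℕ) :
    oscC K u c ≤ oscS K u (ndC K n c) := ciInf_le (oscC_bdd h hc) n

lemma oscC_le_nd (h : BdK K u) {x : ℂ} (hx : x ∈ K) (n : ℕ) :
    oscC K u (connectedComponentIn K x) ≤ oscS K u (nd K n x) := by
  have := oscC_le h (c := connectedComponentIn K x) ⟨x, hx, rfl⟩ n
  rwa [ndC_nd hx] at this

/-- the oscillation of any set which contains a node around `c` is at least that of `c` -/
lemma oscC_le_of (h : BdK K u) {c : Set ℂ} (hc : c ∈ comps K) {n : ℕ} {A : Set ℂ}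
    (hA : ndC K n c ⊆ A) (hAl : A ⊆ lev K 0) : oscC K u c ≤ oscS K u A :=
  (oscC_le h hc n).trans (oscS_mono (h.bdA hAl) hA)

lemma tendsto_oscC (h : BdK K u) {c : Set ℂ} (hc : c ∈ comps K) :
    Tendsto (fun n => oscS K u (ndC K n c)) atTop (𝓝 (oscC K u c)) :=
  tendsto_atTop_ciInf (fun _ _ hmn => oscS_mono (h.ndC hc _) (ndC_anti hc hmn)) (oscC_bdd h hc)

lemma tendsto_oscC_nd (h : BdK K u) {x : ℂ} (hx : x ∈ K) :
    Tendsto (fun n => oscS K u (nd K n x)) atTop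
      (𝓝 (oscC K u (connectedComponentIn K x))) := by
  have := tendsto_oscC h (c := connectedComponentIn K x) ⟨x, hx, rfl⟩
  simpa only [ndC_nd hx] using this

lemma exists_oscS_nd_lt (h : BdK K u) {x : ℂ} (hx : x ∈ K) {ε : ℝ} (hε : 0 < ε) :
    ∃ m₀, ∀ m ≥ m₀, oscS K u (nd K m x) < oscC K u (connectedComponentIn K x) + ε := by
  have h1 := (tendsto_oscC_nd h hx).eventually
    (gt_mem_nhds (show oscC K u (connectedComponentIn K x) <
      oscC K u (connectedComponentIn K x) + ε by linarith))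
  exact eventually_atTop.1 h1

lemma exists_sq_nd_lt (h : BdK K u) {x : ℂ} (hx : x ∈ K) {ε : ℝ} (hε : 0 < ε) :
    ∃ m₀, ∀ m ≥ m₀, oscS K u (nd K m x) ^ 2 < oscC K u (connectedComponentIn K x) ^ 2 + ε := by
  have h1 := ((tendsto_oscC_nd h hx).pow 2).eventually
    (gt_mem_nhds (show oscC K u (connectedComponentIn K x) ^ 2 <
      oscC K u (connectedComponentIn K x) ^ 2 + ε by linarith))
  exact eventually_atTop.1 h1

/-! ### the functions `oc` and `oP` -/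

lemma oc_nonneg (K w : Set ℂ) (u : ℂ → ℝ) (c : Set ℂ) : 0 ≤ oc K w u c := by
  classical
  unfold oc
  split_ifs
  · positivity
  · exact le_rfl

lemma oP_nonneg (K w : Set ℂ) (u : ℂ → ℝ) (P : Set ℂ) : 0 ≤ oP K w u P := by
  classical
  unfold oP
  split_ifs
  · positivity
  · exact le_rfl

lemma oc_of_sub {c : Set ℂ} (h : c ⊆ w) : oc K w u c = oscC K u c ^ 2 := by
  classical
  rw [oc, if_pos h]

lemma oc_of_not_sub {c : Set ℂ} (h : ¬ c ⊆ w) : oc K w u c = 0 := by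
  classical
  rw [oc, if_neg h]

lemma oP_of_sub {P : Set ℂ} (h : P ⊆ w) : oP K w u P = oscS K u P ^ 2 := by
  classical
  rw [oP, if_pos h]

lemma oP_of_not_sub {P : Set ℂ} (h : ¬ P ⊆ w) : oP K w u P = 0 := by
  classical
  rw [oP, if_neg h]

lemma oc_mono {w' : Set ℂ} (hw : w' ⊆ w) (c : Set ℂ) : oc K w' u c ≤ oc K w u c := by
  by_cases h : c ⊆ w'
  · rw [oc_of_sub h, oc_of_sub (h.trans hw)]
  · rw [oc_of_not_sub h]
    exact oc_nonneg _ _ _ _

lemma Hon.bdK (h : Hon K w u ρ) : BdK K u := h.bdd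

/-- honest functions on smaller nodes -/
lemma Hon.restrict (h : Hon K w u ρ) {w' : Set ℂ} (hw : w' ⊆ w) : Hon K w' u ρ where
  cont := h.cont
  bdd := h.bdd
  rc := h.rc
  rnn := h.rnn
  maj := h.maj
  en := (lintegral_mono_set (sdiff_subset_sdiff_left hw)).trans_lt h.en
  sum := Summable.of_nonneg_of_le (fun _ => oc_nonneg _ _ _ _) (fun c => oc_mono hw c) h.sum

/-- nodes of different levels are nested or disjoint -/
lemma nd_nested {m n : ℕ} (h : m ≤ n) {x y : ℂ} (hne : (nd K m x ∩ nd K n y).Nonempty) :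
    nd K n y ⊆ nd K m x := by
  obtain ⟨z, hz, hz'⟩ := hne
  rw [← nd_eq hz, ← nd_eq hz']
  exact nd_anti h

lemma SMon_restrict {w' : Set ℂ} (hw : w' ⊆ w) (hwc : IsCompact w)
    (hw' : IsPreconnected w'ᶜ) (h : KF.SMon K w u) : KF.SMon K w' u := by
  have hne : (wᶜ).Nonempty := by
    rw [nonempty_compl]
    rintro rfl
    exact noncompact_univ ℂ hwc
  exact ⟨h.1.mono_compl hw hw' hne, h.2.mono_compl hw hw' hne⟩

lemma Zs_mono_set {A A' : Set ℂ} (h : A ⊆ A') (u u' : ℂ → ℝ) : Zs K A u u' ⊆ Zs K A' u u' := by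
  rintro q ⟨x, hx, hxA, h1⟩
  exact ⟨x, hx, h hxA, h1⟩

end Vale.Agent.P116.KB
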