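import Mathlib
import Vale.Agent.P116.KF.FL
import Vale.Agent.P116.G.Def

/-!
# Honest functions, oscillations, compatible pairs: the definitions (213's text, with 696's bound)
-/

open Set Filter Topology Metric Bornology MeasureTheory

namespace Vale.Agent.P116.KB

open H906

/-- oscillation of `u` over `A \ K` -/
noncomputable def oscS (K : Set ℂ) (u : ℂ → ℝ) (A : Set ℂ) : ℝ :=
  sSup (u '' (A \ K)) - sInf (u '' (A \ K))

/-- oscillation of `u` at the component `c` of `K` -/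
noncomputable def oscC (K : Set ℂ) (u : ℂ → ℝ) (c : Set ℂ) : ℝ :=
  ⨅ n : ℕ, oscS K u (⋃ x ∈ c, nd K n x)

/-- the closed end interval of `u` at the component of `x` -/
def EI (K : Set ℂ) (u : ℂ → ℝ) (x : ℂ) : Set ℝ :=
  {s | x ∉ KF.UpS K u s ∧ x ∉ KF.UpS K (fun z => - u z) (-s)}

/-- honest functions on the node `w`, with gradient majorant `ρ` -/
structure Hon (K w : Set ℂ) (u ρ : ℂ → ℝ) : Prop where
  cont : ContinuousOn u Kᶜ
  bdd : ∃ B, ∀ z ∈ lev K 0, z ∉ K → |u z| ≤ B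
  rc : ContinuousOn ρ Kᶜ
  rnn : ∀ z ∉ K, 0 ≤ ρ z
  maj : KF.UGr Kᶜ u ρ
  en : ∫⁻ z in w \ K, ENNReal.ofReal (ρ z ^ 2) < ⊤
  sum : Summable fun c : comps K => (open Classical in if (c : Set ℂ) ⊆ w then oscC K u c ^ 2 else 0)

/-- pairs of a node and a function -/
abbrev Pair : Type := Set ℂ × (ℂ → ℝ)

/-- admissible pairs -/
def AdmP (K : Set ℂ) (p : Pair) : Prop :=
  (∃ n, ∃ x ∈ K, p.1 = nd K n x) ∧ (∃ ρ, Hon K p.1 p.2 ρ) ∧ KF.SMon K p.1 p.2

/-- the values at the ends which are not massive for both functions -/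
def Zs (K A : Set ℂ) (u u' : ℂ → ℝ) : Set (ℝ × ℝ) :=
  {q | ∃ x ∈ K, x ∈ A ∧ ¬ (0 < oscC K u (connectedComponentIn K x) ∧
    0 < oscC K u' (connectedComponentIn K x)) ∧ q.1 ∈ EI K u x ∧ q.2 ∈ EI K u' x}

/-- compatible pairs -/
def Cmp (K : Set ℂ) (p p' : Pair) : Prop := volume (Zs K (p.1 ∩ p'.1) p.2 p'.2) = 0

end Vale.Agent.P116.KB
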