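import Vale.Agent.P116.Slow.Tree

/-!
# The budget family

`oP f P` is the (square) oscillation of the function `f` on a piece `P`, `oc f c` is the (square)
oscillation of `f` at the component `c` of `K`. The structures of the family have pieces of
deep levels, cover `K` and have small excess for finitely many functions. The statements are about
sets of sets and do not depend on the shape of the pieces.
-/

open Set Filter Topology

namespace Vale.Agent.P116.KB

open H906 PBC Slow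

/-- oscillations of the functions of the index type `𝔘` -/
structure OscD (K : Set ℂ) (𝔘 : Type*) where
  /-- at pieces -/
  oP : 𝔘 → Set ℂ → ℝ
  /-- at components -/
  oc : 𝔘 → Set ℂ → ℝ
  oc_nn : ∀ f, ∀ c ∈ comps K, 0 ≤ oc f c
  sum : ∀ f, Summable fun c : comps K => oc f c
  lim : ∀ f, ∀ x ∈ K, ∀ ε > 0, ∃ m₀, ∀ m ≥ m₀, oP f (nd K m x) ≤ oc f (connectedComponentIn K x) + ε

variable {K : Set ℂ} {𝔘 : Type*} (D : OscD K 𝔘)

namespace OscD

open Classical in
/-- the total oscillation at the components inside `Q` -/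
noncomputable def A (f : 𝔘) (Q : Set ℂ) : ℝ := ∑' c : comps K, if (c : Set ℂ) ⊆ Q then D.oc f c else 0

/-- the budget family -/
structure EU (t : Finset 𝔘 × ℕ) (δ : ℝ) (Q : Set ℂ) (S : Set (Set ℂ)) : Prop where
  lev : ∀ P ∈ S, P ⊆ H906.lev K t.2
  cov : ∀ x ∈ K, x ∈ Q → ∃ P ∈ S, x ∈ P
  bud : ∀ f ∈ t.1, ∑ᶠ P ∈ S, D.oP f P ≤ D.A f Q + δ

variable {D}

open Classical in
lemma summable_ite (f : 𝔘) (Q : Set ℂ) :
    Summable fun c : comps K => if (c : Set ℂ) ⊆ Q then D.oc f c else 0 := by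
  refine Summable.of_nonneg_of_le (fun c => ?_) (fun c => ?_) (D.sum f)
  · split_ifs
    · exact D.oc_nn f c c.2
    · exact le_rfl
  · split_ifs
    · exact le_rfl
    · exact D.oc_nn f c c.2

lemma A_nonneg (f : 𝔘) (Q : Set ℂ) : 0 ≤ D.A f Q := by
  classical
  refine tsum_nonneg fun c => ?_
  split_ifs
  · exact D.oc_nn f c c.2
  · exact le_rfl

lemma oc_le_A (f : 𝔘) {Q c : Set ℂ} (hc : c ∈ comps K) (hcQ : c ⊆ Q) : D.oc f c ≤ D.A f Q := by
  classical
  have h := (summable_ite (D := D) f Q).le_tsum ⟨c, hc⟩ (fun c' _ => by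
    split_ifs
    · exact D.oc_nn f c' c'.2
    · exact le_rfl)
  rw [if_pos hcQ] at h
  exact h

lemma A_mono (f : 𝔘) {Q Q' : Set ℂ} (h : Q ⊆ Q') : D.A f Q ≤ D.A f Q' := by
  classical
  refine (summable_ite f Q).tsum_le_tsum (fun c => ?_) (summable_ite f Q')
  by_cases h1 : (c : Set ℂ) ⊆ Q
  · rw [if_pos h1, if_pos (h1.trans h)]
  · rw [if_neg h1]
    split_ifs
    · exact D.oc_nn f c c.2
    · exact le_rfl

/-- the total oscillation is additive over the children -/
lemma A_children (hK : IsCompact K) (f : 𝔘) (q : Tn K) :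
    D.A f q.st = ∑ r ∈ cht hK q, D.A f r.st := by
  classical
  have h0 : ∑ r ∈ cht hK q, D.A f r.st =
      ∑' c : comps K, ∑ r ∈ cht hK q, if (c : Set ℂ) ⊆ r.st then D.oc f c else 0 :=
    (Summable.tsum_finsetSum (s := cht hK q)
      (f := fun (r : Tn K) (c : comps K) => if (c : Set ℂ) ⊆ r.st then D.oc f c else 0)
      fun r _ => summable_ite (D := D) f r.st).symm
  rw [h0, A]
  refine tsum_congr fun c => ?_
  by_cases h : (c : Set ℂ) ⊆ q.st
  · obtain ⟨r, hr, hcr⟩ := comp_subset_chs c.2 h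
    rw [if_pos h, Finset.sum_eq_single r, if_pos hcr]
    · intro r' hr' hne
      rw [if_neg]
      intro hcr'
      obtain ⟨z, hz⟩ := comps_nonempty c.2
      have hr'' : r' ∈ chs q := (mem_cht hK).1 hr'
      exact hne (chs_disj hr'' hr ⟨z, hcr' hz, hcr hz⟩)
    · intro hr'
      exact absurd ((mem_cht hK).2 hr) hr'
  · rw [if_neg h]
    refine (Finset.sum_eq_zero fun r hr => ?_).symm
    rw [if_neg]
    exact fun hcr => h (hcr.trans ((mem_cht hK).1 hr).2)

lemma EU.anti {t t' : Finset 𝔘 × ℕ} (htt : t ≤ t') {δ : ℝ} {Q : Set ℂ} {S : Set (Set ℂ)}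
    (h : D.EU t' δ Q S) : D.EU t δ Q S where
  lev P hP := (h.lev P hP).trans (lev_anti htt.2)
  cov := h.cov
  bud f hf := h.bud f (htt.1 hf)

lemma EU.mono {t : Finset 𝔘 × ℕ} {δ δ' : ℝ} (hd : δ ≤ δ') {Q : Set ℂ} {S : Set (Set ℂ)}
    (h : D.EU t δ Q S) : D.EU t δ' Q S where
  lev := h.lev
  cov := h.cov
  bud f hf := (h.bud f hf).trans (by linarith)

/-- union over the children -/
theorem EU.join (hK : IsCompact K) {t : Finset 𝔘 × ℕ} (q : Tn K) {S : Tn K → Set (Set ℂ)}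
    {d : Tn K → ℝ} (hfin : ∀ r ∈ chs q, (S r).Finite) (hne : ∀ r ∈ chs q, ∀ P ∈ S r, P.Nonempty)
    (hsub : ∀ r ∈ chs q, ∀ P ∈ S r, P ⊆ r.st) (h : ∀ r ∈ chs q, D.EU t (d r) r.st (S r)) :
    D.EU t (∑ r ∈ cht hK q, d r) q.st (⋃ r ∈ chs q, S r) where
  lev P hP := by
    obtain ⟨r, hr, hPr⟩ := mem_iUnion₂.1 hP
    exact (h r hr).lev P hPr
  cov x hx hxq := by
    obtain ⟨r, hr, hcr⟩ : ∃ r ∈ chs q, x ∈ r.st := by
      refine ⟨nt q.lv hx, ⟨rfl, ?_⟩, mem_nd hx _⟩
      obtain ⟨⟨n, Q⟩, hq⟩ := q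
      cases n with
      | zero =>
        have : Q = H906.lev K 0 := hq
        subst this
        exact nd_sub_lev0 0 x
      | succ n =>
        obtain ⟨y, hy, hyQ⟩ := hq
        have hyQ' : nd K n y = Q := hyQ
        subst hyQ'
        have h1 : x ∈ nd K n y := hxq
        change nd K (n + 1) x ⊆ nd K n y
        rw [← nd_eq h1]
        exact nd_anti (Nat.le_succ n)
    obtain ⟨P, hP, hxP⟩ := (h r hr).cov x hx hcr
    exact ⟨P, mem_iUnion₂.2 ⟨r, hr, hP⟩, hxP⟩
  bud f hf := by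
    classical
    have hI : (chs q).Finite := finite_chs hK q
    rw [finsum_mem_biUnion ?_ hI hfin, A_children hK f q, ← Finset.sum_add_distrib]
    · rw [finsum_mem_eq_finite_toFinset_sum _ hI]
      change ∑ r ∈ cht hK q, _ ≤ _
      refine Finset.sum_le_sum fun r hr => (h r ((mem_cht hK).1 hr)).bud f hf
    · intro r hr r' hr' hrr
      change Disjoint (S r) (S r')
      rw [disjoint_left]
      intro P hP hP'
      obtain ⟨z, hz⟩ := hne r hr P hP
      exact hrr (chs_disj hr hr' ⟨z, hsub r hr P hP hz, hsub r' hr' P hP' hz⟩)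

/-- a single deep node -/
theorem EU.single (t : Finset 𝔘 × ℕ) {x : ℂ} (hx : x ∈ K) {δ : ℝ} (hδ : 0 < δ) :
    ∃ m₀, ∀ m ≥ m₀, D.EU t δ (nd K m x) {nd K m x} := by
  classical
  have h1 : ∃ m₀, ∀ f ∈ t.1, ∀ m ≥ m₀,
      D.oP f (nd K m x) ≤ D.oc f (connectedComponentIn K x) + δ := by
    choose m₀ hm₀ using fun f => D.lim f x hx δ hδ
    refine ⟨t.1.sup m₀, fun f hf m hm => hm₀ f m ?_⟩
    exact (Finset.le_sup (f := m₀) hf).trans hm
  obtain ⟨m₀, hm₀⟩ := h1
  refine ⟨max m₀ t.2, fun m hm => ⟨?_, ?_, ?_⟩⟩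
  · rintro _ rfl
    exact (nd_subset m x).trans (lev_anti ((le_max_right _ _).trans hm))
  · intro y _ hy
    exact ⟨_, rfl, hy⟩
  · intro f hf
    rw [finsum_mem_singleton]
    refine (hm₀ f hf m ((le_max_left _ _).trans hm)).trans ?_
    have h2 := oc_le_A (D := D) f (Q := nd K m x) (c := connectedComponentIn K x) ⟨x, hx, rfl⟩
      (comp_subset_nd ⟨x, hx, rfl⟩ (mem_connectedComponentIn hx) _)
    linarith

end OscD

end Vale.Agent.P116.KB
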