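import Mathlib
import Vale.Agent.P116.KF.FL
import Vale.Agent.P116.G.Out
import Vale.Agent.P116.KB.V3
import Vale.Agent.P116.KB.HDef

/-!
# Full Koebe: definitions of the master composition, on top of `KB/HDef.lean`
-/

open Set Filter Topology Metric Bornology MeasureTheory

namespace Vale.Agent.P116.KB

open H906

/-- the node of level `n` around the component `c` -/
def ndC (K : Set ℂ) (n : ℕ) (c : Set ℂ) : Set ℂ := ⋃ x ∈ c, nd K n x

lemma oscC_def (K : Set ℂ) (u : ℂ → ℝ) (c : Set ℂ) : oscC K u c = ⨅ n, oscS K u (ndC K n c) :=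
  rfl

/-- admissible pairs, as a structure -/
structure APair (K : Set ℂ) (p : Pair) : Prop where
  node : ∃ n, ∃ x ∈ K, p.1 = nd K n x
  hon : ∃ ρ, Hon K p.1 p.2 ρ
  mon : KF.SMon K p.1 p.2

lemma aPair_iff {K : Set ℂ} {p : Pair} : APair K p ↔ AdmP K p :=
  ⟨fun h => ⟨h.node, h.hon, h.mon⟩, fun h => ⟨h.1, h.2.1, h.2.2⟩⟩

open Classical in
/-- square oscillation at a component inside `w` -/
noncomputable def oc (K w : Set ℂ) (u : ℂ → ℝ) (c : Set ℂ) : ℝ :=
  if c ⊆ w then oscC K u c ^ 2 else 0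

open Classical in
/-- square oscillation over a piece inside `w` -/
noncomputable def oP (K w : Set ℂ) (u : ℂ → ℝ) (P : Set ℂ) : ℝ :=
  if P ⊆ w then oscS K u P ^ 2 else 0

/-- total square oscillation of `u` at the components inside `w` -/
noncomputable def Eo (K w : Set ℂ) (u : ℂ → ℝ) : ℝ := ∑' c : comps K, oc K w u c

lemma Hon.sum' {K w : Set ℂ} {u ρ : ℂ → ℝ} (h : Hon K w u ρ) :
    Summable fun c : comps K => oc K w u c := h.sum

end Vale.Agent.P116.KB
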