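import Mathlib.MeasureTheory.Constructions.Pi
import Mathlib.MeasureTheory.Integral.Average
import Mathlib.MeasureTheory.Integral.Pi
import Mathlib.MeasureTheory.Measure.Lebesgue.Basic
import Mathlib.Analysis.SpecialFunctions.Integrals.Basic

/-!
# Random grid selection (P116, block (7b))

`hit h s lo hi`: the half-open interval `(lo, hi]` contains a point of the grid `s + h ℤ`.
`grid_select`: there are offsets `s i ∈ [0, h)` such that the weighted number of elements hit in one
or in two different coordinates is at most its expectation.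
-/

open MeasureTheory Set
open scoped ENNReal

namespace Vale.Agent.P116.KB.Grid841

/-- The half-open interval `(lo, hi]` contains a point of the grid `s + h ℤ`. -/
def hit (h s lo hi : ℝ) : Prop := ∃ k : ℤ, lo < s + k * h ∧ s + k * h ≤ hi

/-- The colour of a value `x`. -/
noncomputable def col (h s x : ℝ) : ℤ := ⌊(x - s) / h⌋

lemma le_of_col_eq {h s x y : ℝ} (hh : 0 < h) (e : col h s x = col h s y) : |x - y| < h := by
  have h1 := Int.abs_sub_lt_one_of_floor_eq_floor (a := (x - s) / h) (b := (y - s) / h) e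
  rw [← sub_div, abs_div, abs_of_pos hh, div_lt_one hh] at h1
  simpa using h1

lemma col_mono {h s x y : ℝ} (hh : 0 < h) (hxy : x ≤ y) : col h s x ≤ col h s y := by
  apply Int.floor_le_floor
  gcongr

lemma col_const {h s lo hi x y : ℝ} (hh : 0 < h) (hn : ¬ hit h s lo hi) (hx : x ∈ Icc lo hi)
    (hy : y ∈ Icc lo hi) : col h s x = col h s y := by
  wlog hxy : x ≤ y generalizing x y
  · exact (this hy hx (le_of_not_ge hxy)).symm
  refine le_antisymm (col_mono hh hxy) ?_
  by_contra hlt
  push Not at hlt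
  refine hn ⟨col h s y, ?_, ?_⟩
  · have h1 : (x - s) / h < (col h s y : ℝ) := by
      have := Int.floor_lt.1 hlt
      exact this
    rw [div_lt_iff₀ hh] at h1
    linarith [hx.1]
  · have h1 : (col h s y : ℝ) ≤ (y - s) / h := Int.floor_le _
    rw [le_div_iff₀ hh] at h1
    linarith [hy.2]

lemma col_step {h s x y : ℝ} (hh : 0 < h) (hxy : |x - y| < h) :
    |col h s x - col h s y| ≤ 1 := by
  wlog hle : x ≤ y generalizing x y
  · rw [abs_sub_comm]
    exact this (by rwa [abs_sub_comm]) (le_of_not_ge hle)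
  have h1 : col h s x ≤ col h s y := col_mono hh hle
  have h2 : col h s y < col h s x + 2 := by
    apply Int.floor_lt.2
    have h3 : (x - s) / h < (col h s x : ℝ) + 1 := Int.lt_floor_add_one _
    rw [div_lt_iff₀ hh] at h3
    push_cast
    rw [div_lt_iff₀ hh]
    rw [abs_lt] at hxy
    nlinarith [hxy.1]
  rw [abs_le]
  constructor <;> omega

/-- A set of values seen in three pairwise different colour vectors, in a box with all sides
shorter than the mesh, is hit in two different coordinates. -/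
lemma three_col {ι : Type*} {h : ℝ} (hh : 0 < h) {s : ι → ℝ} {lo hi : ι → ℝ}
    (hsz : ∀ i, hi i - lo i < h) {x y z : ι → ℝ} (hx : ∀ i, x i ∈ Icc (lo i) (hi i))
    (hy : ∀ i, y i ∈ Icc (lo i) (hi i)) (hz : ∀ i, z i ∈ Icc (lo i) (hi i))
    (hxy : (fun i => col h (s i) (x i)) ≠ fun i => col h (s i) (y i))
    (hxz : (fun i => col h (s i) (x i)) ≠ fun i => col h (s i) (z i))
    (hyz : (fun i => col h (s i) (y i)) ≠ fun i => col h (s i) (z i)) :
    ∃ i j, i ≠ j ∧ hit h (s i) (lo i) (hi i) ∧ hit h (s j) (lo j) (hi j) := by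
  have key : ∀ {a b : ι → ℝ}, (∀ i, a i ∈ Icc (lo i) (hi i)) → (∀ i, b i ∈ Icc (lo i) (hi i)) →
      (fun i => col h (s i) (a i)) ≠ (fun i => col h (s i) (b i)) →
      ∃ i, hit h (s i) (lo i) (hi i) ∧ col h (s i) (a i) ≠ col h (s i) (b i) := by
    intro a b ha hb hab
    obtain ⟨i, hi'⟩ := Function.ne_iff.1 hab
    exact ⟨i, by_contra fun hc => hi' (col_const hh hc (ha i) (hb i)), hi'⟩
  obtain ⟨i, h1, h1'⟩ := key hx hy hxy
  obtain ⟨j, h2, h2'⟩ := key hx hz hxz
  obtain ⟨l, h3, h3'⟩ := key hy hz hyz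
  by_contra hcon
  push Not at hcon
  have e1 : i = j := by
    by_contra hne
    exact hcon i j hne h1 h2
  have e2 : i = l := by
    by_contra hne
    exact hcon i l hne h1 h3
  subst e1
  subst e2
  have stp : ∀ {a b : ι → ℝ}, (∀ i, a i ∈ Icc (lo i) (hi i)) → (∀ i, b i ∈ Icc (lo i) (hi i)) →
      |col h (s i) (a i) - col h (s i) (b i)| ≤ 1 := by
    intro a b ha hb
    apply col_step hh
    have := hsz i
    rw [abs_lt]
    constructor <;> linarith [(ha i).1, (ha i).2, (hb i).1, (hb i).2]
  have s1 := stp hx hy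
  have s2 := stp hx hz
  have s3 := stp hy hz
  rw [abs_le] at s1 s2 s3
  omega

/-- The uniform law on `[0, h)`. -/
noncomputable def unif (h : ℝ) : Measure ℝ := ENNReal.ofReal h⁻¹ • volume.restrict (Ico 0 h)

lemma unif_prob {h : ℝ} (hh : 0 < h) : IsProbabilityMeasure (unif h) := by
  constructor
  rw [unif, Measure.smul_apply, Measure.restrict_apply_univ, Real.volume_Ico, sub_zero, smul_eq_mul,
    ← ENNReal.ofReal_mul (by positivity), inv_mul_cancel₀ hh.ne', ENNReal.ofReal_one]

lemma unif_ico {h : ℝ} (hh : 0 < h) : unif h (Ico 0 h)ᶜ = 0 := by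
  rw [unif, Measure.smul_apply, Measure.restrict_apply measurableSet_Ico.compl, compl_inter_self,
    measure_empty, smul_zero]

lemma hit_eq (h lo hi : ℝ) :
    {s : ℝ | hit h s lo hi} = ⋃ k : ℤ, (fun s => s + k * h) ⁻¹' Ioc lo hi := by
  ext s
  simp only [hit, Set.mem_ofPred_eq, mem_iUnion, mem_preimage, mem_Ioc]

lemma hit_meas (h lo hi : ℝ) : MeasurableSet {s : ℝ | hit h s lo hi} := by
  rw [hit_eq]
  exact MeasurableSet.iUnion fun k => (measurable_id.add_const _) measurableSet_Ioc

lemma vol_hit {h : ℝ} (hh : 0 < h) {lo hi : ℝ} :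
    volume ({s : ℝ | hit h s lo hi} ∩ Ico 0 h) ≤ ENNReal.ofReal (hi - lo) := by
  have e1 : ∀ k : ℤ, volume ((fun s : ℝ => s + k * h) ⁻¹' Ioc lo hi ∩ Ico 0 h) =
      volume (Ioc lo hi ∩ Ico (0 + k • h) (0 + (k + 1) • h)) := by
    intro k
    rw [← measure_preimage_add_right volume ((k : ℝ) * h)
      (Ioc lo hi ∩ Ico (0 + k • h) (0 + (k + 1) • h)), preimage_inter]
    congr 2
    ext s
    simp only [mem_Ico, mem_preimage, zsmul_eq_mul]
    push_cast
    constructor
    · rintro ⟨a, b⟩
      constructor <;> nlinarith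
    · rintro ⟨a, b⟩
      constructor <;> nlinarith
  rw [hit_eq, iUnion_inter]
  calc volume (⋃ k : ℤ, (fun s : ℝ => s + k * h) ⁻¹' Ioc lo hi ∩ Ico 0 h)
      ≤ ∑' k : ℤ, volume ((fun s : ℝ => s + k * h) ⁻¹' Ioc lo hi ∩ Ico 0 h) :=
        measure_iUnion_le _
    _ = ∑' k : ℤ, volume (Ioc lo hi ∩ Ico (0 + k • h) (0 + (k + 1) • h)) :=
        tsum_congr e1
    _ = volume (⋃ k : ℤ, Ioc lo hi ∩ Ico (0 + k • h) (0 + (k + 1) • h)) := by
        rw [measure_iUnion]
        · intro i j hij
          exact (pairwise_disjoint_Ico_add_zsmul (0 : ℝ) h hij).mono inter_subset_right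
            inter_subset_right
        · intro k
          exact measurableSet_Ioc.inter measurableSet_Ico
    _ = ENNReal.ofReal (hi - lo) := by
        rw [← inter_iUnion, iUnion_Ico_add_zsmul hh, inter_univ, Real.volume_Ioc]

lemma unif_hit {h : ℝ} (hh : 0 < h) {lo hi : ℝ} (hle : lo ≤ hi) :
    (unif h).real {s : ℝ | hit h s lo hi} ≤ (hi - lo) / h := by
  have h1 : unif h {s : ℝ | hit h s lo hi} ≤ ENNReal.ofReal ((hi - lo) / h) := by
    rw [unif, Measure.smul_apply, Measure.restrict_apply (hit_meas h lo hi), smul_eq_mul,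
      div_eq_inv_mul, ENNReal.ofReal_mul (by positivity)]
    gcongr
    exact vol_hit hh
  rw [Measure.real]
  exact ENNReal.toReal_le_of_le_ofReal (div_nonneg (by linarith) hh.le) h1

/-- **Random grid selection.** -/
theorem grid_select {ι τ : Type*} [Fintype ι] [DecidableEq ι] {h : ℝ} (hh : 0 < h) (T : Finset τ)
    (lo hi : τ → ι → ℝ) (hle : ∀ t ∈ T, ∀ i, lo t i ≤ hi t i) (w : τ → ι → ι → ℝ) (v : τ → ι → ℝ)
    (hw : ∀ t ∈ T, ∀ i j, 0 ≤ w t i j) (hv : ∀ t ∈ T, ∀ i, 0 ≤ v t i) :
    ∃ s : ι → ℝ, (∀ i, 0 ≤ s i ∧ s i < h) ∧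
      (∑ t ∈ T, ∑ i, ∑ j ∈ Finset.univ.erase i,
          w t i j * ({s' : ι → ℝ | hit h (s' i) (lo t i) (hi t i) ∧
            hit h (s' j) (lo t j) (hi t j)}.indicator 1 s : ℝ)) +
        ∑ t ∈ T, ∑ i, v t i * ({s' : ι → ℝ | hit h (s' i) (lo t i) (hi t i)}.indicator 1 s : ℝ) ≤
      (∑ t ∈ T, ∑ i, ∑ j ∈ Finset.univ.erase i,
          w t i j * ((hi t i - lo t i) * (hi t j - lo t j) / h ^ 2)) +
        ∑ t ∈ T, ∑ i, v t i * ((hi t i - lo t i) / h) := by
  classical
  have := unif_prob hh
  set P : Measure (ι → ℝ) := Measure.pi (fun _ => unif h) with hP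
  have : IsProbabilityMeasure P := by rw [hP]; infer_instance
  have hbox : P (Set.pi univ (fun _ : ι => Ico (0 : ℝ) h))ᶜ = 0 := by
    rw [prob_compl_eq_zero_iff (MeasurableSet.univ_pi fun _ => measurableSet_Ico), hP,
      Measure.pi_pi]
    apply Finset.prod_eq_one
    intro i _
    rw [← prob_compl_eq_zero_iff measurableSet_Ico]
    exact unif_ico hh
  have hm1 : ∀ t i, MeasurableSet {s' : ι → ℝ | hit h (s' i) (lo t i) (hi t i)} := by
    intro t i
    have e : {s' : ι → ℝ | hit h (s' i) (lo t i) (hi t i)} =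
        (fun s' : ι → ℝ => s' i) ⁻¹' {s : ℝ | hit h s (lo t i) (hi t i)} := rfl
    rw [e]
    exact (measurable_pi_apply i) (hit_meas h (lo t i) (hi t i))
  have hm2 : ∀ t i j, MeasurableSet {s' : ι → ℝ | hit h (s' i) (lo t i) (hi t i) ∧
      hit h (s' j) (lo t j) (hi t j)} := fun t i j => (hm1 t i).inter (hm1 t j)
  have hp1 : ∀ t i, P.real {s' : ι → ℝ | hit h (s' i) (lo t i) (hi t i)} =
      (unif h).real {s : ℝ | hit h s (lo t i) (hi t i)} := by
    intro t i
    have e : {s' : ι → ℝ | hit h (s' i) (lo t i) (hi t i)} =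
        Set.pi univ (fun k => if k = i then {s : ℝ | hit h s (lo t i) (hi t i)} else univ) := by
      ext s'
      simp only [Set.mem_ofPred_eq, mem_pi, mem_univ, true_implies]
      constructor
      · intro hs k
        by_cases hk : k = i
        · subst hk; simpa using hs
        · simp [hk]
      · intro hs
        simpa using hs i
    rw [e, Measure.real, hP, Measure.pi_pi, Finset.prod_eq_single i]
    · simp [Measure.real]
    · intro b _ hb
      simp [hb]
    · simp
  have hp2 : ∀ t i j, i ≠ j → P.real {s' : ι → ℝ | hit h (s' i) (lo t i) (hi t i) ∧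
      hit h (s' j) (lo t j) (hi t j)} =
      (unif h).real {s : ℝ | hit h s (lo t i) (hi t i)} *
        (unif h).real {s : ℝ | hit h s (lo t j) (hi t j)} := by
    intro t i j hij
    have e : {s' : ι → ℝ | hit h (s' i) (lo t i) (hi t i) ∧ hit h (s' j) (lo t j) (hi t j)} =
        Set.pi univ (fun k => if k = i then {s : ℝ | hit h s (lo t i) (hi t i)} else
          if k = j then {s : ℝ | hit h s (lo t j) (hi t j)} else univ) := by
      ext s'
      simp only [Set.mem_ofPred_eq, mem_pi, mem_univ, true_implies]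
      constructor
      · intro hs k
        by_cases hk : k = i
        · subst hk; simpa using hs.1
        · by_cases hk' : k = j
          · subst hk'; simpa [hk] using hs.2
          · simp [hk, hk']
      · intro hs
        refine ⟨by simpa using hs i, by simpa [hij.symm] using hs j⟩
    rw [e, Measure.real, hP, Measure.pi_pi, ← Finset.mul_prod_erase Finset.univ _ (Finset.mem_univ i),
      ← Finset.mul_prod_erase (Finset.univ.erase i) _ (Finset.mem_erase.2 ⟨hij.symm, Finset.mem_univ j⟩),
      Finset.prod_eq_one]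
    · simp [Measure.real, hij.symm, ENNReal.toReal_mul]
    · intro k hk
      simp only [Finset.mem_erase, Finset.mem_univ, and_true] at hk
      simp [hk.1, hk.2]
  have hi1 : ∀ t i, Integrable (fun s => v t i *
      ({s' : ι → ℝ | hit h (s' i) (lo t i) (hi t i)}.indicator 1 s : ℝ)) P := fun t i =>
    ((integrable_const (1 : ℝ)).indicator (hm1 t i)).const_mul _
  have hi2 : ∀ t i j, Integrable (fun s => w t i j *
      ({s' : ι → ℝ | hit h (s' i) (lo t i) (hi t i) ∧
            hit h (s' j) (lo t j) (hi t j)}.indicator 1 s : ℝ)) P := fun t i j =>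
    ((integrable_const (1 : ℝ)).indicator (hm2 t i j)).const_mul _
  set Φ : (ι → ℝ) → ℝ := fun s => (∑ t ∈ T, ∑ i, ∑ j ∈ Finset.univ.erase i,
          w t i j * ({s' : ι → ℝ | hit h (s' i) (lo t i) (hi t i) ∧
            hit h (s' j) (lo t j) (hi t j)}.indicator 1 s : ℝ)) +
        ∑ t ∈ T, ∑ i, v t i * ({s' : ι → ℝ | hit h (s' i) (lo t i) (hi t i)}.indicator 1 s : ℝ)
    with hΦ
  have hIa : Integrable (fun s => ∑ t ∈ T, ∑ i, ∑ j ∈ Finset.univ.erase i,
          w t i j * ({s' : ι → ℝ | hit h (s' i) (lo t i) (hi t i) ∧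
            hit h (s' j) (lo t j) (hi t j)}.indicator 1 s : ℝ)) P :=
    integrable_finsetSum _ fun t _ => integrable_finsetSum _ fun i _ =>
      integrable_finsetSum _ fun j _ => hi2 t i j
  have hIb : Integrable (fun s => ∑ t ∈ T, ∑ i, v t i *
      ({s' : ι → ℝ | hit h (s' i) (lo t i) (hi t i)}.indicator 1 s : ℝ)) P :=
    integrable_finsetSum _ fun t _ => integrable_finsetSum _ fun i _ => hi1 t i
  obtain ⟨s, hsN, hs⟩ := exists_notMem_null_le_integral (hIa.add hIb) hbox
  refine ⟨s, ?_, ?_⟩
  · intro i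
    have := (not_not.1 hsN) i (mem_univ i)
    exact ⟨this.1, this.2⟩
  · refine hs.trans ?_
    have e1 : (∫ a, ((fun s => ∑ t ∈ T, ∑ i, ∑ j ∈ Finset.univ.erase i,
          w t i j * ({s' : ι → ℝ | hit h (s' i) (lo t i) (hi t i) ∧
            hit h (s' j) (lo t j) (hi t j)}.indicator 1 s : ℝ)) + fun s => ∑ t ∈ T, ∑ i, v t i *
      ({s' : ι → ℝ | hit h (s' i) (lo t i) (hi t i)}.indicator 1 s : ℝ)) a ∂P) =
        (∑ t ∈ T, ∑ i, ∑ j ∈ Finset.univ.erase i,
          w t i j * P.real {s' : ι → ℝ | hit h (s' i) (lo t i) (hi t i) ∧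
            hit h (s' j) (lo t j) (hi t j)}) +
        ∑ t ∈ T, ∑ i, v t i * P.real {s' : ι → ℝ | hit h (s' i) (lo t i) (hi t i)} := by
      rw [integral_add' hIa hIb, integral_finsetSum _ fun t _ => integrable_finsetSum _ fun i _ =>
        integrable_finsetSum _ fun j _ => hi2 t i j,
        integral_finsetSum _ fun t _ => integrable_finsetSum _ fun i _ => hi1 t i]
      congr 1
      · refine Finset.sum_congr rfl fun t _ => ?_
        rw [integral_finsetSum _ fun i _ => integrable_finsetSum _ fun j _ => hi2 t i j]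
        refine Finset.sum_congr rfl fun i _ => ?_
        rw [integral_finsetSum _ fun j _ => hi2 t i j]
        refine Finset.sum_congr rfl fun j _ => ?_
        rw [integral_const_mul]
        congr 1
        exact integral_indicator_one (hm2 t i j)
      · refine Finset.sum_congr rfl fun t _ => ?_
        rw [integral_finsetSum _ fun i _ => hi1 t i]
        refine Finset.sum_congr rfl fun i _ => ?_
        rw [integral_const_mul]
        congr 1
        exact integral_indicator_one (hm1 t i)
    rw [e1]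
    gcongr with t ht i _ j hj t ht i _
    · exact hw t ht i j
    · rw [hp2 t i j (Finset.mem_erase.1 hj).1.symm]
      have a1 := unif_hit hh (hle t ht i)
      have a2 := unif_hit hh (hle t ht j)
      calc _ ≤ ((hi t i - lo t i) / h) * ((hi t j - lo t j) / h) := by
            gcongr
            exact div_nonneg (by linarith [hle t ht i]) hh.le
        _ = _ := by rw [div_mul_div_comm]; ring_nf
    · exact hv t ht i
    · rw [hp1]
      exact unif_hit hh (hle t ht i)

end Vale.Agent.P116.KB.Grid841
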