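/-
Copyright (c) 2026. All rights reserved.
-/
import Mathlib

/-!
# P116, block [7], row 7-R1: the numbers

`num_budget`: the pure arithmetic at the end of block [7].  `E` = ends, `F` = finite set of big
ends, `o i c` = oscillation of the `i`-th function on the end `c`; the bad ends `b` and the pieces
`Pc` of one step are given together with the owner `own` (a bad end, at most one piece per bad end);
an owned piece has oscillation at most `o + C h`, the other ones at most `C h`, and the number of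
bad ends and of free pieces is at most `K (#F + (V + A)/h² + Bd/h + 1)`.  Then, for all `h` below a
threshold which depends only on the fixed data, the sum of the squares over the pieces is at most
`S + δ`.
-/

namespace Vale.Agent.P116.KB.Num169

open Finset

/-- one function: the sum over the pieces, before the choice of `h` -/
theorem sum_le {E π : Type*} (F : Finset E) (o : E → ℝ) (ho : ∀ c, 0 ≤ o c)
    {S V t N : ℝ} (hS : ∀ J : Finset E, ∑ c ∈ J, (o c) ^ 2 ≤ S)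
    (hV : ∀ J : Finset E, Disjoint J F → ∑ c ∈ J, (o c) ^ 2 ≤ V) (ht : 0 ≤ t)
    (b : Finset E) (Pc : Finset π) (own : π → Option E) (x : π → ℝ)
    (hx : ∀ P ∈ Pc, 0 ≤ x P)
    (hb : ∀ P ∈ Pc, ∀ c, own P = some c → c ∈ b)
    (hinj : ∀ P ∈ Pc, ∀ P' ∈ Pc, ∀ c, own P = some c → own P' = some c → P = P')
    (h1 : ∀ P ∈ Pc, ∀ c, own P = some c → x P ≤ o c + t)
    (h2 : ∀ P ∈ Pc, own P = none → x P ≤ t)
    (n : ℕ) (hn : ∀ R : Finset π, (∀ P ∈ R, P ∈ Pc ∧ own P = none) → R.card ≤ n)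
    (hN : (b.card : ℝ) + n ≤ N) :
    ∑ P ∈ Pc, (x P) ^ 2 ≤ S + (V + 2 * t * ∑ c ∈ F, o c + 3 * t ^ 2 * N) := by
  classical
  -- free pieces
  have hfree : ∑ P ∈ Pc.filter (fun P => own P = none), (x P) ^ 2 ≤ n * t ^ 2 := by
    calc ∑ P ∈ Pc.filter (fun P => own P = none), (x P) ^ 2
        ≤ ∑ P ∈ Pc.filter (fun P => own P = none), t ^ 2 := by
          refine Finset.sum_le_sum fun P hP => ?_
          rw [Finset.mem_filter] at hP
          exact pow_le_pow_left₀ (hx P hP.1) (h2 P hP.1 hP.2) 2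
      _ = ((Pc.filter (fun P => own P = none)).card : ℝ) * t ^ 2 := by
          rw [Finset.sum_const, nsmul_eq_mul]
      _ ≤ n * t ^ 2 := by
          refine mul_le_mul_of_nonneg_right ?_ (sq_nonneg t)
          exact_mod_cast hn _ (fun P hP => by simpa using hP)
  -- owned pieces
  have hown : ∑ P ∈ Pc.filter (fun P => ¬ own P = none), (x P) ^ 2 ≤ ∑ c ∈ b, (o c + t) ^ 2 := by
    set Q := Pc.filter (fun P => ¬ own P = none) with hQ
    have hQm : ∀ P ∈ Q, P ∈ Pc ∧ ∃ c, own P = some c := by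
      intro P hP
      rw [hQ, Finset.mem_filter] at hP
      exact ⟨hP.1, Option.ne_none_iff_exists'.1 hP.2⟩
    -- the images
    have himg : ∑ P ∈ Q, (x P) ^ 2 ≤ ∑ P ∈ Q, ((own P).elim 0 fun c => (o c + t) ^ 2) := by
      refine Finset.sum_le_sum fun P hP => ?_
      obtain ⟨hPc, c, hc⟩ := hQm P hP
      rw [hc]
      exact pow_le_pow_left₀ (hx P hPc) (h1 P hPc c hc) 2
    refine himg.trans ?_
    have hinj' : Set.InjOn own (Q : Set π) := by
      intro P hP P' hP' heq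
      obtain ⟨hPc, c, hc⟩ := hQm P hP
      obtain ⟨hPc', -⟩ := hQm P' hP'
      exact hinj P hPc P' hPc' c hc (heq ▸ hc)
    rw [← Finset.sum_image (f := fun z : Option E => z.elim 0 fun c => (o c + t) ^ 2) hinj']
    have hsub : Q.image own ⊆ b.image some := by
      intro z hz
      rw [Finset.mem_image] at hz
      obtain ⟨P, hP, rfl⟩ := hz
      obtain ⟨hPc, c, hc⟩ := hQm P hP
      rw [hc, Finset.mem_image]
      exact ⟨c, hb P hPc c hc, rfl⟩
    refine (Finset.sum_le_sum_of_subset_of_nonneg hsub ?_).trans ?_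
    · intro z hz _
      rw [Finset.mem_image] at hz
      obtain ⟨c, -, rfl⟩ := hz
      exact sq_nonneg _
    · rw [Finset.sum_image (fun a _ b _ h => Option.some.inj h)]
      exact le_of_eq rfl
  -- the sum over the bad ends
  have hbad : ∑ c ∈ b, (o c + t) ^ 2
      ≤ S + (V + 2 * t * ∑ c ∈ F, o c) + 2 * t ^ 2 * b.card := by
    have e1 : ∑ c ∈ b, (o c + t) ^ 2
        = ∑ c ∈ b, (o c) ^ 2 + ∑ c ∈ b, 2 * t * o c + t ^ 2 * b.card := by
      rw [← Finset.sum_add_distrib]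
      have : (t ^ 2 * b.card : ℝ) = ∑ c ∈ b, t ^ 2 := by
        rw [Finset.sum_const, nsmul_eq_mul]; ring
      rw [this, ← Finset.sum_add_distrib]
      exact Finset.sum_congr rfl fun c _ => by ring
    have e2 : ∑ c ∈ b, 2 * t * o c
        = ∑ c ∈ b.filter (fun c => c ∈ F), 2 * t * o c
          + ∑ c ∈ b.filter (fun c => c ∉ F), 2 * t * o c :=
      (Finset.sum_filter_add_sum_filter_not b (fun c => c ∈ F) _).symm
    have e3 : ∑ c ∈ b.filter (fun c => c ∈ F), 2 * t * o c ≤ 2 * t * ∑ c ∈ F, o c := by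
      rw [Finset.mul_sum]
      refine Finset.sum_le_sum_of_subset_of_nonneg ?_ fun c _ _ => ?_
      · intro c hc
        exact (Finset.mem_filter.1 hc).2
      · have := ho c
        positivity
    have e4 : ∑ c ∈ b.filter (fun c => c ∉ F), 2 * t * o c ≤ V + t ^ 2 * b.card := by
      have a1 : ∑ c ∈ b.filter (fun c => c ∉ F), 2 * t * o c
          ≤ ∑ c ∈ b.filter (fun c => c ∉ F), ((o c) ^ 2 + t ^ 2) :=
        Finset.sum_le_sum fun c _ => by nlinarith [sq_nonneg (o c - t)]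
      have a2 : ∑ c ∈ b.filter (fun c => c ∉ F), (o c) ^ 2 ≤ V := by
        refine hV _ ?_
        rw [Finset.disjoint_left]
        intro c hc
        exact (Finset.mem_filter.1 hc).2
      have a3 : ∑ c ∈ b.filter (fun c => c ∉ F), t ^ 2 ≤ t ^ 2 * b.card := by
        rw [Finset.sum_const, nsmul_eq_mul, mul_comm]
        refine mul_le_mul_of_nonneg_left ?_ (sq_nonneg t)
        exact_mod_cast Finset.card_filter_le _ _
      rw [Finset.sum_add_distrib] at a1
      linarith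
    have e5 := hS b
    rw [e1, e2]
    linarith
  rw [← Finset.sum_filter_add_sum_filter_not Pc (fun P => own P = none)]
  have hb0 : (0 : ℝ) ≤ b.card := Nat.cast_nonneg _
  have hn0 : (0 : ℝ) ≤ n := Nat.cast_nonneg _
  have ht2 : 0 ≤ t ^ 2 := sq_nonneg t
  have : 2 * t ^ 2 * b.card + n * t ^ 2 ≤ 3 * t ^ 2 * N := by
    nlinarith [mul_nonneg ht2 hb0, mul_nonneg ht2 hn0, mul_le_mul_of_nonneg_left hN ht2]
  linarith

/-- **the numbers of block [7]** -/
theorem num_budget {E ι π : Type*} [Finite ι] (F : Finset E) (o : ι → E → ℝ)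
    (ho : ∀ i c, 0 ≤ o i c) (S : ι → ℝ) (hS : ∀ i (J : Finset E), ∑ c ∈ J, (o i c) ^ 2 ≤ S i)
    {V A Bd C K δ : ℝ} (hV0 : 0 ≤ V)
    (hV : ∀ i (J : Finset E), Disjoint J F → ∑ c ∈ J, (o i c) ^ 2 ≤ V)
    (hA : 0 ≤ A) (hB : 0 ≤ Bd) (hC : 0 ≤ C) (hK : 0 ≤ K)
    (hδ : V + 3 * C ^ 2 * K * (V + A) < δ) :
    ∃ h0 : ℝ, 0 < h0 ∧ ∀ h : ℝ, 0 < h → h < h0 →
      ∀ (b : Finset E) (Pc : Finset π) (own : π → Option E) (x : ι → π → ℝ),
      (∀ i, ∀ P ∈ Pc, 0 ≤ x i P) →
      (∀ P ∈ Pc, ∀ c, own P = some c → c ∈ b) →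
      (∀ P ∈ Pc, ∀ P' ∈ Pc, ∀ c, own P = some c → own P' = some c → P = P') →
      (∀ P ∈ Pc, ∀ c, own P = some c → ∀ i, x i P ≤ o i c + C * h) →
      (∀ P ∈ Pc, own P = none → ∀ i, x i P ≤ C * h) →
      ∀ n : ℕ, (∀ R : Finset π, (∀ P ∈ R, P ∈ Pc ∧ own P = none) → R.card ≤ n) →
      ((b.card : ℝ) + n ≤ K * (F.card + (V + A) / h ^ 2 + Bd / h + 1)) →
      ∀ i, ∑ P ∈ Pc, (x i P) ^ 2 ≤ S i + δ := by
  classical
  haveI := Fintype.ofFinite ι
  set M : ℝ := ∑ i, 2 * C * ∑ c ∈ F, o i c + 3 * C ^ 2 * K * (F.card + Bd + 1) with hM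
  have hFc : (0 : ℝ) ≤ F.card := Nat.cast_nonneg _
  have hsi : ∀ i, 0 ≤ 2 * C * ∑ c ∈ F, o i c := fun i => by
    have : 0 ≤ ∑ c ∈ F, o i c := Finset.sum_nonneg fun c _ => ho i c
    positivity
  have hM0 : 0 ≤ M := by
    have : 0 ≤ ∑ i, 2 * C * ∑ c ∈ F, o i c := Finset.sum_nonneg fun i _ => hsi i
    positivity
  have hg : 0 < δ - (V + 3 * C ^ 2 * K * (V + A)) := by linarith
  refine ⟨min 1 ((δ - (V + 3 * C ^ 2 * K * (V + A))) / (M + 1)), ?_, ?_⟩
  · exact lt_min one_pos (div_pos hg (by linarith))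
  intro h hh hlt b Pc own x hx hb hinj h1 h2 n hn hN i
  have hl1 : h < 1 := lt_of_lt_of_le hlt (min_le_left _ _)
  have hl2 : h < (δ - (V + 3 * C ^ 2 * K * (V + A))) / (M + 1) :=
    lt_of_lt_of_le hlt (min_le_right _ _)
  have hl3 : h * (M + 1) < δ - (V + 3 * C ^ 2 * K * (V + A)) := by
    rwa [lt_div_iff₀ (by linarith)] at hl2
  have key := sum_le F (o i) (ho i) (hS i) (hV i) (t := C * h) (by positivity) b Pc own (x i)
    (hx i) hb hinj (fun P hP c hc => h1 P hP c hc i) (fun P hP hc => h2 P hP hc i) n hn hN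
  refine key.trans ?_
  have e1 : 3 * (C * h) ^ 2 * (K * (F.card + (V + A) / h ^ 2 + Bd / h + 1))
      = 3 * C ^ 2 * K * (V + A) + 3 * C ^ 2 * K * (F.card * h ^ 2 + Bd * h + h ^ 2) := by
    field_simp
    ring
  have hh2 : h ^ 2 ≤ h := by nlinarith
  have hCK : 0 ≤ 3 * C ^ 2 * K := by positivity
  have e2 : 3 * C ^ 2 * K * (F.card * h ^ 2 + Bd * h + h ^ 2)
      ≤ h * (3 * C ^ 2 * K * (F.card + Bd + 1)) := by
    have : F.card * h ^ 2 + Bd * h + h ^ 2 ≤ h * (F.card + Bd + 1) := by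
      nlinarith [mul_le_mul_of_nonneg_left hh2 hFc]
    calc 3 * C ^ 2 * K * (F.card * h ^ 2 + Bd * h + h ^ 2)
        ≤ 3 * C ^ 2 * K * (h * (F.card + Bd + 1)) := mul_le_mul_of_nonneg_left this hCK
      _ = _ := by ring
  have e3 : 2 * (C * h) * ∑ c ∈ F, o i c ≤ h * ∑ i, 2 * C * ∑ c ∈ F, o i c := by
    have : 2 * C * ∑ c ∈ F, o i c ≤ ∑ i, 2 * C * ∑ c ∈ F, o i c :=
      Finset.single_le_sum (f := fun i => 2 * C * ∑ c ∈ F, o i c) (fun j _ => hsi j)
        (Finset.mem_univ i)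
    calc 2 * (C * h) * ∑ c ∈ F, o i c = h * (2 * C * ∑ c ∈ F, o i c) := by ring
      _ ≤ _ := mul_le_mul_of_nonneg_left this hh.le
  have e4 : h * ∑ i, 2 * C * ∑ c ∈ F, o i c + h * (3 * C ^ 2 * K * (F.card + Bd + 1)) = h * M := by
    rw [hM]; ring
  rw [e1]
  nlinarith

end Vale.Agent.P116.KB.Num169
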