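import Vale.Agent.P116.KB.Grid841
import Mathlib.MeasureTheory.Measure.Prod
import Mathlib.MeasureTheory.Group.Prod
import Mathlib.MeasureTheory.Measure.Lebesgue.EqHaar

/-!
# Selection of the offsets (P116, block [7R], SEL)

Closed hits `hitc`, and the selection theorem `sel`: offsets avoiding given null sets, finitely many
bad ends, and infinitely many meshes for which the number of bad ends, of elements hit in two
coordinates and of boundary elements hit in one coordinate is at most the expectation plus one.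
-/

open MeasureTheory Set Filter Topology
open scoped ENNReal

namespace Vale.Agent.P116.KB.Grid841

/-- The closed interval `[lo, hi]` contains a point of the grid `s + h ℤ`. -/
def hitc (h s lo hi : ℝ) : Prop := ∃ k : ℤ, lo ≤ s + k * h ∧ s + k * h ≤ hi

variable {ι : Type*}

/-- Two different coordinates are hit. -/
def two (h : ℝ) (s lo hi : ι → ℝ) : Prop :=
  ∃ i j, i ≠ j ∧ hitc h (s i) (lo i) (hi i) ∧ hitc h (s j) (lo j) (hi j)

/-- Some coordinate is hit. -/
def one (h : ℝ) (s lo hi : ι → ℝ) : Prop := ∃ i, hitc h (s i) (lo i) (hi i)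

/-- A bad box: hit in two different coordinates, or of size at least `h` in some coordinate. -/
def bad (h : ℝ) (s lo hi : ι → ℝ) : Prop := two h s lo hi ∨ ∃ i, h ≤ hi i - lo i

lemma hitc_of_hit {h s lo hi : ℝ} (H : hit h s lo hi) : hitc h s lo hi := by
  obtain ⟨k, h1, h2⟩ := H
  exact ⟨k, h1.le, h2⟩

lemma colc_const {h s lo hi x y : ℝ} (hh : 0 < h) (hn : ¬ hitc h s lo hi) (hx : x ∈ Icc lo hi)
    (hy : y ∈ Icc lo hi) : col h s x = col h s y :=
  col_const hh (fun H => hn (hitc_of_hit H)) hx hy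

lemma hitc_mono {h s lo hi lo' hi' : ℝ} (H : hitc h s lo hi) (h1 : lo' ≤ lo) (h2 : hi ≤ hi') :
    hitc h s lo' hi' := by
  obtain ⟨k, a, b⟩ := H
  exact ⟨k, h1.trans a, b.trans h2⟩

lemma two_mono {h : ℝ} {s lo hi lo' hi' : ι → ℝ} (H : two h s lo hi) (h1 : ∀ i, lo' i ≤ lo i)
    (h2 : ∀ i, hi i ≤ hi' i) : two h s lo' hi' := by
  obtain ⟨i, j, hij, a, b⟩ := H
  exact ⟨i, j, hij, hitc_mono a (h1 i) (h2 i), hitc_mono b (h1 j) (h2 j)⟩

lemma hitc_eq (h lo hi : ℝ) :
    {s : ℝ | hitc h s lo hi} = ⋃ k : ℤ, (fun s => s + k * h) ⁻¹' Icc lo hi := by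
  ext s
  simp only [hitc, Set.mem_ofPred_eq, mem_iUnion, mem_preimage, mem_Icc]

lemma hitc_meas (h lo hi : ℝ) : MeasurableSet {s : ℝ | hitc h s lo hi} := by
  rw [hitc_eq]
  exact MeasurableSet.iUnion fun k => (measurable_id.add_const _) measurableSet_Icc

lemma unif_ac (h : ℝ) : unif h ≪ volume := by
  intro A hA
  rw [unif, Measure.smul_apply, smul_eq_mul]
  have : volume.restrict (Ico 0 h) A ≤ volume A := Measure.restrict_le_self A
  rw [hA] at this
  rw [le_antisymm this bot_le]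
  exact mul_zero _

lemma unif_hitc {h : ℝ} (hh : 0 < h) {lo hi : ℝ} (hle : lo ≤ hi) :
    unif h {s : ℝ | hitc h s lo hi} ≤ ENNReal.ofReal ((hi - lo) / h) := by
  have := unif_prob hh
  have hsub : {s : ℝ | hitc h s lo hi} ⊆ {s : ℝ | hit h s lo hi} ∪
      ⋃ k : ℤ, {lo - k * h} := by
    rintro s ⟨k, h1, h2⟩
    rcases h1.lt_or_eq with h3 | h3
    · exact Or.inl ⟨k, h3, h2⟩
    · refine Or.inr (mem_iUnion.2 ⟨k, ?_⟩)
      rw [mem_singleton_iff]
      linarith
  have hnull : unif h (⋃ k : ℤ, {lo - k * h}) = 0 := by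
    apply unif_ac h
    exact (countable_iUnion fun k => countable_singleton _).measure_zero _
  have h1 : unif h {s : ℝ | hit h s lo hi} ≤ ENNReal.ofReal ((hi - lo) / h) := by
    rw [← ENNReal.ofReal_toReal (measure_ne_top (unif h) {s : ℝ | hit h s lo hi})]
    exact ENNReal.ofReal_le_ofReal (unif_hit hh hle)
  calc unif h {s : ℝ | hitc h s lo hi} ≤ unif h ({s : ℝ | hit h s lo hi} ∪
      ⋃ k : ℤ, {lo - k * h}) := measure_mono hsub
    _ ≤ unif h {s : ℝ | hit h s lo hi} + unif h (⋃ k : ℤ, {lo - k * h}) := measure_union_le _ _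
    _ ≤ _ := by rw [hnull, add_zero]; exact h1

variable [Fintype ι]

/-- The law of the offsets. -/
noncomputable def PP (ι : Type*) [Fintype ι] (h : ℝ) : Measure (ι → ℝ) :=
  Measure.pi (fun _ => unif h)

lemma PP_prob {h : ℝ} (hh : 0 < h) : IsProbabilityMeasure (PP ι h) := by
  have := unif_prob hh
  rw [PP]
  infer_instance

lemma PP_box {h : ℝ} (hh : 0 < h) : PP ι h (Set.pi univ (fun _ : ι => Ico (0 : ℝ) h))ᶜ = 0 := by
  have := unif_prob hh
  have := PP_prob (ι := ι) hh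
  rw [prob_compl_eq_zero_iff (MeasurableSet.univ_pi fun _ => measurableSet_Ico), PP,
    Measure.pi_pi]
  apply Finset.prod_eq_one
  intro i _
  rw [← prob_compl_eq_zero_iff measurableSet_Ico]
  exact unif_ico hh

lemma PP_one {h : ℝ} (hh : 0 < h) (i : ι) (A : Set ℝ) :
    PP ι h {s | s i ∈ A} = unif h A := by
  classical
  have := unif_prob hh
  have e : {s : ι → ℝ | s i ∈ A} = Set.pi univ (fun k => if k = i then A else univ) := by
    ext s'
    simp only [Set.mem_ofPred_eq, Set.mem_pi, mem_univ, true_implies]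
    constructor
    · intro hs k
      by_cases hk : k = i
      · subst hk; simpa using hs
      · simp [hk]
    · intro hs
      simpa using hs i
  rw [e, PP, Measure.pi_pi, Finset.prod_eq_single i]
  · simp
  · intro b _ hb
    simp [hb]
  · simp

lemma PP_two {h : ℝ} (hh : 0 < h) {i j : ι} (hij : i ≠ j) (A B : Set ℝ) :
    PP ι h {s | s i ∈ A ∧ s j ∈ B} = unif h A * unif h B := by
  classical
  have := unif_prob hh
  have e : {s : ι → ℝ | s i ∈ A ∧ s j ∈ B} =
      Set.pi univ (fun k => if k = i then A else if k = j then B else univ) := by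
    ext s'
    simp only [Set.mem_ofPred_eq, Set.mem_pi, mem_univ, true_implies]
    constructor
    · intro hs k
      by_cases hk : k = i
      · subst hk; simpa using hs.1
      · by_cases hk' : k = j
        · subst hk'; simpa [hk] using hs.2
        · simp [hk, hk']
    · intro hs
      refine ⟨by simpa using hs i, by simpa [hij.symm] using hs j⟩
  rw [e, PP, Measure.pi_pi, ← Finset.mul_prod_erase Finset.univ _ (Finset.mem_univ i),
    ← Finset.mul_prod_erase (Finset.univ.erase i) _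
      (Finset.mem_erase.2 ⟨hij.symm, Finset.mem_univ j⟩), Finset.prod_eq_one]
  · simp [hij.symm]
  · intro k hk
    simp only [Finset.mem_erase, Finset.mem_univ, and_true] at hk
    simp [hk.1, hk.2]

/-- The law of two different offsets is absolutely continuous. -/
lemma PP_null {h : ℝ} (hh : 0 < h) {i j : ι} (hij : i ≠ j) {N : Set (ℝ × ℝ)}
    (hN : volume N = 0) : PP ι h {s | (s i, s j) ∈ N} = 0 := by
  have := unif_prob hh
  have := PP_prob (ι := ι) hh
  have hm : Measurable (fun s : ι → ℝ => (s i, s j)) :=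
    (measurable_pi_apply i).prodMk (measurable_pi_apply j)
  have e : (PP ι h).map (fun s => (s i, s j)) = (unif h).prod (unif h) := by
    symm
    apply Measure.prod_eq
    intro A B hA hB
    rw [Measure.map_apply hm (hA.prod hB), ← PP_two hh hij A B]
    rfl
  have h1 : (unif h).prod (unif h) (toMeasurable volume N) = 0 := by
    have hac : (unif h).prod (unif h) ≪ (volume : Measure (ℝ × ℝ)) := by
      rw [Measure.volume_eq_prod]
      exact (unif_ac h).prod (unif_ac h)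
    apply hac
    rw [measure_toMeasurable, hN]
  rw [← e, Measure.map_apply hm (measurableSet_toMeasurable _ _)] at h1
  refine measure_mono_null ?_ h1
  intro s hs
  exact subset_toMeasurable _ _ hs

lemma PP_null_grid {h : ℝ} (hh : 0 < h) {i j : ι} (hij : i ≠ j) {N : Set (ℝ × ℝ)}
    (hN : volume N = 0) (k l : ℤ) : PP ι h {s | (s i + k * h, s j + l * h) ∈ N} = 0 := by
  have e : {s : ι → ℝ | (s i + k * h, s j + l * h) ∈ N} =
      {s : ι → ℝ | (s i, s j) ∈ (fun p : ℝ × ℝ => ((k : ℝ) * h, (l : ℝ) * h) + p) ⁻¹' N} := by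
    ext s
    simp [add_comm]
  rw [e]
  apply PP_null hh hij
  rw [Measure.volume_eq_prod] at hN ⊢
  rw [measure_preimage_add]
  exact hN

lemma two_meas (h : ℝ) (lo hi : ι → ℝ) : MeasurableSet {s : ι → ℝ | two h s lo hi} := by
  have e : {s : ι → ℝ | two h s lo hi} = ⋃ i, ⋃ j, ⋃ _ : i ≠ j,
      ((fun s : ι → ℝ => s i) ⁻¹' {s : ℝ | hitc h s (lo i) (hi i)} ∩
        (fun s : ι → ℝ => s j) ⁻¹' {s : ℝ | hitc h s (lo j) (hi j)}) := by
    ext s
    simp only [two, Set.mem_ofPred_eq, mem_iUnion, mem_inter_iff, mem_preimage, exists_prop]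
  rw [e]
  exact MeasurableSet.iUnion fun i => MeasurableSet.iUnion fun j => MeasurableSet.iUnion fun _ =>
    ((measurable_pi_apply i) (hitc_meas _ _ _)).inter ((measurable_pi_apply j) (hitc_meas _ _ _))

lemma one_meas (h : ℝ) (lo hi : ι → ℝ) : MeasurableSet {s : ι → ℝ | one h s lo hi} := by
  have e : {s : ι → ℝ | one h s lo hi} = ⋃ i,
      ((fun s : ι → ℝ => s i) ⁻¹' {s : ℝ | hitc h s (lo i) (hi i)}) := by
    ext s
    simp [one]
  rw [e]
  exact MeasurableSet.iUnion fun i => (measurable_pi_apply i) (hitc_meas _ _ _)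

lemma bad_meas (h : ℝ) (lo hi : ι → ℝ) : MeasurableSet {s : ι → ℝ | bad h s lo hi} := by
  by_cases hc : ∃ i, h ≤ hi i - lo i
  · have : {s : ι → ℝ | bad h s lo hi} = univ := eq_univ_of_forall fun s => Or.inr hc
    rw [this]
    exact MeasurableSet.univ
  · have : {s : ι → ℝ | bad h s lo hi} = {s : ι → ℝ | two h s lo hi} := by
      ext s
      simp [bad, hc]
    rw [this]
    exact two_meas h lo hi

lemma P_one_le {h : ℝ} (hh : 0 < h) {lo hi : ι → ℝ} (hle : ∀ i, lo i ≤ hi i) :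
    PP ι h {s | one h s lo hi} ≤ ENNReal.ofReal ((∑ i, (hi i - lo i)) / h) := by
  have e : {s : ι → ℝ | one h s lo hi} = ⋃ i ∈ (Finset.univ : Finset ι),
      {s : ι → ℝ | s i ∈ {x : ℝ | hitc h x (lo i) (hi i)}} := by
    ext s
    simp [one]
  rw [e]
  calc PP ι h (⋃ i ∈ (Finset.univ : Finset ι), {s : ι → ℝ | s i ∈ {x : ℝ | hitc h x (lo i) (hi i)}})
      ≤ ∑ i, PP ι h {s : ι → ℝ | s i ∈ {x : ℝ | hitc h x (lo i) (hi i)}} :=
        measure_biUnion_finset_le _ _
    _ ≤ ∑ i, ENNReal.ofReal ((hi i - lo i) / h) := by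
        gcongr with i _
        rw [PP_one hh]
        exact unif_hitc hh (hle i)
    _ = _ := by
        rw [← ENNReal.ofReal_sum_of_nonneg fun i _ => div_nonneg (by linarith [hle i]) hh.le,
          Finset.sum_div]

lemma P_two_le [DecidableEq ι] {h : ℝ} (hh : 0 < h) {lo hi : ι → ℝ} (hle : ∀ i, lo i ≤ hi i) :
    PP ι h {s | two h s lo hi} ≤
      ENNReal.ofReal ((∑ i, ∑ j ∈ Finset.univ.erase i, (hi i - lo i) * (hi j - lo j)) / h ^ 2) := by
  have e : {s : ι → ℝ | two h s lo hi} ⊆ ⋃ i ∈ (Finset.univ : Finset ι),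
      ⋃ j ∈ (Finset.univ : Finset ι).erase i,
      {s : ι → ℝ | s i ∈ {x : ℝ | hitc h x (lo i) (hi i)} ∧
        s j ∈ {x : ℝ | hitc h x (lo j) (hi j)}} := by
    rintro s ⟨i, j, hij, h1, h2⟩
    simp only [mem_iUnion]
    exact ⟨i, Finset.mem_univ i, j, Finset.mem_erase.2 ⟨hij.symm, Finset.mem_univ j⟩, h1, h2⟩
  refine (measure_mono e).trans ?_
  calc PP ι h (⋃ i ∈ (Finset.univ : Finset ι), ⋃ j ∈ (Finset.univ : Finset ι).erase i,
      {s : ι → ℝ | s i ∈ {x : ℝ | hitc h x (lo i) (hi i)} ∧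
        s j ∈ {x : ℝ | hitc h x (lo j) (hi j)}})
      ≤ ∑ i, PP ι h (⋃ j ∈ (Finset.univ : Finset ι).erase i,
      {s : ι → ℝ | s i ∈ {x : ℝ | hitc h x (lo i) (hi i)} ∧
        s j ∈ {x : ℝ | hitc h x (lo j) (hi j)}}) := measure_biUnion_finset_le _ _
    _ ≤ ∑ i, ∑ j ∈ Finset.univ.erase i, PP ι h {s : ι → ℝ |
        s i ∈ {x : ℝ | hitc h x (lo i) (hi i)} ∧ s j ∈ {x : ℝ | hitc h x (lo j) (hi j)}} := by
        gcongr with i _
        exact measure_biUnion_finset_le _ _
    _ ≤ ∑ i, ∑ j ∈ Finset.univ.erase i,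
        ENNReal.ofReal ((hi i - lo i) * (hi j - lo j) / h ^ 2) := by
        gcongr with i _ j hj
        rw [PP_two hh (Finset.mem_erase.1 hj).1.symm]
        calc _ ≤ ENNReal.ofReal ((hi i - lo i) / h) * ENNReal.ofReal ((hi j - lo j) / h) :=
              mul_le_mul' (unif_hitc hh (hle i)) (unif_hitc hh (hle j))
          _ = _ := by
              rw [← ENNReal.ofReal_mul (div_nonneg (by linarith [hle i]) hh.le), div_mul_div_comm]
              ring_nf
    _ = _ := by
        have hnn : ∀ i j, 0 ≤ (hi i - lo i) * (hi j - lo j) / h ^ 2 := fun i j =>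
          div_nonneg (mul_nonneg (by linarith [hle i]) (by linarith [hle j])) (by positivity)
        rw [Finset.sum_div]
        rw [ENNReal.ofReal_sum_of_nonneg]
        · refine Finset.sum_congr rfl fun i _ => ?_
          rw [Finset.sum_div, ENNReal.ofReal_sum_of_nonneg]
          exact fun j _ => hnn i j
        · intro i _
          rw [Finset.sum_div]
          exact Finset.sum_nonneg fun j _ => hnn i j

lemma off_le_sq [DecidableEq ι] (a : ι → ℝ) :
    (∑ i, ∑ j ∈ Finset.univ.erase i, a i * a j) + ∑ i, a i ^ 2 = (∑ i, a i) ^ 2 := by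
  rw [← Finset.sum_add_distrib, sq, Finset.sum_mul_sum]
  refine Finset.sum_congr rfl fun i _ => ?_
  rw [← Finset.sum_erase_add Finset.univ _ (Finset.mem_univ i), sq]

lemma P_bad_le {h : ℝ} (hh : 0 < h) {lo hi : ι → ℝ} (hle : ∀ i, lo i ≤ hi i) :
    PP ι h {s | bad h s lo hi} ≤ ENNReal.ofReal ((∑ i, (hi i - lo i)) ^ 2 / h ^ 2) := by
  classical
  have := PP_prob (ι := ι) hh
  have hsq := off_le_sq (fun i => hi i - lo i)
  by_cases hc : ∃ i, h ≤ hi i - lo i
  · obtain ⟨i, hi'⟩ := hc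
    refine prob_le_one.trans ?_
    rw [ENNReal.one_le_ofReal, one_le_div (by positivity)]
    have h1 : h ≤ ∑ i, (hi i - lo i) := hi'.trans
      (Finset.single_le_sum (f := fun i => hi i - lo i) (fun j _ => by linarith [hle j])
        (Finset.mem_univ i))
    gcongr
  · have : {s : ι → ℝ | bad h s lo hi} = {s : ι → ℝ | two h s lo hi} := by
      ext s
      simp [bad, hc]
    rw [this]
    refine (P_two_le hh hle).trans ?_
    apply ENNReal.ofReal_le_ofReal
    gcongr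
    rw [← hsq]
    have : 0 ≤ ∑ i, (hi i - lo i) ^ 2 := Finset.sum_nonneg fun i _ => sq_nonneg _
    linarith

lemma PP_null_all {h : ℝ} (hh : 0 < h) {N : ι → ι → Set (ℝ × ℝ)}
    (hN0 : ∀ i j, i ≠ j → volume (N i j) = 0) :
    PP ι h {s | ∃ i j, i ≠ j ∧ ∃ k l : ℤ, (s i + k * h, s j + l * h) ∈ N i j} = 0 := by
  have e : {s : ι → ℝ | ∃ i j, i ≠ j ∧ ∃ k l : ℤ, (s i + k * h, s j + l * h) ∈ N i j} =
      ⋃ i, ⋃ j, ⋃ _ : i ≠ j, ⋃ k : ℤ, ⋃ l : ℤ, {s | (s i + k * h, s j + l * h) ∈ N i j} := by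
    ext s
    simp only [Set.mem_ofPred_eq, mem_iUnion, exists_prop]
  rw [e]
  exact measure_iUnion_null fun i => measure_iUnion_null fun j => measure_iUnion_null fun hij =>
      measure_iUnion_null fun k => measure_iUnion_null fun l => PP_null_grid hh hij (hN0 i j hij) k l

/-- The number of elements of `T` hit in two coordinates. -/
noncomputable def cnt2 {τ : Type*} (h : ℝ) (T : Finset τ) (lT hT : τ → ι → ℝ) (s : ι → ℝ) :
    ℝ≥0∞ :=
  ∑ t ∈ T, {s | two h s (lT t) (hT t)}.indicator 1 s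

/-- The number of elements of `T` hit in some coordinate. -/
noncomputable def cnt1 {τ : Type*} (h : ℝ) (T : Finset τ) (lT hT : τ → ι → ℝ) (s : ι → ℝ) :
    ℝ≥0∞ :=
  ∑ t ∈ T, {s | one h s (lT t) (hT t)}.indicator 1 s

lemma cnt2_meas {τ : Type*} (h : ℝ) (T : Finset τ) (lT hT : τ → ι → ℝ) :
    Measurable (cnt2 h T lT hT) :=
  Finset.measurable_fun_sum _ fun t _ => measurable_one.indicator (two_meas h _ _)

lemma cnt1_meas {τ : Type*} (h : ℝ) (T : Finset τ) (lT hT : τ → ι → ℝ) :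
    Measurable (cnt1 h T lT hT) :=
  Finset.measurable_fun_sum _ fun t _ => measurable_one.indicator (one_meas h _ _)

omit [Fintype ι] in
lemma cnt2_eq {τ : Type*} (h : ℝ) (T : Finset τ) (lT hT : τ → ι → ℝ) (s : ι → ℝ)
    [DecidablePred fun t => two h s (lT t) (hT t)] :
    cnt2 h T lT hT s = ((T.filter fun t => two h s (lT t) (hT t)).card : ℝ≥0∞) := by
  rw [cnt2, ← Finset.sum_boole]
  refine Finset.sum_congr rfl fun t _ => ?_
  by_cases ht : two h s (lT t) (hT t)
  · rw [indicator_of_mem (by exact ht), if_pos ht]; rfl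
  · rw [indicator_of_notMem (by exact ht), if_neg ht]

omit [Fintype ι] in
lemma cnt1_eq {τ : Type*} (h : ℝ) (T : Finset τ) (lT hT : τ → ι → ℝ) (s : ι → ℝ)
    [DecidablePred fun t => one h s (lT t) (hT t)] :
    cnt1 h T lT hT s = ((T.filter fun t => one h s (lT t) (hT t)).card : ℝ≥0∞) := by
  rw [cnt1, ← Finset.sum_boole]
  refine Finset.sum_congr rfl fun t _ => ?_
  by_cases ht : one h s (lT t) (hT t)
  · rw [indicator_of_mem (by exact ht), if_pos ht]; rfl
  · rw [indicator_of_notMem (by exact ht), if_neg ht]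

lemma cnt2_int [DecidableEq ι] {τ : Type*} {h : ℝ} (hh : 0 < h) (T : Finset τ)
    (lT hT : τ → ι → ℝ) (hle : ∀ t ∈ T, ∀ i, lT t i ≤ hT t i) {A : ℝ}
    (hA : ∑ t ∈ T, ∑ i, ∑ j ∈ Finset.univ.erase i,
      (hT t i - lT t i) * (hT t j - lT t j) ≤ A) :
    ∫⁻ s, cnt2 h T lT hT s ∂(PP ι h) ≤ ENNReal.ofReal (A / h ^ 2) := by
  unfold cnt2
  rw [lintegral_finsetSum _ fun t _ => measurable_one.indicator (two_meas h _ _)]
  calc ∑ t ∈ T, ∫⁻ s, {s | two h s (lT t) (hT t)}.indicator 1 s ∂(PP ι h)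
      = ∑ t ∈ T, PP ι h {s | two h s (lT t) (hT t)} := by
        refine Finset.sum_congr rfl fun t _ => ?_
        rw [lintegral_indicator_one (two_meas h _ _)]
    _ ≤ ∑ t ∈ T, ENNReal.ofReal ((∑ i, ∑ j ∈ Finset.univ.erase i,
        (hT t i - lT t i) * (hT t j - lT t j)) / h ^ 2) := by
        gcongr with t ht
        exact P_two_le hh (hle t ht)
    _ = ENNReal.ofReal ((∑ t ∈ T, ∑ i, ∑ j ∈ Finset.univ.erase i,
        (hT t i - lT t i) * (hT t j - lT t j)) / h ^ 2) := by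
        rw [Finset.sum_div, ENNReal.ofReal_sum_of_nonneg]
        intro t ht
        refine div_nonneg (Finset.sum_nonneg fun i _ => Finset.sum_nonneg fun j _ =>
          mul_nonneg (by linarith [hle t ht i]) (by linarith [hle t ht j])) (by positivity)
    _ ≤ _ := by
        apply ENNReal.ofReal_le_ofReal
        gcongr

lemma cnt1_int {τ : Type*} {h : ℝ} (hh : 0 < h) (T : Finset τ)
    (lT hT : τ → ι → ℝ) (hle : ∀ t ∈ T, ∀ i, lT t i ≤ hT t i) {A : ℝ}
    (hA : ∑ t ∈ T, ∑ i, (hT t i - lT t i) ≤ A) :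
    ∫⁻ s, cnt1 h T lT hT s ∂(PP ι h) ≤ ENNReal.ofReal (A / h) := by
  unfold cnt1
  rw [lintegral_finsetSum _ fun t _ => measurable_one.indicator (one_meas h _ _)]
  calc ∑ t ∈ T, ∫⁻ s, {s | one h s (lT t) (hT t)}.indicator 1 s ∂(PP ι h)
      = ∑ t ∈ T, PP ι h {s | one h s (lT t) (hT t)} := by
        refine Finset.sum_congr rfl fun t _ => ?_
        rw [lintegral_indicator_one (one_meas h _ _)]
    _ ≤ ∑ t ∈ T, ENNReal.ofReal ((∑ i, (hT t i - lT t i)) / h) := by
        gcongr with t ht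
        exact P_one_le hh (hle t ht)
    _ = ENNReal.ofReal ((∑ t ∈ T, ∑ i, (hT t i - lT t i)) / h) := by
        rw [Finset.sum_div, ENNReal.ofReal_sum_of_nonneg]
        intro t ht
        exact div_nonneg (Finset.sum_nonneg fun i _ => by linarith [hle t ht i]) hh.le
    _ ≤ _ := by
        apply ENNReal.ofReal_le_ofReal
        gcongr

/-- The indicator of a bad box. -/
noncomputable def gb (h : ℝ) (lo hi : ι → ℝ) (s : ι → ℝ) : ℝ≥0∞ :=
  {s | bad h s lo hi}.indicator 1 s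

lemma gb_meas (h : ℝ) (lo hi : ι → ℝ) : Measurable (gb h lo hi) :=
  measurable_one.indicator (bad_meas h _ _)

omit [Fintype ι] in
lemma gb_of_bad {h : ℝ} {lo hi s : ι → ℝ} (H : bad h s lo hi) : gb h lo hi s = 1 := by
  rw [gb, indicator_of_mem (by exact H)]
  rfl

lemma gb_int {h : ℝ} (hh : 0 < h) {lo hi : ι → ℝ} (hle : ∀ i, lo i ≤ hi i) :
    ∫⁻ s, gb h lo hi s ∂(PP ι h) ≤ ENNReal.ofReal ((∑ i, (hi i - lo i)) ^ 2 / h ^ 2) := by
  unfold gb
  rw [lintegral_indicator_one (bad_meas h _ _)]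
  exact P_bad_le hh hle

lemma gb_tsum {E : Type*} {h : ℝ} (hh : 0 < h) (lo hi : E → ι → ℝ)
    (hle : ∀ c i, lo c i ≤ hi c i) {V : ℝ} {M : Set E} [Countable M]
    (hV : ∀ J : Finset E, (∀ c ∈ J, c ∈ M) → ∑ c ∈ J, (∑ i, (hi c i - lo c i)) ^ 2 ≤ V) :
    ∫⁻ s, ∑' c : M, gb h (lo c.1) (hi c.1) s ∂(PP ι h) ≤ ENNReal.ofReal (V / h ^ 2) := by
  rw [lintegral_tsum fun c => (gb_meas h _ _).aemeasurable]
  refine (ENNReal.tsum_le_tsum fun c : M => gb_int hh (hle c.1)).trans ?_
  rw [ENNReal.tsum_eq_iSup_sum]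
  refine iSup_le fun J => ?_
  rw [← ENNReal.ofReal_sum_of_nonneg fun c _ => div_nonneg (sq_nonneg _) (by positivity),
    ← Finset.sum_div]
  apply ENNReal.ofReal_le_ofReal
  gcongr
  have := hV (J.map (Function.Embedding.subtype _)) (by
    intro c hc
    obtain ⟨d, -, rfl⟩ := Finset.mem_map.1 hc
    exact d.2)
  rwa [Finset.sum_map] at this

omit [Fintype ι] in
/-- The number of bad ends. -/
lemma bad_card {E : Type*} {h : ℝ} {lo hi : E → ι → ℝ} {s : ι → ℝ} {F : Finset E} {M : Set E}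
    (hM : ∀ c, bad h s (lo c) (hi c) → c ∉ F → c ∈ M) (J : Finset E)
    (hJ : ∀ c ∈ J, bad h s (lo c) (hi c)) :
    (J.card : ℝ≥0∞) ≤ F.card + ∑' c : M, gb h (lo c.1) (hi c.1) s := by
  classical
  have h1 : J.card ≤ F.card + (J \ F).card := by
    have := Finset.card_le_card (Finset.subset_union_left (s₁ := J) (s₂ := F))
    rw [← Finset.sdiff_union_self_eq_union] at this
    have h2 := Finset.card_union_le (J \ F) F
    omega
  have h2 : ((J \ F).card : ℝ≥0∞) ≤ ∑' c : M, gb h (lo c.1) (hi c.1) s := by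
    have hmem : ∀ c ∈ J \ F, c ∈ M := by
      intro c hc
      rw [Finset.mem_sdiff] at hc
      exact hM c (hJ c hc.1) hc.2
    have h3 := ENNReal.sum_le_tsum (f := fun c : M => gb h (lo c.1) (hi c.1) s)
      ((J \ F).subtype (· ∈ M))
    have h4 : ∑ c ∈ (J \ F).subtype (· ∈ M), gb h (lo c.1) (hi c.1) s =
        ∑ c ∈ J \ F, gb h (lo c) (hi c) s :=
      Finset.sum_subtype_of_mem (fun c => gb h (lo c) (hi c) s) hmem
    rw [h4] at h3
    refine le_trans (le_of_eq ?_) h3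
    rw [Finset.card_eq_sum_ones]
    push_cast
    refine Finset.sum_congr rfl fun c hc => ?_
    exact (gb_of_bad (hJ c (Finset.mem_sdiff.1 hc).1)).symm
  calc (J.card : ℝ≥0∞) ≤ ((F.card + (J \ F).card : ℕ) : ℝ≥0∞) := by exact_mod_cast h1
    _ = F.card + (J \ F).card := by push_cast; rfl
    _ ≤ _ := by gcongr

/-- The massive ends off `F` are countably many. -/
lemma mass_countable {E : Type*} (f : E → ℝ) (hf0 : ∀ c, 0 ≤ f c) (F : Finset E) {V : ℝ}
    (hV : ∀ J : Finset E, Disjoint J F → ∑ c ∈ J, f c ≤ V) :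
    {c : E | c ∉ F ∧ f c ≠ 0}.Countable := by
  classical
  have hs : Summable (fun c : {c : E // c ∉ F} => f c.1) := by
    refine summable_of_sum_le (f := fun c : {c : E // c ∉ F} => f c.1) (fun c => hf0 c.1) (c := V)
      fun J => ?_
    have := hV (J.map (Function.Embedding.subtype _)) (by
      rw [Finset.disjoint_left]
      intro c hc
      obtain ⟨d, -, rfl⟩ := Finset.mem_map.1 hc
      exact d.2)
    rwa [Finset.sum_map] at this
  refine (hs.countable_support.image Subtype.val).mono ?_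
  rintro c ⟨hc, hfc⟩
  exact ⟨⟨c, hc⟩, hfc, rfl⟩

/-- **Selection of the offsets.** -/
theorem sel [DecidableEq ι] {E τ τ' : Type*} {h : ℝ} (hh : 0 < h) (lo hi : E → ι → ℝ)
    (hle : ∀ c i, lo c i ≤ hi c i) (F : Finset E) {V A Bd : ℝ}
    (hV : ∀ J : Finset E, Disjoint J F → ∑ c ∈ J, (∑ i, (hi c i - lo c i)) ^ 2 ≤ V)
    (N : ι → ι → Set (ℝ × ℝ)) (hN0 : ∀ i j, i ≠ j → volume (N i j) = 0)
    (hN : ∀ c i j, i ≠ j → (hi c i = lo c i ∨ hi c j = lo c j) →
      Icc (lo c i) (hi c i) ×ˢ Icc (lo c j) (hi c j) ⊆ N i j)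
    (T : ℕ → Finset τ) (lT hT : ℕ → τ → ι → ℝ) (hTle : ∀ k, ∀ t ∈ T k, ∀ i, lT k t i ≤ hT k t i)
    (hA : ∀ k, ∑ t ∈ T k, ∑ i, ∑ j ∈ Finset.univ.erase i,
      (hT k t i - lT k t i) * (hT k t j - lT k t j) ≤ A)
    (B : ℕ → Finset τ') (lB hB : ℕ → τ' → ι → ℝ) (hBle : ∀ k, ∀ t ∈ B k, ∀ i, lB k t i ≤ hB k t i)
    (hBd : ∀ k, ∑ t ∈ B k, ∑ i, (hB k t i - lB k t i) ≤ Bd) :
    ∃ s : ι → ℝ, (∀ i, 0 ≤ s i ∧ s i < h) ∧
      (∀ i j, i ≠ j → ∀ k l : ℤ, (s i + k * h, s j + l * h) ∉ N i j) ∧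
      ∃ b : Finset E, (∀ c, c ∈ b ↔ bad h s (lo c) (hi c)) ∧
        ∃ᶠ k in atTop, ∃ (y : Finset τ) (z : Finset τ'),
          (∀ t, t ∈ y ↔ t ∈ T k ∧ two h s (lT k t) (hT k t)) ∧
          (∀ t, t ∈ z ↔ t ∈ B k ∧ one h s (lB k t) (hB k t)) ∧
          (b.card : ℝ) + y.card + z.card ≤ F.card + (V + A) / h ^ 2 + Bd / h + 1 := by
  classical
  have := PP_prob (ι := ι) hh
  -- numbers
  have hV0 : 0 ≤ V := by simpa using hV ∅ (Finset.disjoint_empty_left F)
  have hA0 : 0 ≤ A := le_trans (Finset.sum_nonneg fun t ht => Finset.sum_nonneg fun i _ =>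
    Finset.sum_nonneg fun j _ => mul_nonneg (by linarith [hTle 0 t ht i])
      (by linarith [hTle 0 t ht j])) (hA 0)
  have hBd0 : 0 ≤ Bd := le_trans (Finset.sum_nonneg fun t ht => Finset.sum_nonneg fun i _ => by
    linarith [hBle 0 t ht i]) (hBd 0)
  -- the massive ends off `F`
  obtain ⟨M, hMc, hMF, hMm⟩ : ∃ M : Set E, M.Countable ∧ (∀ c ∈ M, c ∉ F) ∧
      ∀ c, c ∉ F → (∑ i, (hi c i - lo c i)) ^ 2 ≠ 0 → c ∈ M :=
    ⟨_, mass_countable (fun c => (∑ i, (hi c i - lo c i)) ^ 2) (fun c => sq_nonneg _) F hV,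
      fun c hc => hc.1, fun c hc h1 => ⟨hc, h1⟩⟩
  have : Countable M := hMc.to_subtype
  have hGi := gb_tsum (M := M) hh lo hi hle (V := V) (fun J hJ => hV J (by
    rw [Finset.disjoint_left]
    exact fun c hc => hMF c (hJ c hc)))
  -- the null set
  have hnull : PP ι h ((Set.pi univ (fun _ : ι => Ico (0 : ℝ) h))ᶜ ∪
      {s | ∃ i j, i ≠ j ∧ ∃ k l : ℤ, (s i + k * h, s j + l * h) ∈ N i j}) = 0 :=
    measure_union_null (PP_box hh) (PP_null_all hh hN0)
  have hGm : Measurable (fun s => ∑' c : M, gb h (lo c.1) (hi c.1) s) :=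
    Measurable.ennreal_tsum fun c => gb_meas h _ _
  have hYm : ∀ k, Measurable (cnt2 h (T k) (lT k) (hT k)) := fun k => cnt2_meas h _ _ _
  have hZm : ∀ k, Measurable (cnt1 h (B k) (lB k) (hB k)) := fun k => cnt1_meas h _ _ _
  have hLm : Measurable (fun s => liminf (fun k => cnt2 h (T k) (lT k) (hT k) s +
      cnt1 h (B k) (lB k) (hB k) s) atTop) :=
    Measurable.liminf fun k => (hYm k).add (hZm k)
  have hΦi : ∫⁻ s, ((∑' c : M, gb h (lo c.1) (hi c.1) s) +
      liminf (fun k => cnt2 h (T k) (lT k) (hT k) s + cnt1 h (B k) (lB k) (hB k) s) atTop)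
        ∂(PP ι h) ≤ ENNReal.ofReal ((V + A) / h ^ 2 + Bd / h) := by
    rw [lintegral_add_left hGm]
    have h2 : ∫⁻ s, liminf (fun k => cnt2 h (T k) (lT k) (hT k) s +
        cnt1 h (B k) (lB k) (hB k) s) atTop ∂(PP ι h) ≤
        ENNReal.ofReal (A / h ^ 2) + ENNReal.ofReal (Bd / h) := by
      refine (lintegral_liminf_le fun k => (hYm k).add (hZm k)).trans ?_
      simp only [Pi.add_apply]
      refine (liminf_le_liminf (v := fun _ : ℕ => ENNReal.ofReal (A / h ^ 2) +
        ENNReal.ofReal (Bd / h)) (Eventually.of_forall fun k => ?_)).trans_eq (liminf_const _)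
      rw [lintegral_add_left (hYm k)]
      exact add_le_add (cnt2_int hh _ _ _ (hTle k) (hA k)) (cnt1_int hh _ _ _ (hBle k) (hBd k))
    refine (add_le_add hGi h2).trans_eq ?_
    rw [← ENNReal.ofReal_add (by positivity) (by positivity), ← ENNReal.ofReal_add (by positivity)
      (by positivity)]
    congr 1
    ring
  obtain ⟨s, hsN, hs⟩ := exists_notMem_null_le_lintegral (μ := PP ι h)
    (hGm.add hLm).aemeasurable hnull
  have hs1 : (∑' c : M, gb h (lo c.1) (hi c.1) s) +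
      liminf (fun k => cnt2 h (T k) (lT k) (hT k) s + cnt1 h (B k) (lB k) (hB k) s) atTop ≤
      ENNReal.ofReal ((V + A) / h ^ 2 + Bd / h) := hs.trans hΦi
  rw [mem_union, not_or] at hsN
  have hbox : ∀ i, 0 ≤ s i ∧ s i < h := fun i => (not_not.1 hsN.1) i (mem_univ i)
  have hgrid : ∀ i j, i ≠ j → ∀ k l : ℤ, (s i + k * h, s j + l * h) ∉ N i j :=
    fun i j hij k l hmem => hsN.2 ⟨i, j, hij, k, l, hmem⟩
  generalize hm : liminf (fun k => cnt2 h (T k) (lT k) (hT k) s +
    cnt1 h (B k) (lB k) (hB k) s) atTop = m at hs1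
  generalize hG : (∑' c : M, gb h (lo c.1) (hi c.1) s) = G at hs1
  have hfin1 : G ≠ ∞ := ne_top_of_le_ne_top ENNReal.ofReal_ne_top (le_self_add.trans hs1)
  have hfin2 : m ≠ ∞ := ne_top_of_le_ne_top ENNReal.ofReal_ne_top (le_add_self.trans hs1)
  -- the bad ends
  have hmass : ∀ c, bad h s (lo c) (hi c) → (∑ i, (hi c i - lo c i)) ^ 2 ≠ 0 := by
    intro c hc hfc
    have h0 : ∀ i, hi c i = lo c i := by
      have h1 : ∑ i, (hi c i - lo c i) = 0 := by
        simpa using hfc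
      intro i
      have := (Finset.sum_eq_zero_iff_of_nonneg (fun i _ => by linarith [hle c i])).1 h1 i
        (Finset.mem_univ i)
      linarith
    rcases hc with ⟨i, j, hij, ⟨k, hk1, hk2⟩, ⟨l, hl1, hl2⟩⟩ | ⟨i, hi'⟩
    · exact hgrid i j hij k l (hN c i j hij (Or.inl (h0 i)) ⟨⟨hk1, hk2⟩, ⟨hl1, hl2⟩⟩)
    · rw [h0 i, sub_self] at hi'
      exact absurd hi' (not_le.2 hh)
  have hcard : ∀ J : Finset E, (∀ c ∈ J, bad h s (lo c) (hi c)) →
      (J.card : ℝ≥0∞) ≤ F.card + G := by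
    intro J hJ
    rw [← hG]
    exact bad_card (fun c hc hcF => hMm c hcF (hmass c hc)) J hJ
  have hBfin : {c : E | bad h s (lo c) (hi c)}.Finite := by
    by_contra hinf
    have htop : (F.card : ℝ≥0∞) + G ≠ ∞ :=
      ENNReal.add_ne_top.2 ⟨ENNReal.natCast_ne_top _, hfin1⟩
    obtain ⟨n, hn⟩ := ENNReal.exists_nat_gt htop
    obtain ⟨J, hJ, hJc⟩ := Set.Infinite.exists_subset_card_eq hinf n
    have := hcard J (fun c hc => hJ hc)
    rw [hJc] at this
    exact absurd hn (not_lt.2 this)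
  obtain ⟨b, hb⟩ : ∃ b : Finset E, ∀ c, c ∈ b ↔ bad h s (lo c) (hi c) :=
    ⟨hBfin.toFinset, fun c => hBfin.mem_toFinset⟩
  have hbc := hcard b (fun c hc => (hb c).1 hc)
  refine ⟨s, hbox, hgrid, b, hb, ?_⟩
  have hlt : liminf (fun k => cnt2 h (T k) (lT k) (hT k) s +
      cnt1 h (B k) (lB k) (hB k) s) atTop < m + 1 := by
    rw [hm]
    exact ENNReal.lt_add_right hfin2 one_ne_zero
  refine (frequently_lt_of_liminf_lt (h := hlt)).mono fun k hk => ?_
  refine ⟨(T k).filter fun t => two h s (lT k t) (hT k t),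
    (B k).filter fun t => one h s (lB k t) (hB k t), fun t => Finset.mem_filter,
    fun t => Finset.mem_filter, ?_⟩
  rw [cnt2_eq, cnt1_eq] at hk
  generalize ((T k).filter fun t => two h s (lT k t) (hT k t)).card = nY at hk ⊢
  generalize ((B k).filter fun t => one h s (lB k t) (hB k t)).card = nZ at hk ⊢
  have h1 : (b.card : ℝ≥0∞) + (nY + nZ) ≤
      F.card + ENNReal.ofReal ((V + A) / h ^ 2 + Bd / h) + 1 := by
    calc (b.card : ℝ≥0∞) + (nY + nZ) ≤ (F.card + G) + (m + 1) := add_le_add hbc hk.le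
      _ = F.card + (G + m) + 1 := by ring
      _ ≤ _ := by gcongr
  have h2 : (b.card : ℝ≥0∞) + (nY + nZ) = ENNReal.ofReal (b.card + nY + nZ) := by
    rw [ENNReal.ofReal_add (by positivity) (by positivity), ENNReal.ofReal_add (by positivity)
      (by positivity), ENNReal.ofReal_natCast, ENNReal.ofReal_natCast, ENNReal.ofReal_natCast]
    ring
  have h3 : (F.card : ℝ≥0∞) + ENNReal.ofReal ((V + A) / h ^ 2 + Bd / h) + 1 =
      ENNReal.ofReal (F.card + ((V + A) / h ^ 2 + Bd / h) + 1) := by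
    have h5 : 0 ≤ (V + A) / h ^ 2 + Bd / h := by positivity
    generalize (V + A) / h ^ 2 + Bd / h = X at h5 ⊢
    rw [ENNReal.ofReal_add (by positivity) (by positivity), ENNReal.ofReal_add (by positivity)
      (by positivity), ENNReal.ofReal_natCast, ENNReal.ofReal_one]
  rw [h2, h3] at h1
  have h4 := (ENNReal.ofReal_le_ofReal_iff (by positivity)).1 h1
  linarith [h4]

end Vale.Agent.P116.KB.Grid841
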