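import Vale.Agent.P116.KB.E3.Core

/-!
# LB: the smoothed area of the average from above
-/

open Set Filter Topology Metric Bornology MeasureTheory

namespace Vale.Agent.P116.KB

open H906 PBC Cl E3

lemma exists_delta (F : Finset ℂ) (b : ℂ → ℝ) {η : ℝ} (hη : 0 < η) :
    ∃ δ > 0, ∑ x ∈ F, (b x + δ) ^ 2 ≤ ∑ x ∈ F, b x ^ 2 + η / 8 := by
  have hc : Continuous fun δ : ℝ => ∑ x ∈ F, (b x + δ) ^ 2 := by fun_prop
  have h0 : (fun δ : ℝ => ∑ x ∈ F, (b x + δ) ^ 2) 0 < ∑ x ∈ F, b x ^ 2 + η / 8 := by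
    simp only [add_zero]
    linarith
  have h1 : ∀ᶠ δ in 𝓝 (0:ℝ), ∑ x ∈ F, (b x + δ) ^ 2 < ∑ x ∈ F, b x ^ 2 + η / 8 :=
    hc.continuousAt.tendsto.eventually (gt_mem_nhds h0)
  obtain ⟨t, ht, h2⟩ := Metric.eventually_nhds_iff.1 h1
  refine ⟨t / 2, by positivity, (h2 ?_).le⟩
  rw [Real.dist_eq, sub_zero, abs_of_pos (by positivity)]
  linarith

lemma card_mul_le (n : ℕ) {η : ℝ} (hη : 0 < η) : (n : ℝ) * (η / (8 * ((n : ℝ) + 1))) ≤ η / 8 := by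
  have h1 : (n : ℝ) * (η / (8 * ((n : ℝ) + 1))) = η / 8 * ((n : ℝ) / ((n : ℝ) + 1)) := by
    field_simp
  rw [h1]
  have h2 : (n : ℝ) / ((n : ℝ) + 1) ≤ 1 := by
    rw [div_le_one (by positivity)]
    linarith
  nlinarith

open Classical in
/-- the ends inside the nodes of a family -/
lemma sum_ends {K : Set ℂ} {k : ℕ} {τ : Set ℂ → ℝ} (hτ : ∀ c, 0 ≤ τ c)
    (hτs : Summable fun c : comps K => τ c) {N : Finset (Set ℂ)} (hN : ∀ w ∈ N, w ∈ nodes K k)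
    {F : Finset ℂ} (hF : ∀ w ∈ N, ∀ x ∈ F, x ∉ w) :
    ∑ w ∈ N, (∑' c : comps K, if (c : Set ℂ) ⊆ w then τ c else 0) ≤
      ∑' c : comps K, if ∃ x ∈ F, x ∈ (c : Set ℂ) then 0 else τ c := by
  have hsm : ∀ w : Set ℂ, Summable fun c : comps K => if (c : Set ℂ) ⊆ w then τ c else 0 := by
    intro w
    refine Summable.of_nonneg_of_le (fun c => ?_) (fun c => ?_) hτs
    · split_ifs
      · exact hτ _
      · exact le_rfl
    · split_ifs
      · exact le_rfl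
      · exact hτ _
  rw [← Summable.tsum_finsetSum fun w _ => hsm w]
  refine Summable.tsum_le_tsum (fun c => ?_) (summable_sum fun w _ => hsm w) ?_
  · obtain ⟨y, hy, hyc⟩ := c.2
    have hcne : (c : Set ℂ).Nonempty := ⟨y, hyc ▸ mem_connectedComponentIn hy⟩
    by_cases hex : ∃ w ∈ N, (c : Set ℂ) ⊆ w
    · obtain ⟨w, hw, hcw⟩ := hex
      have h2 : ∑ w ∈ N, (if (c : Set ℂ) ⊆ w then τ c else 0) = τ c := by
        rw [Finset.sum_eq_single w]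
        · rw [if_pos hcw]
        · intro w' hw' hne
          rw [if_neg]
          intro hcw'
          obtain ⟨z, hz⟩ := hcne
          exact Set.disjoint_left.1 (Slow.node_disjoint (hN w' hw') (hN w hw) hne)
            (hcw' hz) (hcw hz)
        · intro h
          exact absurd hw h
      rw [h2, if_neg]
      rintro ⟨x, hx, hxc⟩
      exact hF w hw x hx (hcw hxc)
    · push Not at hex
      rw [Finset.sum_eq_zero fun w hw => if_neg (hex w hw)]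
      split_ifs
      · exact le_rfl
      · exact hτ _
  · refine Summable.of_nonneg_of_le (fun c => ?_) (fun c => ?_) hτs
    · split_ifs
      · exact le_rfl
      · exact hτ _
    · split_ifs
      · exact hτ _
      · exact le_rfl

/-- **LB** from the circumradius principle -/
theorem lb (hE : E0) : LB := by
  classical
  intro K Ω _ _ P g hA a r hR hfd hfi τ hτ hτs hTM R₀ hR₀ hlev χ hχ hint F hFK hFne η hη hτη
  have hK := hA.Kc
  have hf := hA.full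
  set f := avg P g with hfdef
  have hfc : ContinuousOn f Kᶜ := hfd.continuousOn
  -- choice of `δ`
  obtain ⟨δ, hδ, hδη⟩ := exists_delta F (fun x => ∫ ω, r x ω ∂P) hη
  -- the level
  have hnear : ∀ x ∈ F, ∃ n, ∀ m ≥ n, ∀ z ∈ nd K m x, z ∉ K →
      ‖f z - ∫ ω, a x ω ∂P‖ ≤ (∫ ω, r x ω ∂P) + δ := fun x hx => hR.near x (hFK x hx) δ hδ
  choose! n₁ hn₁ using hnear
  have hsep : ∀ x ∈ F, ∀ y ∈ F, x ≠ y → ∃ n, ∀ m ≥ n, nd K m x ≠ nd K m y := fun x hx y hy hxy =>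
    exists_nd_ne hK hf (hFK x hx) (hFK y hy) (hFne x hx y hy hxy)
  choose! n₂ hn₂ using hsep
  set k : ℕ := F.sup n₁ + F.sup fun x => F.sup fun y => n₂ x y with hk
  have hk1 : ∀ x ∈ F, n₁ x ≤ k := fun x hx => (Finset.le_sup hx).trans (Nat.le_add_right _ _)
  have hk2 : ∀ x ∈ F, ∀ y ∈ F, n₂ x y ≤ k := by
    intro x hx y hy
    have h1 : n₂ x y ≤ F.sup fun y => n₂ x y := Finset.le_sup (f := fun y => n₂ x y) hy
    have h2 : (F.sup fun y => n₂ x y) ≤ F.sup fun x => F.sup fun y => n₂ x y :=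
      Finset.le_sup (f := fun x => F.sup fun y => n₂ x y) hx
    omega
  have hinj : InjOn (nd K k) (F : Set ℂ) := by
    intro x hx y hy hxy
    by_contra hne
    exact hn₂ x hx y hy hne k (hk2 x hx y hy) hxy
  obtain ⟨W, hWc, hWf, hWre, hWim, hWS⟩ := hTM k
  -- the other nodes
  set N : Set (Set ℂ) := {w | w ∈ nodes K k ∧ w ∉ nd K k '' (F : Set ℂ)} with hN
  have hNf : N.Finite := (finite_nodes hK k).subset fun w hw => hw.1
  set δ' : ℝ := η / (8 * (hNf.toFinset.card + 1)) with hδ'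
  have hδ'0 : 0 < δ' := by positivity
  choose! S hS hScov hSb hSre hSim using fun w (hw : w ∈ nodes K k) => hWS w hw δ' hδ'0
  -- the structure
  set T : Set (Set ℂ) := nd K k '' (F : Set ℂ) ∪ ⋃ w ∈ N, S w with hTdef
  have hFnode : ∀ x ∈ F, nd K k x ∈ nodes K k := fun x hx => ⟨x, hFK x hx, rfl⟩
  have hdisjF : ∀ x ∈ F, ∀ w ∈ N, ∀ Q ∈ S w, Disjoint (nd K k x) Q := by
    intro x hx w hw Q hQ
    have h1 : Disjoint (nd K k x) w := Slow.node_disjoint (hFnode x hx) hw.1 fun he =>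
      hw.2 ⟨x, hx, he⟩
    exact h1.mono_right ((hS w hw.1).sub Q hQ)
  have hdisjN : ∀ w ∈ N, ∀ w' ∈ N, w ≠ w' → Disjoint (S w) (S w') := by
    intro w hw w' hw' hne
    rw [Set.disjoint_left]
    intro Q hQ hQ'
    have h1 := Slow.node_disjoint hw.1 hw'.1 hne
    obtain ⟨z, hz⟩ := ((hS w hw.1).pc Q hQ).nonempty
    exact Set.disjoint_left.1 h1 ((hS w hw.1).sub Q hQ hz) ((hS w' hw'.1).sub Q hQ' hz)
  have hlev0 : lev K k ⊆ lev K 0 := lev_anti (Nat.zero_le k)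
  have hnode_sub : ∀ w ∈ nodes K k, w ⊆ lev K 0 := by
    rintro w ⟨x, -, rfl⟩
    exact (nd_subset k x).trans hlev0
  have hTNS : G.NS K (lev K 0) T := by
    refine ⟨?_, ?_, ?_, ?_⟩
    · exact (F.finite_toSet.image _).union (hNf.biUnion fun w hw => (hS w hw.1).fin)
    · rintro Q (⟨x, hx, rfl⟩ | hQ)
      · exact G.pc_nd hK k (hFK x hx)
      · obtain ⟨w, hw, hQw⟩ := mem_iUnion₂.1 hQ
        exact (hS w hw.1).pc Q hQw
    · rintro Q (⟨x, hx, rfl⟩ | hQ) Q' (⟨x', hx', rfl⟩ | hQ') hne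
      · exact Slow.node_disjoint (hFnode x hx) (hFnode x' hx') hne
      · obtain ⟨w, hw, hQw⟩ := mem_iUnion₂.1 hQ'
        exact hdisjF x hx w hw Q' hQw
      · obtain ⟨w, hw, hQw⟩ := mem_iUnion₂.1 hQ
        exact (hdisjF x' hx' w hw Q hQw).symm
      · obtain ⟨w, hw, hQw⟩ := mem_iUnion₂.1 hQ
        obtain ⟨w', hw', hQw'⟩ := mem_iUnion₂.1 hQ'
        by_cases hww : w = w'
        · subst hww
          exact (hS w hw.1).disj Q hQw Q' hQw' hne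
        · exact (Slow.node_disjoint hw.1 hw'.1 hww).mono ((hS w hw.1).sub Q hQw)
            ((hS w' hw'.1).sub Q' hQw')
    · rintro Q (⟨x, hx, rfl⟩ | hQ)
      · exact hnode_sub _ (hFnode x hx)
      · obtain ⟨w, hw, hQw⟩ := mem_iUnion₂.1 hQ
        exact ((hS w hw.1).sub Q hQw).trans (hnode_sub w hw.1)
  have hTcov : K ⊆ ⋃₀ T := by
    intro x hx
    by_cases h1 : nd K k x ∈ nd K k '' (F : Set ℂ)
    · exact ⟨nd K k x, Or.inl h1, mem_nd hx k⟩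
    · have hw : nd K k x ∈ N := ⟨⟨x, hx, rfl⟩, h1⟩
      obtain ⟨Q, hQ, hxQ⟩ := hScov _ hw.1 x hx (mem_nd hx k)
      exact ⟨Q, Or.inr (mem_iUnion₂.2 ⟨_, hw, hQ⟩), hxQ⟩
  -- centres and radii
  set ore : Set ℂ → ℝ := oscE K (fun z => (W z).re) with hore
  set oim : Set ℂ → ℝ := oscE K (fun z => (W z).im) with hoim
  set M : Set ℂ → ℝ := fun Q => if h : ∃ x ∈ F, nd K k x = Q then
    (∫ ω, r h.choose ω ∂P) + δ else Real.sqrt (ore Q ^ 2 + oim Q ^ 2) / 2 with hMdef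
  set p : Set ℂ → ℂ := fun Q => if h : ∃ x ∈ F, nd K k x = Q then
    ∫ ω, a h.choose ω ∂P else ⟨mid K (fun z => (W z).re) Q, mid K (fun z => (W z).im) Q⟩ with hpdef
  have hchoose : ∀ x ∈ F, ∀ h : ∃ y ∈ F, nd K k y = nd K k x, h.choose = x := fun x hx h =>
    hinj h.choose_spec.1 hx h.choose_spec.2
  have hMF : ∀ x ∈ F, M (nd K k x) = (∫ ω, r x ω ∂P) + δ := by
    intro x hx
    have h : ∃ y ∈ F, nd K k y = nd K k x := ⟨x, hx, rfl⟩
    simp only [hMdef]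
    rw [dif_pos h, hchoose x hx h]
  have hpF : ∀ x ∈ F, p (nd K k x) = ∫ ω, a x ω ∂P := by
    intro x hx
    have h : ∃ y ∈ F, nd K k y = nd K k x := ⟨x, hx, rfl⟩
    simp only [hpdef]
    rw [dif_pos h, hchoose x hx h]
  have hnotF : ∀ w ∈ N, ∀ Q ∈ S w, ¬ ∃ x ∈ F, nd K k x = Q := by
    rintro w hw Q hQ ⟨x, hx, he⟩
    have h1 := hdisjF x hx w hw Q hQ
    rw [he] at h1
    obtain ⟨z, hz⟩ := ((hS w hw.1).pc Q hQ).nonempty
    exact Set.disjoint_left.1 h1 hz hz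
  have hMN : ∀ w ∈ N, ∀ Q ∈ S w, M Q = Real.sqrt (ore Q ^ 2 + oim Q ^ 2) / 2 := by
    intro w hw Q hQ
    simp only [hMdef]
    rw [dif_neg (hnotF w hw Q hQ)]
  have hpN : ∀ w ∈ N, ∀ Q ∈ S w,
      p Q = ⟨mid K (fun z => (W z).re) Q, mid K (fun z => (W z).im) Q⟩ := by
    intro w hw Q hQ
    simp only [hpdef]
    rw [dif_neg (hnotF w hw Q hQ)]
  have hrint : ∀ x ∈ F, 0 ≤ ∫ ω, r x ω ∂P := fun x hx => integral_nonneg (hR.nn x (hFK x hx))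
  have hM0 : ∀ Q ∈ T, 0 ≤ M Q := by
    rintro Q (⟨x, hx, rfl⟩ | hQ)
    · rw [hMF x hx]
      have := hrint x hx
      positivity
    · obtain ⟨w, hw, hQw⟩ := mem_iUnion₂.1 hQ
      rw [hMN w hw Q hQw]
      positivity
  have hM : ∀ Q ∈ T, ∀ y ∈ frontier Q, ‖W y - p Q‖ ≤ M Q := by
    rintro Q (⟨x, hx, rfl⟩ | hQ) y hy
    · have hyK : y ∉ K := Set.disjoint_left.1 (frontier_nd_disjoint k x) hy
      rw [hMF x hx, hpF x hx, eq_on_frontier hK hWc hfc hWf hy]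
      exact hn₁ x hx k (hk1 x hx) y ((isCompact_nd hK k x).isClosed.frontier_subset hy) hyK
    · obtain ⟨w, hw, hQw⟩ := mem_iUnion₂.1 hQ
      have hPc := (hS w hw.1).pc Q hQw
      have hyK : y ∉ K := Set.disjoint_left.1 hPc.fr hy
      rw [hMN w hw Q hQw, hpN w hw Q hQw]
      obtain ⟨b1, b2, b3, b4⟩ := hSb w hw.1 Q hQw
      exact norm_sub_mid b1 b2 b3 b4 (hPc.cpt.isClosed.frontier_subset hy) hyK
  have key := lb_core hE hK hf hTNS hTcov hfd hfi hWc (fun z hz => hWf z fun h => hz (hlev0 h))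
    hWre hWim hR₀ hlev hχ hint hM0 hM
  refine key.trans ?_
  -- the sum
  have hTfin : T.Finite := hTNS.fin
  have hdis0 : Disjoint (nd K k '' (F : Set ℂ)) (⋃ w ∈ N, S w) := by
    rw [Set.disjoint_left]
    rintro Q ⟨x, hx, rfl⟩ hQ
    obtain ⟨w, hw, hQw⟩ := mem_iUnion₂.1 hQ
    exact hnotF w hw _ hQw ⟨x, hx, rfl⟩
  have hsum1 : ∑ᶠ Q ∈ T, M Q ^ 2 = ∑ᶠ Q ∈ nd K k '' (F : Set ℂ), M Q ^ 2 +
      ∑ᶠ Q ∈ ⋃ w ∈ N, S w, M Q ^ 2 :=
    finsum_mem_union hdis0 (F.finite_toSet.image _) (hNf.biUnion fun w hw => (hS w hw.1).fin)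
  have hsum2 : ∑ᶠ Q ∈ nd K k '' (F : Set ℂ), M Q ^ 2 = ∑ x ∈ F, ((∫ ω, r x ω ∂P) + δ) ^ 2 := by
    rw [finsum_mem_image hinj]
    rw [finsum_mem_coe_finset]
    exact Finset.sum_congr rfl fun x hx => by rw [hMF x hx]
  have hsum3 : ∑ᶠ Q ∈ ⋃ w ∈ N, S w, M Q ^ 2 = ∑ᶠ w ∈ N, ∑ᶠ Q ∈ S w, M Q ^ 2 :=
    finsum_mem_biUnion (fun w hw w' hw' hne => hdisjN w hw w' hw' hne) hNf
      fun w hw => (hS w hw.1).fin
  set A : Set ℂ → ℝ := fun w => ∑' c : comps K, if (c : Set ℂ) ⊆ w then τ c else 0 with hAdef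
  have hsum4 : ∀ w ∈ N, ∑ᶠ Q ∈ S w, M Q ^ 2 ≤ (A w + δ') / 2 := by
    intro w hw
    have h1 : ∀ Q ∈ S w, M Q ^ 2 = (ore Q ^ 2) / 4 + (oim Q ^ 2) / 4 := by
      intro Q hQ
      rw [hMN w hw Q hQ, div_pow, Real.sq_sqrt (by positivity)]
      ring
    rw [finsum_mem_congr rfl h1, finsum_mem_add_distrib (hS w hw.1).fin]
    have h2 : ∑ᶠ Q ∈ S w, (ore Q ^ 2) / 4 = (∑ᶠ Q ∈ S w, ore Q ^ 2) / 4 := by
      rw [finsum_mem_eq_finite_toFinset_sum _ (hS w hw.1).fin,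
        finsum_mem_eq_finite_toFinset_sum _ (hS w hw.1).fin, Finset.sum_div]
    have h3 : ∑ᶠ Q ∈ S w, (oim Q ^ 2) / 4 = (∑ᶠ Q ∈ S w, oim Q ^ 2) / 4 := by
      rw [finsum_mem_eq_finite_toFinset_sum _ (hS w hw.1).fin,
        finsum_mem_eq_finite_toFinset_sum _ (hS w hw.1).fin, Finset.sum_div]
    rw [h2, h3]
    have h4 : ∑ᶠ Q ∈ S w, ore Q ^ 2 ≤ A w + δ' := hSre w hw.1
    have h5 : ∑ᶠ Q ∈ S w, oim Q ^ 2 ≤ A w + δ' := hSim w hw.1
    linarith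
  have hsum5 : ∑ᶠ w ∈ N, ∑ᶠ Q ∈ S w, M Q ^ 2 ≤ ∑ w ∈ hNf.toFinset, (A w + δ') / 2 := by
    rw [finsum_mem_eq_finite_toFinset_sum _ hNf]
    exact Finset.sum_le_sum fun w hw => hsum4 w (hNf.mem_toFinset.1 hw)
  -- the sum over the ends
  have hAsum : ∑ w ∈ hNf.toFinset, A w ≤ η := by
    refine (sum_ends hτ hτs (fun w hw => (hNf.mem_toFinset.1 hw).1) (F := F) ?_).trans hτη
    intro w hw x hx hxw
    have hwN := hNf.mem_toFinset.1 hw
    exact hwN.2 ⟨x, hx, nodes_disj (hFnode x hx) hwN.1 ⟨x, mem_nd (hFK x hx) k, hxw⟩⟩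
  have hsum6 : ∑ w ∈ hNf.toFinset, (A w + δ') / 2 ≤ η / 2 + η / 16 := by
    rw [← Finset.sum_div, Finset.sum_add_distrib, Finset.sum_const, nsmul_eq_mul]
    have h2 : (hNf.toFinset.card : ℝ) * δ' ≤ η / 8 := card_mul_le _ hη
    linarith
  have hpi := Real.pi_lt_four
  have hpi0 := Real.pi_pos
  have hpi' := Real.pi_lt_d2
  rw [hsum1, hsum2, hsum3]
  have htot : ∑ x ∈ F, ((∫ ω, r x ω ∂P) + δ) ^ 2 + ∑ᶠ w ∈ N, ∑ᶠ Q ∈ S w, M Q ^ 2 ≤
      ∑ x ∈ F, (∫ ω, r x ω ∂P) ^ 2 + 11 / 16 * η := by linarith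
  have hfin : Real.pi * (∑ x ∈ F, ((∫ ω, r x ω ∂P) + δ) ^ 2 + ∑ᶠ w ∈ N, ∑ᶠ Q ∈ S w, M Q ^ 2) ≤
      Real.pi * (∑ x ∈ F, (∫ ω, r x ω ∂P) ^ 2 + 11 / 16 * η) :=
    mul_le_mul_of_nonneg_left htot hpi0.le
  have : Real.pi * (11 / 16 * η) ≤ 3 * η := by nlinarith
  linarith

end Vale.Agent.P116.KB
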