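import Vale.Agent.P116.KB.End

/-!
# Radii and centres of the random disks

They are limits of box sizes and box centres of `g ω '' (nd K n x \ K)`, hence measurable.
-/

open Set Filter Topology Metric Bornology MeasureTheory

set_option linter.unusedSectionVars false

namespace Vale.Agent.P116.KB

open H906 PBC Slow

section near

variable {K : Set ℂ} {𝔊 : Ultrafilter Str} {g : ℂ → ℂ}

/-- the boundary points of the disk of `x` are limits of values near `x` -/
theorem exists_near (hK : IsCompact K) (hf : Full K) (hG : Fine K (𝔊 : Filter Str))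
    (hg : TendstoLocallyUniformlyOn (kF fk) g (𝔊 : Filter Str) Kᶜ) {x : ℂ}
    (hx : x ∈ K) (hgood : GoodAt fk K (𝔊 : Filter Str) x) {c : ℂ} {r : ℝ}
    (h : G.DiskAt K g x c r) {w : ℂ} (hw : ‖w - c‖ = r) (n : ℕ) {ε : ℝ} (hε : 0 < ε) :
    ∃ z ∈ nd K n x, z ∉ K ∧ ‖g z - w‖ < ε := by
  obtain ⟨c₁, r₁, hd, hs, -⟩ := G.exists_disk hK hf hG hg hx hgood
  obtain ⟨rfl, rfl⟩ := hd.unique hx h
  have hwb : w ∈ closedBall c₁ r₁ := by rw [mem_closedBall, dist_eq_norm, hw]
  have hwn : w ∉ g '' Kᶜ := fun hh => hd.compl hwb hh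
  obtain ⟨δ, hδ, hball⟩ := ball_in_node hK hf hG hg hwn (hs w hwb n)
  -- `w` is a limit of values
  obtain ⟨v, hv, hvg⟩ : ∃ v ∈ ball w (min δ ε), v ∈ g '' Kᶜ := by
    by_contra hcon
    push Not at hcon
    have h1 : ball w (min δ ε) ∪ closedBall c₁ r₁ ⊆ (g '' Kᶜ)ᶜ := by
      rintro v (hv | hv)
      · exact hcon v hv
      · exact hd.compl hv
    have h2 : IsPreconnected (ball w (min δ ε) ∪ closedBall c₁ r₁) :=
      IsPreconnected.union w (mem_ball_self (lt_min hδ hε)) hwb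
        (convex_ball w _).isPreconnected (convex_closedBall c₁ r₁).isPreconnected
    have h3 := h2.subset_connectedComponentIn (Or.inr hwb) h1
    rw [hd.comp w hwb] at h3
    have h4 : ball w (min δ ε) ⊆ closedBall c₁ r₁ := subset_union_left.trans h3
    -- a ball around a boundary point is not inside
    have hm : 0 < min δ ε := lt_min hδ hε
    set t : ℝ := min δ ε / 2 with ht
    have ht0 : 0 < t := by positivity
    have htm : t < min δ ε := by rw [ht]; linarith
    by_cases hwc : w - c₁ = 0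
    · have hr0 : r₁ = 0 := by rw [← hw, hwc, norm_zero]
      have h5 : w + (t : ℂ) ∈ ball w (min δ ε) := by
        rw [mem_ball, dist_eq_norm, add_sub_cancel_left, Complex.norm_real,
          Real.norm_of_nonneg ht0.le]
        exact htm
      have h6 := h4 h5
      rw [mem_closedBall, dist_eq_norm, hr0] at h6
      have e : w + (t : ℂ) - c₁ = t := by linear_combination hwc
      rw [e, Complex.norm_real, Real.norm_of_nonneg ht0.le] at h6
      linarith
    · have hr0 : 0 < r₁ := by rw [← hw]; exact norm_pos_iff.2 hwc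
      have h5 : w + ((t / r₁ : ℝ) : ℂ) * (w - c₁) ∈ ball w (min δ ε) := by
        rw [mem_ball, dist_eq_norm, add_sub_cancel_left, norm_mul, Complex.norm_real,
          Real.norm_of_nonneg (by positivity), hw, div_mul_cancel₀ _ hr0.ne']
        exact htm
      have h6 := h4 h5
      rw [mem_closedBall, dist_eq_norm] at h6
      have e : w + ((t / r₁ : ℝ) : ℂ) * (w - c₁) - c₁ = ((1 + t / r₁ : ℝ) : ℂ) * (w - c₁) := by
        push_cast; ring
      rw [e, norm_mul, Complex.norm_real, Real.norm_of_nonneg (by positivity), hw] at h6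
      have h7 : (1 + t / r₁) * r₁ = r₁ + t := by field_simp
      rw [h7] at h6
      linarith
  obtain ⟨z, hz, rfl⟩ := hvg
  have hzε : ‖g z - w‖ < ε := by
    rw [mem_ball, dist_eq_norm] at hv
    exact hv.trans_le (min_le_right _ _)
  have hzδ : ‖g z - w‖ < δ := by
    rw [mem_ball, dist_eq_norm] at hv
    exact hv.trans_le (min_le_left _ _)
  refine ⟨z, ?_, hz, hzε⟩
  by_contra hzn
  have h1 : Tendsto (fun S => kF fk S z) 𝔊 (𝓝 (g z)) := hg.tendsto_at hz
  have h2 : ∀ᶠ S in (𝔊 : Filter Str), kF fk S z ∈ ball w δ :=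
    h1.eventually (isOpen_ball.mem_nhds (by rwa [mem_ball, dist_eq_norm]))
  have h3 : ∀ᶠ S : Str in (𝔊 : Filter Str), Disjoint ({z} : Set ℂ) (⋃₀ S.1) :=
    hG.disj hK hf isCompact_singleton (disjoint_singleton_left.2 hz)
  obtain ⟨S, ⟨h4, h5⟩, h6⟩ := ((h2.and h3).and hball).exists
  exact (kmap fk S).notMem_Tm (disjoint_singleton_left.1 h5) hzn (h6 h4)

end near

section sup

variable {Ω : Type*} [MeasurableSpace Ω]

/-- measurability of suprema over subsets of the plane -/
lemma measurable_sSup {φ : Ω → ℂ → ℝ} {A : Set ℂ} {C : ℝ} (hA : A.Nonempty)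
    (hm : ∀ z ∈ A, Measurable fun ω => φ ω z) (hc : ∀ ω, ContinuousOn (φ ω) A)
    (hb : ∀ ω, ∀ z ∈ A, φ ω z ≤ C) : Measurable fun ω => sSup (φ ω '' A) := by
  obtain ⟨D, hDc, hD⟩ := TopologicalSpace.exists_countable_dense A
  have hbd : ∀ ω, BddAbove (φ ω '' A) := by
    intro ω
    refine ⟨C, ?_⟩
    rintro _ ⟨z, hz, rfl⟩
    exact hb ω z hz
  refine measurable_of_Iic fun t => ?_
  have h2 : (fun ω => sSup (φ ω '' A)) ⁻¹' Iic t = ⋂ z ∈ D, {ω | φ ω z ≤ t} := by
    ext ω
    simp only [mem_preimage, mem_Iic, mem_iInter, mem_ofPred_eq]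
    constructor
    · intro h z _
      exact (le_csSup (hbd ω) ⟨z, z.2, rfl⟩).trans h
    · intro h
      refine csSup_le (hA.image _) ?_
      rintro _ ⟨z, hz, rfl⟩
      have hf : Continuous fun z : A => φ ω z := continuousOn_iff_continuous_domRestrict.1 (hc ω)
      have hcl : IsClosed {q : A | φ ω q ≤ t} := isClosed_le hf continuous_const
      have h4 := hcl.closure_subset_iff.2 (fun q hq => h q hq : D ⊆ _)
      exact h4 (hD.closure_eq ▸ mem_univ (⟨z, hz⟩ : A))
  rw [h2]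
  exact MeasurableSet.biInter hDc fun z _ => measurableSet_le (hm z z.2) measurable_const

end sup

section rad

variable {K : Set ℂ} {Ω : Type} [TopologicalSpace Ω] [MeasurableSpace Ω] {P : Measure Ω}
  {g : Ω → ℂ → ℂ}

/-- the supremum of `φ (g ω z)` over the node minus `K`, in the limit -/
noncomputable def ls (K : Set ℂ) (g : Ω → ℂ → ℂ) (φ : ℂ → ℝ) (x : ℂ) (ω : Ω) : ℝ :=
  ⨅ n, sSup ((fun z => φ (g ω z)) '' (nd K n x \ K))

/-- a compact set is not a whole node -/
lemma nd_diff_nonempty (hK : IsCompact K) {x : ℂ} (hx : x ∈ K) (n : ℕ) :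
    (nd K n x \ K).Nonempty := by
  by_contra hcon
  rw [not_nonempty_iff_eq_empty, sdiff_eq_empty] at hcon
  have h1 : frontier (nd K n x) = ∅ := by
    rw [← subset_empty_iff]
    intro z hz
    exact disjoint_left.1 (frontier_nd_disjoint _ x) hz
      (hcon ((isCompact_nd hK n x).isClosed.frontier_subset hz))
  rcases frontier_eq_empty_iff.1 h1 with h4 | h4
  · have := mem_nd hx n
    rw [h4] at this
    exact this
  · have h5 := (isCompact_nd hK n x).isBounded
    rw [h4] at h5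
    exact (NormedSpace.unbounded_univ ℝ ℂ) h5

/-- the data of the computation: a linear function of norm at most one -/
structure Lin1 (φ : ℂ → ℝ) : Prop where
  cont : Continuous φ
  le : ∀ z, |φ z| ≤ ‖z‖
  sub : ∀ z w, φ (z - w) = φ z - φ w

lemma lin_re : Lin1 (fun z => z.re) :=
  ⟨Complex.continuous_re, fun z => Complex.abs_re_le_norm z, fun _ _ => Complex.sub_re _ _⟩

lemma lin_im : Lin1 (fun z => z.im) :=
  ⟨Complex.continuous_im, fun z => Complex.abs_im_le_norm z, fun _ _ => Complex.sub_im _ _⟩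

lemma lin_nre : Lin1 (fun z => -z.re) :=
  ⟨Complex.continuous_re.neg, fun z => by rw [abs_neg]; exact Complex.abs_re_le_norm z,
    fun _ _ => by rw [Complex.sub_re]; ring⟩

lemma lin_nim : Lin1 (fun z => -z.im) :=
  ⟨Complex.continuous_im.neg, fun z => by rw [abs_neg]; exact Complex.abs_im_le_norm z,
    fun _ _ => by rw [Complex.sub_im]; ring⟩

/-- uniform bound of the maps near `K` -/
lemma bound_nd (hK : IsCompact K) (hnu : ∀ ω, NU Kᶜ (g ω)) : ∃ M > 0, ∀ ω n x, ∀ z ∈ nd K n x,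
    z ∉ K → ‖g ω z‖ ≤ M := by
  obtain ⟨R, hR, hRK⟩ := lev_bdd hK 0
  refine ⟨5 * R, by positivity, fun ω n x z hz hzK => ?_⟩
  have h1 := hRK (lev_anti (Nat.zero_le n) (nd_subset n x hz))
  rw [mem_closedBall_zero_iff] at h1
  exact (hnu ω).norm_le hR (compl_subset_compl.2 ((H906.subset_lev 0).trans hRK)) hzK h1

variable {φ : ℂ → ℝ}

lemma cont_slice (hc : ContinuousOn (fun p : Ω × ℂ => g p.1 p.2) (univ ×ˢ Kᶜ)) (ω : Ω) :
    ContinuousOn (g ω) Kᶜ := by
  refine hc.comp (f := fun y : ℂ => (ω, y)) (by fun_prop) ?_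
  intro y hy
  exact ⟨mem_univ _, hy⟩

lemma cont_val (hc : ContinuousOn (fun p : Ω × ℂ => g p.1 p.2) (univ ×ˢ Kᶜ)) {z : ℂ}
    (hz : z ∉ K) : Continuous fun ω => g ω z := by
  rw [← continuousOn_univ]
  refine hc.comp (f := fun ω : Ω => (ω, z)) (by fun_prop) ?_
  intro ω _
  exact ⟨mem_univ _, hz⟩

section

variable (hK : IsCompact K) (hc : ContinuousOn (fun p : Ω × ℂ => g p.1 p.2) (univ ×ˢ Kᶜ))
  (hnu : ∀ ω, NU Kᶜ (g ω)) (hφ : Lin1 φ) {x : ℂ} (hx : x ∈ K)

include hK hnu hφ hx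

lemma bdd_ls (ω : Ω) (n : ℕ) : BddAbove ((fun z => φ (g ω z)) '' (nd K n x \ K)) := by
  obtain ⟨M, -, hM⟩ := bound_nd hK hnu
  refine ⟨M, ?_⟩
  rintro _ ⟨z, ⟨hz, hzK⟩, rfl⟩
  exact (le_abs_self _).trans ((hφ.le _).trans (hM ω n x z hz hzK))

lemma ls_low : ∃ M > 0, (∀ ω n, -M ≤ sSup ((fun z => φ (g ω z)) '' (nd K n x \ K))) ∧
    ∀ ω n, sSup ((fun z => φ (g ω z)) '' (nd K n x \ K)) ≤ M := by
  obtain ⟨M, hM0, hM⟩ := bound_nd hK hnu
  refine ⟨M, hM0, fun ω n => ?_, fun ω n => ?_⟩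
  · obtain ⟨z, hz, hzK⟩ := nd_diff_nonempty hK hx n
    have h1 := le_csSup (bdd_ls hK hnu hφ hx ω n) ⟨z, ⟨hz, hzK⟩, rfl⟩
    have h2 := neg_abs_le (φ (g ω z))
    have h3 := (hφ.le _).trans (hM ω n x z hz hzK)
    simp only at h1
    linarith
  · refine csSup_le ((nd_diff_nonempty hK hx n).image _) ?_
    rintro _ ⟨z, ⟨hz, hzK⟩, rfl⟩
    exact (le_abs_self _).trans ((hφ.le _).trans (hM ω n x z hz hzK))

lemma ls_bdd (ω : Ω) : BddBelow (range fun n => sSup ((fun z => φ (g ω z)) '' (nd K n x \ K))) := by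
  obtain ⟨M, -, hM, -⟩ := ls_low hK hnu hφ hx
  refine ⟨-M, ?_⟩
  rintro _ ⟨n, rfl⟩
  exact hM ω n

lemma ls_abs : ∃ M > 0, ∀ ω, |ls K g φ x ω| ≤ M := by
  obtain ⟨M, hM0, hM, hM'⟩ := ls_low hK hnu hφ hx
  refine ⟨M, hM0, fun ω => abs_le.2 ⟨le_ciInf fun n => hM ω n, ?_⟩⟩
  exact (ciInf_le (ls_bdd hK hnu hφ hx ω) 0).trans (hM' ω 0)

include hc in
lemma ls_meas [OpensMeasurableSpace Ω] : Measurable (ls K g φ x) := by
  obtain ⟨M, -, hM⟩ := bound_nd hK hnu
  refine Measurable.iInf fun n => ?_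
  refine measurable_sSup (φ := fun ω z => φ (g ω z)) (C := M) (nd_diff_nonempty hK hx n)
    (fun z hz => ?_) (fun ω => ?_) fun ω z hz => ?_
  · exact (hφ.cont.comp (cont_val hc hz.2)).measurable
  · exact hφ.cont.comp_continuousOn ((cont_slice hc ω).mono fun z hz => hz.2)
  · exact (le_abs_self _).trans ((hφ.le _).trans (hM ω n x z hz.1 hz.2))

/-- value of the limit supremum at good states -/
lemma ls_eq {ω : Ω} {c : ℂ} {r : ℝ} (h : G.DiskAt K (g ω) x c r) {w : ℂ} (hw : φ w = φ c + r)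
    (hnear : ∀ n, ∀ ε > 0, ∃ z ∈ nd K n x, z ∉ K ∧ ‖g ω z - w‖ < ε) :
    ls K g φ x ω = φ c + r := by
  apply le_antisymm
  · refine le_of_forall_pos_le_add fun ε hε => ?_
    obtain ⟨n, hn⟩ := h.near ε hε
    refine (ciInf_le (ls_bdd hK hnu hφ hx ω) n).trans ?_
    refine csSup_le ((nd_diff_nonempty hK hx n).image _) ?_
    rintro _ ⟨z, ⟨hz, hzK⟩, rfl⟩
    have h1 := hn z hz hzK
    have h2 := (le_abs_self _).trans (hφ.le (g ω z - c))
    rw [hφ.sub] at h2
    simp only
    linarith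
  · refine le_ciInf fun n => ?_
    refine le_of_forall_pos_le_add fun ε hε => ?_
    obtain ⟨z, hz, hzK, hz'⟩ := hnear n ε hε
    have h1 := le_csSup (bdd_ls hK hnu hφ hx ω n) ⟨z, ⟨hz, hzK⟩, rfl⟩
    have h2 := neg_abs_le (φ (g ω z - w))
    have h3 := hφ.le (g ω z - w)
    rw [hφ.sub] at h2 h3
    simp only at h1
    linarith

end

/-- the centre -/
noncomputable def cen (K : Set ℂ) (g : Ω → ℂ → ℂ) (x : ℂ) (ω : Ω) : ℂ :=
  (((ls K g (fun z => z.re) x ω - ls K g (fun z => -z.re) x ω) / 2 : ℝ) : ℂ) +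
    (((ls K g (fun z => z.im) x ω - ls K g (fun z => -z.im) x ω) / 2 : ℝ) : ℂ) * Complex.I

/-- the radius -/
noncomputable def rad (K : Set ℂ) (g : Ω → ℂ → ℂ) (x : ℂ) (ω : Ω) : ℝ :=
  (ls K g (fun z => z.re) x ω + ls K g (fun z => -z.re) x ω) / 2

lemma rad_nonneg (hK : IsCompact K) (hnu : ∀ ω, NU Kᶜ (g ω)) {x : ℂ} (hx : x ∈ K) (ω : Ω) :
    0 ≤ rad K g x ω := by
  have key : ∀ n m, 0 ≤ sSup ((fun z => (g ω z).re) '' (nd K n x \ K)) +
      sSup ((fun z => -(g ω z).re) '' (nd K m x \ K)) := by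
    intro n m
    obtain ⟨z, hz, hzK⟩ := nd_diff_nonempty hK hx (max n m)
    have h1 := le_csSup (bdd_ls hK hnu lin_re hx ω n) ⟨z, ⟨nd_anti (le_max_left _ _) hz, hzK⟩, rfl⟩
    have h2 := le_csSup (bdd_ls hK hnu lin_nre hx ω m)
      ⟨z, ⟨nd_anti (le_max_right _ _) hz, hzK⟩, rfl⟩
    simp only at h1 h2
    linarith
  have h1 : ∀ n, -sSup ((fun z => (g ω z).re) '' (nd K n x \ K)) ≤ ls K g (fun z => -z.re) x ω :=
    fun n => le_ciInf fun m => by have := key n m; linarith
  have h2 : -ls K g (fun z => -z.re) x ω ≤ ls K g (fun z => z.re) x ω :=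
    le_ciInf fun n => by have := h1 n; linarith
  rw [rad]
  linarith

/-- **radii and centres of the random disks**, with measurability and bounds -/
theorem exists_rad' {Par : Type} {B : Par → ℝ → Set (Set (Set ℂ))} {𝔉 : Ω → Ultrafilter Str}
    (hK : IsCompact K) (hf : Full K) (h : G.FSt K B Ω P g 𝔉) :
    Rad K P g (cen K g) (rad K g) ∧ (∀ x ∈ K, Measurable (cen K g x)) ∧
      (∀ x ∈ K, Measurable (rad K g x)) ∧
      (∀ x ∈ K, ∃ M > 0, ∀ ω, ‖cen K g x ω‖ ≤ M ∧ rad K g x ω ≤ M) ∧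
      ∀ x ∈ K, ∀ y ∈ K, connectedComponentIn K x ≠ connectedComponentIn K y → ∀ᵐ ω ∂P,
        Disjoint (closedBall (cen K g x ω) (rad K g x ω))
          (closedBall (cen K g y ω) (rad K g y ω)) := by
  have hcpt := h.cpt
  have hprob := h.prob
  have hborel := h.borel
  have hnu := h.nu
  have hc := h.cont
  have hmeasL : ∀ {φ : ℂ → ℝ}, Lin1 φ → ∀ x ∈ K, Measurable (ls K g φ x) :=
    fun hφ x hx => ls_meas hK hc hnu hφ hx
  have hcm : ∀ x ∈ K, Measurable (cen K g x) := by
    intro x hx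
    unfold cen
    have h1 : Measurable fun ω => (ls K g (fun z => z.re) x ω - ls K g (fun z => -z.re) x ω) / 2 :=
      ((hmeasL lin_re x hx).sub (hmeasL lin_nre x hx)).div_const 2
    have h2 : Measurable fun ω => (ls K g (fun z => z.im) x ω - ls K g (fun z => -z.im) x ω) / 2 :=
      ((hmeasL lin_im x hx).sub (hmeasL lin_nim x hx)).div_const 2
    exact (Complex.measurable_ofReal.comp h1).add ((Complex.measurable_ofReal.comp h2).mul_const _)
  have hrm : ∀ x ∈ K, Measurable (rad K g x) := fun x hx =>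
    ((hmeasL lin_re x hx).add (hmeasL lin_nre x hx)).div_const 2
  have hbd : ∀ x ∈ K, ∃ M > 0, ∀ ω, ‖cen K g x ω‖ ≤ M ∧ rad K g x ω ≤ M := by
    intro x hx
    obtain ⟨M₁, hM₁, h₁⟩ := ls_abs hK hnu lin_re hx
    obtain ⟨M₂, hM₂, h₂⟩ := ls_abs hK hnu lin_nre hx
    obtain ⟨M₃, hM₃, h₃⟩ := ls_abs hK hnu lin_im hx
    obtain ⟨M₄, hM₄, h₄⟩ := ls_abs hK hnu lin_nim hx
    refine ⟨M₁ + M₂ + M₃ + M₄, by positivity, fun ω => ⟨?_, ?_⟩⟩
    · rw [cen]
      refine (norm_add_le _ _).trans ?_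
      rw [norm_mul, Complex.norm_I, mul_one, Complex.norm_real, Complex.norm_real,
        Real.norm_eq_abs, Real.norm_eq_abs]
      have a1 := abs_le.1 (h₁ ω)
      have a2 := abs_le.1 (h₂ ω)
      have a3 := abs_le.1 (h₃ ω)
      have a4 := abs_le.1 (h₄ ω)
      have b1 : |(ls K g (fun z => z.re) x ω - ls K g (fun z => -z.re) x ω) / 2| ≤
          (M₁ + M₂) / 2 := by
        rw [abs_le]; constructor <;> linarith [a1.1, a1.2, a2.1, a2.2]
      have b2 : |(ls K g (fun z => z.im) x ω - ls K g (fun z => -z.im) x ω) / 2| ≤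
          (M₃ + M₄) / 2 := by
        rw [abs_le]; constructor <;> linarith [a3.1, a3.2, a4.1, a4.2]
      linarith
    · rw [rad]
      have a1 := abs_le.1 (h₁ ω)
      have a2 := abs_le.1 (h₂ ω)
      linarith [a1.2, a2.2]
  -- almost surely the disk is the disk of `x`
  have hdisk : ∀ x ∈ K, ∀ᵐ ω ∂P, G.DiskAt K (g ω) x (cen K g x ω) (rad K g x ω) := by
    intro x hx
    filter_upwards [h.good x hx] with ω hω
    obtain ⟨c, r, hd, -, -⟩ := G.exists_disk hK hf (h.fine ω) (h.conv ω) hx hω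
    have hn : ∀ w : ℂ, ‖w - c‖ = r → ∀ n, ∀ ε > 0, ∃ z ∈ nd K n x, z ∉ K ∧ ‖g ω z - w‖ < ε :=
      fun w hw n ε hε => exists_near hK hf (h.fine ω) (h.conv ω) hx hω hd hw n hε
    have hr := hd.nonneg
    have e1 : ls K g (fun z => z.re) x ω = c.re + r := by
      refine ls_eq hK hnu lin_re hx hd (w := c + r) ?_ (hn _ ?_)
      · simp
      · rw [add_sub_cancel_left, Complex.norm_real, Real.norm_of_nonneg hr]
    have e2 : ls K g (fun z => -z.re) x ω = -c.re + r := by
      refine ls_eq hK hnu lin_nre hx hd (w := c - r) ?_ (hn _ ?_)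
      · simp only [Complex.sub_re, Complex.ofReal_re]; ring
      · rw [sub_sub_cancel_left, norm_neg, Complex.norm_real, Real.norm_of_nonneg hr]
    have e3 : ls K g (fun z => z.im) x ω = c.im + r := by
      refine ls_eq hK hnu lin_im hx hd (w := c + r * Complex.I) ?_ (hn _ ?_)
      · simp
      · rw [add_sub_cancel_left, norm_mul, Complex.norm_I, mul_one, Complex.norm_real,
          Real.norm_of_nonneg hr]
    have e4 : ls K g (fun z => -z.im) x ω = -c.im + r := by
      refine ls_eq hK hnu lin_nim hx hd (w := c - r * Complex.I) ?_ (hn _ ?_)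
      · simp only [Complex.sub_im, Complex.mul_im, Complex.ofReal_re, Complex.I_im,
          Complex.ofReal_im, Complex.I_re]; ring
      · rw [sub_sub_cancel_left, norm_neg, norm_mul, Complex.norm_I, mul_one, Complex.norm_real,
          Real.norm_of_nonneg hr]
    have hcen : cen K g x ω = c := by
      rw [cen, e1, e2, e3, e4]
      apply Complex.ext
      · simp
      · simp
    have hrad : rad K g x ω = r := by
      rw [rad, e1, e2]; ring
    rw [hcen, hrad]
    exact hd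
  refine ⟨⟨fun x hx ω => rad_nonneg hK hnu hx ω, ?_, ?_, hdisk, ?_⟩, hcm, hrm, hbd, ?_⟩
  · intro x hx
    obtain ⟨M, hM, hM'⟩ := hbd x hx
    refine Integrable.of_bound (hrm x hx).aestronglyMeasurable M (Eventually.of_forall fun ω => ?_)
    rw [Real.norm_of_nonneg (rad_nonneg hK hnu hx ω)]
    exact (hM' ω).2
  · intro x hx
    obtain ⟨M, hM, hM'⟩ := hbd x hx
    refine Integrable.of_bound ((hrm x hx).pow_const 2).aestronglyMeasurable (M ^ 2)
      (Eventually.of_forall fun ω => ?_)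
    rw [Real.norm_of_nonneg (sq_nonneg _)]
    exact pow_le_pow_left₀ (rad_nonneg hK hnu hx ω) (hM' ω).2 2
  · -- near
    intro x hx δ hδ
    obtain ⟨M, hM, hM'⟩ := hbd x hx
    obtain ⟨M₀, hM₀, hM₀'⟩ := bound_nd hK hnu
    set b : ℕ → Ω → ℝ := fun n ω => sSup ((fun z => ‖g ω z - cen K g x ω‖) '' (nd K n x \ K))
      with hb
    have hbb : ∀ ω n, ∀ z ∈ nd K n x \ K, ‖g ω z - cen K g x ω‖ ≤ M₀ + M := fun ω n z hz =>
      (norm_sub_le _ _).trans (add_le_add (hM₀' ω n x z hz.1 hz.2) (hM' ω).1)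
    have hbdd : ∀ ω n, BddAbove ((fun z => ‖g ω z - cen K g x ω‖) '' (nd K n x \ K)) := by
      intro ω n
      refine ⟨M₀ + M, ?_⟩
      rintro _ ⟨z, hz, rfl⟩
      exact hbb ω n z hz
    have hb0 : ∀ n ω, 0 ≤ b n ω := by
      intro n ω
      obtain ⟨z, hz⟩ := nd_diff_nonempty hK hx n
      exact (norm_nonneg _).trans (le_csSup (hbdd ω n) ⟨z, hz, rfl⟩)
    have hbM : ∀ n ω, b n ω ≤ M₀ + M := by
      intro n ω
      refine csSup_le ((nd_diff_nonempty hK hx n).image _) ?_
      rintro _ ⟨z, hz, rfl⟩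
      exact hbb ω n z hz
    have hbm : ∀ n, Measurable (b n) := by
      intro n
      refine measurable_sSup (φ := fun ω z => ‖g ω z - cen K g x ω‖) (C := M₀ + M)
        (nd_diff_nonempty hK hx n) (fun z hz => ?_) (fun ω => ?_) fun ω z hz => hbb ω n z hz
      · exact ((cont_val hc hz.2).measurable.sub (hcm x hx)).norm
      · exact (((cont_slice hc ω).mono fun z hz => hz.2).sub continuousOn_const).norm
    have hbanti : ∀ ω, Antitone fun n => b n ω := by
      intro ω m n hmn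
      refine csSup_le_csSup (hbdd ω m) ((nd_diff_nonempty hK hx n).image _) ?_
      exact image_mono (sdiff_subset_sdiff_left (nd_anti hmn))
    have hlim : Tendsto (fun n => ∫ ω, max (b n ω) (rad K g x ω) ∂P) atTop
        (𝓝 (∫ ω, rad K g x ω ∂P)) := by
      refine tendsto_integral_of_dominated_convergence (fun _ => M₀ + M + M) (fun n =>
        ((hbm n).max (hrm x hx)).aestronglyMeasurable) (integrable_const _) (fun n =>
        Eventually.of_forall fun ω => ?_) ?_
      · rw [Real.norm_of_nonneg ((hb0 n ω).trans (le_max_left _ _))]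
        refine max_le ?_ ?_
        · have := hbM n ω
          linarith
        · have := (hM' ω).2
          linarith
      · filter_upwards [hdisk x hx] with ω hω
        rw [Metric.tendsto_atTop]
        intro ε hε
        obtain ⟨n, hn⟩ := hω.near (ε / 2) (by positivity)
        refine ⟨n, fun m hm => ?_⟩
        have h1 : b m ω ≤ rad K g x ω + ε / 2 := by
          refine (hbanti ω hm).trans ?_
          refine csSup_le ((nd_diff_nonempty hK hx n).image _) ?_
          rintro _ ⟨z, hz, rfl⟩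
          exact hn z hz.1 hz.2
        rw [Real.dist_eq, abs_of_nonneg (sub_nonneg.2 (le_max_right _ _))]
        have h2 : max (b m ω) (rad K g x ω) ≤ rad K g x ω + ε / 2 := max_le h1 (by linarith)
        linarith
    obtain ⟨n, hn⟩ := ((hlim.eventually (gt_mem_nhds (show (∫ ω, rad K g x ω ∂P) <
      (∫ ω, rad K g x ω ∂P) + δ by linarith)))).exists
    refine ⟨n, fun m hm z hz hzK => ?_⟩
    have hz' : z ∈ nd K n x := nd_anti hm hz
    have hi1 : Integrable (fun ω => g ω z) P := by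
      refine Integrable.of_bound (cont_val hc hzK).measurable.aestronglyMeasurable M₀
        (Eventually.of_forall fun ω => hM₀' ω n x z hz' hzK)
    have hi2 : Integrable (fun ω => cen K g x ω) P :=
      Integrable.of_bound (hcm x hx).aestronglyMeasurable M
        (Eventually.of_forall fun ω => (hM' ω).1)
    have hi3 : Integrable (fun ω => max (b n ω) (rad K g x ω)) P := by
      refine Integrable.of_bound ((hbm n).max (hrm x hx)).aestronglyMeasurable (M₀ + M + M)
        (Eventually.of_forall fun ω => ?_)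
      rw [Real.norm_of_nonneg ((hb0 n ω).trans (le_max_left _ _))]
      refine max_le ?_ ?_
      · have := hbM n ω
        linarith
      · have := (hM' ω).2
        linarith
    rw [avg, ← integral_sub hi1 hi2]
    refine (norm_integral_le_integral_norm _).trans ?_
    refine (integral_mono (hi1.sub hi2).norm hi3 fun ω => ?_).trans hn.le
    exact (le_csSup (hbdd ω n) ⟨z, ⟨hz', hzK⟩, rfl⟩).trans (le_max_left _ _)
  · intro x hx y hy hne
    filter_upwards [h.good x hx, h.good y hy, hdisk x hx, hdisk y hy] with ω h1 h2 h3 h4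
    exact G.disk_disj hK hf (h.fine ω) (h.conv ω) hx hy hne h1 h2 h3 h4

/-- **radii and centres of the random disks** -/
theorem exists_rad {Par : Type} {B : Par → ℝ → Set (Set (Set ℂ))} {𝔉 : Ω → Ultrafilter Str}
    (hK : IsCompact K) (hf : Full K) (h : G.FSt K B Ω P g 𝔉) :
    ∃ (a : ℂ → Ω → ℂ) (r : ℂ → Ω → ℝ), Rad K P g a r ∧
      ∀ x ∈ K, ∀ y ∈ K, connectedComponentIn K x ≠ connectedComponentIn K y → ∀ᵐ ω ∂P,
        Disjoint (closedBall (a x ω) (r x ω)) (closedBall (a y ω) (r y ω)) :=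
  ⟨cen K g, rad K g, (exists_rad' hK hf h).1, (exists_rad' hK hf h).2.2.2.2⟩

end rad

end Vale.Agent.P116.KB
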