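import Mathlib
import Vale.Agent.P116.H906.Asm

/-!
The area omitted by a univalent function near infinity, up to an error which tends to `0`.
-/

open Set Filter Topology Metric Bornology MeasureTheory

namespace Vale.Agent.P116.KB

open H906

/-- second order expansion at infinity -/
lemma nu_tail2 {U : Set ℂ} {f : ℂ → ℂ} {R : ℝ} (hR : 0 < R) (h : NU U f)
    (hU : (closedBall (0:ℂ) R)ᶜ ⊆ U) :
    ∃ a : ℂ, ‖a‖ ≤ 24 * R ^ 2 ∧ ∀ z, 2 * R < ‖z‖ → ‖f z - z - a / z‖ ≤ 96 * R ^ 3 / ‖z‖ ^ 2 := by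
  have hR0 : (R : ℂ) ≠ 0 := by exact_mod_cast hR.ne'
  have hk := kf_diff hR h hU
  set k := kf f R with hkdef
  set q : ℂ → ℂ := dslope k 0 with hq
  have hqd : DifferentiableOn ℂ q (ball 0 1) :=
    (Complex.differentiableOn_dslope (ball_mem_nhds _ one_pos)).2 hk
  have hqne : ∀ ζ ∈ ball (0:ℂ) (1/2), ζ ≠ 0 → ‖q ζ‖ ≤ 24 * R := by
    intro ζ hζ h0
    have hz : 2 * R < ‖(R / ζ : ℂ)‖ := by
      rw [norm_div, Complex.norm_real, Real.norm_of_nonneg hR.le, lt_div_iff₀ (norm_pos_iff.2 h0)]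
      rw [mem_ball_zero_iff] at hζ
      nlinarith
    have h1 := h.tail hR hU hz
    have h2 : k ζ = f (R / ζ) - R / ζ := by rw [hkdef, kf, if_neg h0]
    rw [hq, dslope_of_ne _ h0, slope_def_field, hkdef, kf_zero, ← hkdef, sub_zero, sub_zero,
      norm_div, div_le_iff₀ (norm_pos_iff.2 h0), h2]
    refine h1.trans (le_of_eq ?_)
    rw [norm_div, Complex.norm_real, Real.norm_of_nonneg hR.le]
    have := norm_pos_iff.2 h0
    field_simp
  have hq0 : ‖q 0‖ ≤ 24 * R := by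
    have hc : ContinuousAt q 0 :=
      (hqd.differentiableAt (ball_mem_nhds _ one_pos)).continuousAt
    have h1 : Tendsto (fun ζ => ‖q ζ‖) (𝓝[≠] (0:ℂ)) (𝓝 ‖q 0‖) :=
      (hc.norm.tendsto).mono_left nhdsWithin_le_nhds
    refine le_of_tendsto h1 ?_
    filter_upwards [self_mem_nhdsWithin, mem_nhdsWithin_of_mem_nhds
      (ball_mem_nhds (0:ℂ) (by norm_num : (0:ℝ) < 1/2))] with ζ h2 h3 using hqne ζ h3 h2
  have hqb : ∀ ζ ∈ ball (0:ℂ) (1/2), ‖q ζ‖ ≤ 24 * R := by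
    intro ζ hζ
    by_cases h0 : ζ = 0
    · rw [h0]; exact hq0
    · exact hqne ζ hζ h0
  refine ⟨q 0 * R, ?_, ?_⟩
  · rw [norm_mul, Complex.norm_real, Real.norm_of_nonneg hR.le]
    nlinarith
  · intro z hz
    have hzpos : 0 < ‖z‖ := by linarith
    have hz0 : z ≠ 0 := norm_pos_iff.1 hzpos
    have hmem : (R / z : ℂ) ∈ ball (0:ℂ) (1/2) := by
      rw [mem_ball_zero_iff, norm_div, Complex.norm_real, Real.norm_of_nonneg hR.le,
        div_lt_iff₀ hzpos]
      linarith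
    have hne : (R / z : ℂ) ≠ 0 := div_ne_zero hR0 hz0
    have h1 : f z - z = k (R / z) := by
      rw [hkdef, kf, if_neg hne]
      have h4 : (R : ℂ) / (R / z) = z := by field_simp
      rw [h4]
    have h2 : k (R / z) = (R / z) * q (R / z) := by
      rw [hq, dslope_of_ne _ hne, slope_def_field, hkdef, kf_zero, sub_zero, sub_zero]
      field_simp
    have h3 := Complex.dist_le_div_mul_dist_of_mapsTo_ball (f := q) (c := 0) (R₁ := 1/2)
      (R₂ := 48 * R) (hqd.mono (ball_subset_ball (by norm_num))) (fun x hx => by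
        rw [mem_closedBall, dist_eq_norm]
        have h4 := hqb x hx
        have h5 := norm_sub_le (q x) (q 0)
        linarith) hmem
    rw [dist_zero_right, dist_eq_norm] at h3
    have h5 : f z - z - q 0 * R / z = (R / z) * (q (R / z) - q 0) := by
      rw [h1, h2]; ring
    rw [h5, norm_mul, norm_div, Complex.norm_real, Real.norm_of_nonneg hR.le]
    rw [norm_div, Complex.norm_real, Real.norm_of_nonneg hR.le] at h3
    calc R / ‖z‖ * ‖q (R / z) - q 0‖ ≤ R / ‖z‖ * (48 * R / (1 / 2) * (R / ‖z‖)) := by gcongr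
      _ = 96 * R ^ 3 / ‖z‖ ^ 2 := by
        field_simp
        ring

/-- the linear map `w ↦ w - b * conj w` -/
noncomputable def lm (b : ℂ) : ℂ →ₗ[ℝ] ℂ :=
  LinearMap.id - (LinearMap.mulLeft ℝ b).comp (Complex.conjAe.toLinearEquiv : ℂ ≃ₗ[ℝ] ℂ).toLinearMap

lemma lm_apply (b w : ℂ) : lm b w = w - b * (starRingEnd ℂ) w := by
  simp [lm]

lemma lm_det (b : ℂ) : LinearMap.det (lm b) = 1 - ‖b‖ ^ 2 := by
  rw [← LinearMap.det_toMatrix Complex.basisOneI, Matrix.det_fin_two]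
  simp only [LinearMap.toMatrix_apply, Complex.coe_basisOneI, Complex.coe_basisOneI_repr,
    lm_apply]
  simp
  rw [← Complex.normSq_eq_norm_sq, Complex.normSq_apply]
  ring

/-- the set of omitted values is compact -/
lemma isCompact_omit {U : Set ℂ} {f : ℂ → ℂ} {T : ℝ} (hT : 0 < T) (h : NU U f)
    (hU : (closedBall (0:ℂ) T)ᶜ ⊆ U) : IsCompact (f '' (closedBall (0:ℂ) T)ᶜ)ᶜ := by
  have h' := h.mono hU
  have ho : IsOpen (closedBall (0:ℂ) T)ᶜ := isClosed_closedBall.isOpen_compl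
  have hop : IsOpen (f '' (closedBall (0:ℂ) T)ᶜ) := by
    have hA : AnalyticOnNhd ℂ f (closedBall (0:ℂ) T)ᶜ := h'.diff.analyticOnNhd ho
    rcases hA.is_constant_or_isOpen (isPreconnected_compl_closedBall 0 hT.le) with h1 | h1
    · exfalso
      obtain ⟨w, hw⟩ := h1
      have h2 : ((T + 1 : ℝ) : ℂ) ∈ (closedBall (0:ℂ) T)ᶜ := by
        rw [mem_compl_iff, mem_closedBall, dist_zero_right, Complex.norm_real,
          Real.norm_of_nonneg (by linarith)]
        linarith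
      have h3 : ((T + 2 : ℝ) : ℂ) ∈ (closedBall (0:ℂ) T)ᶜ := by
        rw [mem_compl_iff, mem_closedBall, dist_zero_right, Complex.norm_real,
          Real.norm_of_nonneg (by linarith)]
        linarith
      have h4 := h'.inj h2 h3 ((hw _ h2).trans (hw _ h3).symm)
      have h5 : (T + 1 : ℝ) = T + 2 := by exact_mod_cast h4
      linarith
    · exact h1 _ Subset.rfl ho
  refine (isCompact_closedBall (0:ℂ) (5 * T)).of_isClosed_subset hop.isClosed_compl ?_
  intro w hw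
  rw [mem_closedBall, dist_zero_right]
  exact h'.omitted hT Subset.rfl fun z hz hzw => hw ⟨z, hz, hzw⟩

/-- a value on the boundary of the omitted set comes from the circle -/
lemma frontier_omit {U : Set ℂ} {f : ℂ → ℂ} {R T : ℝ} (hR : 0 < R) (hRT : 2 * R < T) (h : NU U f)
    (hU : (closedBall (0:ℂ) R)ᶜ ⊆ U) {w : ℂ} (hw : w ∈ frontier (f '' (closedBall (0:ℂ) T)ᶜ)ᶜ) :
    ∃ z, ‖z‖ = T ∧ f z = w := by
  have hU' : (closedBall (0:ℂ) T)ᶜ ⊆ U :=
    (compl_subset_compl.2 (closedBall_subset_closedBall (by linarith))).trans hU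
  have hL : w ∈ (f '' (closedBall (0:ℂ) T)ᶜ)ᶜ :=
    (isCompact_omit (by linarith) h hU').isClosed.frontier_subset hw
  rw [frontier_compl] at hw
  have hcl : w ∈ closure (f '' (closedBall (0:ℂ) T)ᶜ) := frontier_subset_closure hw
  obtain ⟨u, hu, hut⟩ := mem_closure_iff_seq_limit.1 hcl
  choose z hz hzu using hu
  have hzb : ∃ M, ∀ n, ‖z n‖ ≤ M := by
    obtain ⟨M, hM⟩ := (hut.norm.isBoundedUnder_le).bddAbove_range
    refine ⟨M + 12 * R, fun n => ?_⟩
    have h1 : ‖u n‖ ≤ M := hM ⟨n, rfl⟩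
    have h2 : T < ‖z n‖ := by
      have := hz n
      rw [mem_compl_iff, mem_closedBall, dist_zero_right, not_le] at this
      exact this
    have h3 := h.tail hR hU (z := z n) (by linarith)
    have h4 : 24 * R ^ 2 / ‖z n‖ ≤ 12 * R := by
      rw [div_le_iff₀ (by linarith)]
      nlinarith
    rw [hzu n] at h3
    have h5 := norm_sub_norm_le (z n) (u n)
    rw [norm_sub_rev] at h5
    linarith
  obtain ⟨M, hM⟩ := hzb
  obtain ⟨z₀, -, φ, hφ, hzφ⟩ := (isCompact_closedBall (0:ℂ) M).tendsto_subseq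
    (x := z) (fun n => by rw [mem_closedBall, dist_zero_right]; exact hM n)
  have hz₀ : T ≤ ‖z₀‖ := by
    refine ge_of_tendsto (hzφ.norm) (Eventually.of_forall fun n => ?_)
    have := hz (φ n)
    rw [mem_compl_iff, mem_closedBall, dist_zero_right, not_le] at this
    exact this.le
  have hz₀U : z₀ ∈ (closedBall (0:ℂ) R)ᶜ := by
    rw [mem_compl_iff, mem_closedBall, dist_zero_right, not_le]
    linarith
  have hfc : ContinuousAt f z₀ := ((h.mono hU).diff.differentiableAt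
    (isClosed_closedBall.isOpen_compl.mem_nhds hz₀U)).continuousAt
  have h6 : Tendsto (fun n => f (z (φ n))) atTop (𝓝 (f z₀)) := hfc.tendsto.comp hzφ
  have h7 : Tendsto (fun n => f (z (φ n))) atTop (𝓝 w) := by
    refine (hut.comp hφ.tendsto_atTop).congr fun n => ?_
    simp [hzu]
  have h8 : f z₀ = w := tendsto_nhds_unique h6 h7
  refine ⟨z₀, ?_, h8⟩
  by_contra hne
  have h9 : z₀ ∈ (closedBall (0:ℂ) T)ᶜ := by
    rw [mem_compl_iff, mem_closedBall, dist_zero_right, not_le]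
    exact lt_of_le_of_ne hz₀ (Ne.symm hne)
  exact hL ⟨z₀, h9, h8⟩

/-- the omitted set is contained in an ellipse -/
lemma omit_sub {U : Set ℂ} {f : ℂ → ℂ} {R T : ℝ} (hR : 0 < R) (hRT : 10 * R ≤ T) (h : NU U f)
    (hU : (closedBall (0:ℂ) R)ᶜ ⊆ U) :
    ∃ b : ℂ, ‖b‖ ≤ 1 / 2 ∧ (f '' (closedBall (0:ℂ) T)ᶜ)ᶜ ⊆
      lm b ⁻¹' closedBall 0 ((1 - ‖b‖ ^ 2) * (T + 200 * R ^ 3 / T ^ 2)) := by
  have hT : 0 < T := by linarith
  obtain ⟨a, ha, haz⟩ := nu_tail2 hR h hU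
  set b : ℂ := a / T ^ 2 with hb
  have hbn : ‖b‖ ≤ 1 / 2 := by
    rw [hb, norm_div, norm_pow, Complex.norm_real, Real.norm_of_nonneg hT.le,
      div_le_iff₀ (by positivity)]
    nlinarith
  have hU' : (closedBall (0:ℂ) T)ᶜ ⊆ U :=
    (compl_subset_compl.2 (closedBall_subset_closedBall (by linarith))).trans hU
  set L := (f '' (closedBall (0:ℂ) T)ᶜ)ᶜ with hL
  have hLc : IsCompact L := isCompact_omit hT h hU'
  refine ⟨b, hbn, ?_⟩
  set ρ := (1 - ‖b‖ ^ 2) * (T + 200 * R ^ 3 / T ^ 2) with hρ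
  have hb2 : ‖b‖ ^ 2 ≤ 1 / 4 := by nlinarith [norm_nonneg b]
  have hρ0 : 0 < ρ := by
    have : 0 < T + 200 * R ^ 3 / T ^ 2 := by positivity
    rw [hρ]
    apply mul_pos _ this
    linarith
  -- continuity
  have hcont : Continuous (fun w : ℂ => ‖lm b w‖) := by
    simp only [lm_apply]
    fun_prop
  by_contra hcon
  rw [not_subset] at hcon
  obtain ⟨w₁, hw₁, hw₁'⟩ := hcon
  rw [mem_preimage, mem_closedBall, dist_zero_right, not_le] at hw₁'
  obtain ⟨w, hwL, hwmax⟩ := hLc.exists_isMaxOn ⟨w₁, hw₁⟩ hcont.continuousOn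
  have hwρ : ρ < ‖lm b w‖ := hw₁'.trans_le (hwmax hw₁)
  have hfr : w ∈ frontier L := by
    rw [hLc.isClosed.frontier_eq]
    refine ⟨hwL, fun hint => ?_⟩
    have hev : ∀ᶠ t : ℝ in 𝓝[>] (1:ℝ), (t : ℂ) * w ∈ L := by
      have h1 : Tendsto (fun t : ℝ => (t : ℂ) * w) (𝓝[>] (1:ℝ)) (𝓝 ((1:ℝ) * w)) := by
        have h2 : Continuous (fun t : ℝ => (t : ℂ) * w) := by fun_prop
        exact (h2.tendsto 1).mono_left nhdsWithin_le_nhds
      rw [Complex.ofReal_one, one_mul] at h1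
      exact h1.eventually (mem_interior_iff_mem_nhds.1 hint)
    obtain ⟨t, ht, ht1⟩ := (hev.and self_mem_nhdsWithin).exists
    have ht1' : (1:ℝ) < t := ht1
    have h3 := hwmax ht
    have h4 : lm b ((t : ℂ) * w) = (t : ℂ) * lm b w := by
      rw [lm_apply, lm_apply, map_mul, Complex.conj_ofReal]
      ring
    change ‖lm b ((t : ℂ) * w)‖ ≤ ‖lm b w‖ at h3
    rw [h4, norm_mul, Complex.norm_real, Real.norm_of_nonneg (by linarith)] at h3
    nlinarith
  obtain ⟨z, hzT, hzw⟩ := frontier_omit hR (by linarith) h hU hfr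
  have hz := haz z (by rw [hzT]; linarith)
  rw [hzw, hzT] at hz
  set e : ℂ := w - z - a / z with he
  have hzpos : 0 < ‖z‖ := by rw [hzT]; exact hT
  have hz0 : z ≠ 0 := norm_pos_iff.1 hzpos
  have haz' : a / z = b * (starRingEnd ℂ) z := by
    have h1 : z * (starRingEnd ℂ) z = (T:ℂ) ^ 2 := by
      rw [Complex.mul_conj, Complex.normSq_eq_norm_sq, hzT]
      push_cast
      ring
    have hT0 : (T:ℂ) ≠ 0 := by exact_mod_cast hT.ne'
    rw [hb, div_eq_iff hz0, div_mul_eq_mul_div, div_mul_eq_mul_div, eq_div_iff (pow_ne_zero 2 hT0),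
      ← h1]
    ring
  have hw : w = z + b * (starRingEnd ℂ) z + e := by
    rw [he, haz']
    ring
  have hlm : lm b w = ((1 - ‖b‖ ^ 2 : ℝ) : ℂ) * z + lm b e := by
    have h2 : b * (starRingEnd ℂ) b = ((‖b‖ ^ 2 : ℝ) : ℂ) := by
      rw [Complex.mul_conj, Complex.normSq_eq_norm_sq]
    rw [hw, lm_apply, lm_apply]
    simp only [map_add, map_mul, Complex.conj_conj]
    push_cast
    push_cast at h2
    linear_combination (-z) * h2
  have hlme : ‖lm b e‖ ≤ (1 + ‖b‖) * ‖e‖ := by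
    rw [lm_apply]
    refine (norm_sub_le _ _).trans (le_of_eq ?_)
    rw [norm_mul, RCLike.norm_conj]
    ring
  have hn : ‖lm b w‖ ≤ (1 - ‖b‖ ^ 2) * T + (1 + ‖b‖) * ‖e‖ := by
    rw [hlm]
    refine (norm_add_le _ _).trans (add_le_add (le_of_eq ?_) hlme)
    rw [norm_mul, Complex.norm_real, Real.norm_of_nonneg (by linarith), hzT]
  have he2 : (1 + ‖b‖) * ‖e‖ ≤ (1 - ‖b‖ ^ 2) * (200 * R ^ 3 / T ^ 2) := by
    have h5 : (1 + ‖b‖) * ‖e‖ ≤ (1 + ‖b‖) * (96 * R ^ 3 / T ^ 2) :=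
      mul_le_mul_of_nonneg_left hz (by positivity)
    have h6 : (1 - ‖b‖ ^ 2) * (200 * R ^ 3 / T ^ 2) =
        (1 + ‖b‖) * ((1 - ‖b‖) * (200 * R ^ 3 / T ^ 2)) := by ring
    rw [h6]
    refine h5.trans (mul_le_mul_of_nonneg_left ?_ (by positivity))
    have h7 : 96 * R ^ 3 / T ^ 2 = 96 * (R ^ 3 / T ^ 2) := by ring
    have h8 : 200 * R ^ 3 / T ^ 2 = 200 * (R ^ 3 / T ^ 2) := by ring
    have h9 : 0 ≤ R ^ 3 / T ^ 2 := by positivity
    rw [h7, h8]
    nlinarith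
  rw [hρ] at hwρ
  linarith [mul_add (1 - ‖b‖ ^ 2) T (200 * R ^ 3 / T ^ 2)]

/-- **the area of the omitted set** -/
theorem volume_omit_le {U : Set ℂ} {f : ℂ → ℂ} {R T : ℝ} (hR : 0 < R) (hRT : 10 * R ≤ T)
    (h : NU U f) (hU : (closedBall (0:ℂ) R)ᶜ ⊆ U) :
    volume (f '' (closedBall (0:ℂ) T)ᶜ)ᶜ ≤
      ENNReal.ofReal (Real.pi * (T + 200 * R ^ 3 / T ^ 2) ^ 2) := by
  obtain ⟨b, hb, hsub⟩ := omit_sub hR hRT h hU
  have hT : 0 < T := by linarith
  refine (measure_mono hsub).trans ?_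
  have hb2 : ‖b‖ ^ 2 ≤ 1 / 4 := by nlinarith [norm_nonneg b]
  have hdet : LinearMap.det (lm b) ≠ 0 := by rw [lm_det]; linarith
  set κ : ℝ := 1 - ‖b‖ ^ 2 with hκ
  have hκ0 : 0 < κ := by rw [hκ]; linarith
  have hκ1 : κ ≤ 1 := by rw [hκ]; nlinarith [norm_nonneg b]
  set t : ℝ := T + 200 * R ^ 3 / T ^ 2 with ht
  have ht0 : 0 < t := by positivity
  rw [Measure.addHaar_preimage_linearMap volume hdet, lm_det, ← hκ, Complex.volume_closedBall,
    ← ENNReal.ofReal_pow (by positivity), abs_of_pos (inv_pos.2 hκ0)]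
  have hpi : (NNReal.pi : ENNReal) = ENNReal.ofReal Real.pi := by
    rw [ENNReal.ofReal, ← NNReal.coe_real_pi, Real.toNNReal_coe]
  rw [hpi, ← ENNReal.ofReal_mul (by positivity), ← ENNReal.ofReal_mul (by positivity)]
  apply ENNReal.ofReal_le_ofReal
  have h1 : κ⁻¹ * ((κ * t) ^ 2 * Real.pi) = κ * (Real.pi * t ^ 2) := by
    field_simp
  rw [h1]
  have h2 : 0 ≤ Real.pi * t ^ 2 := by positivity
  nlinarith

end Vale.Agent.P116.KB
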