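import Mathlib
import Vale.Agent.P116.KB.AV1
import Vale.Agent.P116.H906.LL

/-!
The sharp area inequality for a univalent function near infinity.
-/

open Set Filter Topology Metric Bornology MeasureTheory
open scoped ENNReal Real

namespace Vale.Agent.P116.KB

open H906

lemma nu_deriv_tail {U : Set ℂ} {f : ℂ → ℂ} {R : ℝ} (hR : 0 < R) (h : NU U f)
    (hU : (closedBall (0:ℂ) R)ᶜ ⊆ U) {z : ℂ} (hz : 4 * R < ‖z‖) :
    ‖deriv f z - 1‖ ≤ 128 * R ^ 2 / ‖z‖ ^ 2 := by
  have hzpos : 0 < ‖z‖ := by linarith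
  have ho : IsOpen (closedBall (0:ℂ) R)ᶜ := isClosed_closedBall.isOpen_compl
  have h' := (h.mono hU).diff
  have hlow : ∀ w ∈ closedBall z (‖z‖ / 4), 3 / 4 * ‖z‖ ≤ ‖w‖ := by
    intro w hw
    rw [mem_closedBall, dist_eq_norm] at hw
    have h1 := norm_sub_norm_le z w
    rw [norm_sub_rev] at h1
    linarith
  have hd : DifferentiableOn ℂ (fun w => f w - w) (closedBall z (‖z‖ / 4)) := by
    refine (h'.mono fun w hw => ?_).sub differentiableOn_id
    rw [mem_compl_iff, mem_closedBall, dist_zero_right, not_le]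
    linarith [hlow w hw]
  have hzU : z ∈ (closedBall (0:ℂ) R)ᶜ := by
    rw [mem_compl_iff, mem_closedBall, dist_zero_right, not_le]
    linarith
  have h2 := Complex.norm_deriv_le_of_forall_mem_sphere_norm_le (c := z) (R := ‖z‖ / 4)
    (C := 32 * R ^ 2 / ‖z‖) (f := fun w => f w - w) (by positivity)
    (by
      refine DifferentiableOn.diffContOnCl ?_
      rw [closure_ball _ (by positivity)]
      exact hd) (by
      intro w hw
      have h3 := hlow w (sphere_subset_closedBall hw)
      refine (h.tail hR hU (z := w) (by linarith)).trans ?_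
      rw [div_le_div_iff₀ (by linarith) hzpos]
      nlinarith [sq_nonneg R, pow_pos hR 2])
  have h4 : deriv (fun w => f w - w) z = deriv f z - 1 :=
    ((h'.differentiableAt (ho.mem_nhds hzU)).hasDerivAt.sub (hasDerivAt_id z)).deriv
  rw [h4] at h2
  refine h2.trans (le_of_eq ?_)
  field_simp
  ring

lemma circle_mean {U : Set ℂ} {f : ℂ → ℂ} {R : ℝ} (hR : 0 < R) (h : NU U f)
    (hU : (closedBall (0:ℂ) R)ᶜ ⊆ U) {ρ : ℝ} (hρ : R < ρ) :
    ∫ θ in Ioo (-π) π, (deriv f (circleMap 0 ρ θ) - 1) = 0 := by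
  have ho : IsOpen (closedBall (0:ℂ) R)ᶜ := isClosed_closedBall.isOpen_compl
  have h' := (h.mono hU).diff
  set F : ℂ → ℂ := fun z => deriv f z - 1 with hF
  have hFd : DifferentiableOn ℂ F (closedBall (0:ℂ) R)ᶜ :=
    (h'.deriv ho).sub_const 1
  -- reduction to the circle integral
  have hρ0 : 0 < ρ := hR.trans hρ
  have key : (∮ z in C(0, ρ), (z - 0)⁻¹ • F z) = 0 := by
    have hle : ∀ ρ' : ℝ, max ρ (4 * R + 1) ≤ ρ' →
        ‖∮ z in C(0, ρ), (z - 0)⁻¹ • F z‖ ≤ 2 * π * (128 * R ^ 2) / ρ' ^ 2 := by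
      intro ρ' hρ'
      have h1 : ρ ≤ ρ' := (le_max_left _ _).trans hρ'
      have h2 : 4 * R < ρ' := by linarith [(le_max_right ρ (4 * R + 1)).trans hρ']
      have hρ'0 : 0 < ρ' := by linarith
      rw [← Complex.circleIntegral_sub_center_inv_smul_eq_of_differentiable_on_annulus_off_countable
        (c := 0) (f := F) hρ0 h1 countable_empty]
      · have h3 := circleIntegral.norm_integral_le_of_norm_le_const (c := 0) (R := ρ')
          (f := fun z => (z - 0)⁻¹ • F z) (C := 128 * R ^ 2 / ρ' ^ 3) hρ'0.le (by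
            intro z hz
            rw [mem_sphere_zero_iff_norm] at hz
            have h4 := nu_deriv_tail hR h hU (z := z) (by rw [hz]; exact h2)
            rw [hz] at h4
            rw [sub_zero, norm_smul, norm_inv, hz]
            calc ρ'⁻¹ * ‖F z‖ ≤ ρ'⁻¹ * (128 * R ^ 2 / ρ' ^ 2) := by gcongr
              _ = 128 * R ^ 2 / ρ' ^ 3 := by field_simp)
        refine h3.trans (le_of_eq ?_)
        field_simp
      · refine hFd.continuousOn.mono fun z hz => ?_
        rw [mem_compl_iff, mem_closedBall, dist_zero_right, not_le]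
        have := hz.2
        rw [mem_ball_zero_iff, not_lt] at this
        linarith
      · intro z hz
        refine hFd.differentiableAt (ho.mem_nhds ?_)
        rw [mem_compl_iff, mem_closedBall, dist_zero_right, not_le]
        have := hz.1.2
        rw [mem_closedBall, dist_zero_right, not_le] at this
        linarith
    have hlim : Tendsto (fun ρ' : ℝ => 2 * π * (128 * R ^ 2) / ρ' ^ 2) atTop (𝓝 0) :=
      Tendsto.div_atTop tendsto_const_nhds (tendsto_pow_atTop (by norm_num))
    have h5 : ‖∮ z in C(0, ρ), (z - 0)⁻¹ • F z‖ ≤ 0 :=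
      ge_of_tendsto hlim ((eventually_ge_atTop _).mono hle)
    exact norm_le_zero_iff.1 h5
  have h6 : (∮ z in C(0, ρ), (z - 0)⁻¹ • F z) =
      Complex.I * ∫ θ in (0:ℝ)..2 * π, F (circleMap 0 ρ θ) := by
    rw [circleIntegral, ← intervalIntegral.integral_const_mul]
    refine intervalIntegral.integral_congr fun θ _ => ?_
    simp only [deriv_circleMap, sub_zero, smul_eq_mul]
    have : circleMap 0 ρ θ ≠ 0 := circleMap_ne_center hρ0.ne'
    field_simp
  rw [h6] at key
  have h7 : ∫ θ in (0:ℝ)..2 * π, F (circleMap 0 ρ θ) = 0 := by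
    rcases mul_eq_zero.1 key with h8 | h8
    · exact absurd h8 Complex.I_ne_zero
    · exact h8
  have hper : Function.Periodic (fun θ => F (circleMap 0 ρ θ)) (2 * π) := by
    intro θ
    simp only [periodic_circleMap 0 ρ θ]
  have h9 : ∫ θ in (-π)..π, F (circleMap 0 ρ θ) = 0 := by
    have h10 := hper.intervalIntegral_add_eq (-π) 0
    rw [zero_add, h7] at h10
    have h11 : -π + 2 * π = π := by ring
    rw [h11] at h10
    exact h10
  rw [intervalIntegral.integral_of_le (by linarith [Real.pi_pos]), integral_Ioc_eq_integral_Ioo] at h9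
  exact h9

/-- open annulus centred at `0` -/
def an0 (a b : ℝ) : Set ℂ := {w | a < ‖w‖ ∧ ‖w‖ < b}

lemma isOpen_an0 (a b : ℝ) : IsOpen (an0 a b) :=
  (isOpen_lt continuous_const continuous_norm).inter (isOpen_lt continuous_norm continuous_const)

lemma polar_an0 {a b : ℝ} (ha : 0 < a) {G : ℂ → ℝ≥0∞} (hG : Measurable G) :
    ∫⁻ ρ in Ioo a b, ∫⁻ θ in Ioo (-π) π, ENNReal.ofReal ρ * G (circleMap 0 ρ θ) =
      ∫⁻ w in an0 a b, G w := by
  have hGi : Measurable ((an0 a b).indicator G) := hG.indicator (isOpen_an0 a b).measurableSet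
  have h1 : ∫⁻ w in an0 a b, G w = ∫⁻ w, (an0 a b).indicator G w := by
    rw [← lintegral_indicator (isOpen_an0 a b).measurableSet]
  have hcm : ∀ p : ℝ × ℝ, Complex.polarCoord.symm p = circleMap 0 p.1 p.2 := by
    intro p
    rw [Complex.polarCoord_symm_apply, circleMap, Complex.exp_mul_I]
    push_cast
    ring
  rw [h1, ← Complex.lintegral_comp_polarCoord_symm]
  have htar : polarCoord.target = Ioi (0:ℝ) ×ˢ Ioo (-π) π := rfl
  rw [htar, Measure.volume_eq_prod, ← Measure.prod_restrict]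
  simp only [hcm, smul_eq_mul]
  have hmeas : Measurable fun p : ℝ × ℝ =>
      ENNReal.ofReal p.1 * (an0 a b).indicator G (circleMap 0 p.1 p.2) := by
    refine (ENNReal.measurable_ofReal.comp measurable_fst).mul (hGi.comp ?_)
    have : Continuous fun p : ℝ × ℝ => circleMap 0 p.1 p.2 := by
      simp only [circleMap]
      fun_prop
    exact this.measurable
  rw [lintegral_prod _ hmeas.aemeasurable]
  have h3 : ∀ ρ ∈ Ioi (0:ℝ), ∫⁻ θ in Ioo (-π) π,
      ENNReal.ofReal ρ * (an0 a b).indicator G (circleMap 0 ρ θ) =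
      (Ioo a b).indicator (fun ρ => ∫⁻ θ in Ioo (-π) π,
        ENNReal.ofReal ρ * G (circleMap 0 ρ θ)) ρ := by
    intro ρ hρ
    have hd : ∀ θ, ‖circleMap 0 ρ θ‖ = ρ := by
      intro θ
      rw [norm_circleMap_zero, abs_of_pos hρ]
    by_cases hρr : ρ ∈ Ioo a b
    · rw [indicator_of_mem hρr]
      congr 1
      ext θ
      rw [indicator_of_mem]
      change a < ‖circleMap 0 ρ θ‖ ∧ ‖circleMap 0 ρ θ‖ < b
      rw [hd θ]
      exact hρr
    · rw [indicator_of_notMem hρr]
      have : ∀ θ, (an0 a b).indicator G (circleMap 0 ρ θ) = 0 := by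
        intro θ
        rw [indicator_of_notMem]
        intro hmem
        change a < ‖circleMap 0 ρ θ‖ ∧ ‖circleMap 0 ρ θ‖ < b at hmem
        rw [hd θ] at hmem
        exact hρr hmem
      simp only [this, mul_zero, lintegral_zero]
  rw [setLIntegral_congr_fun measurableSet_Ioi h3, lintegral_indicator measurableSet_Ioo,
    Measure.restrict_restrict measurableSet_Ioo]
  congr 2
  ext ρ
  simp only [mem_inter_iff, mem_Ioo, mem_Ioi]
  constructor
  · intro h
    exact ⟨h, ha.trans h.1⟩
  · intro h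
    exact h.1

/-- the energy of an annulus is at least its area -/
lemma annulus_lb {U : Set ℂ} {f : ℂ → ℂ} {R : ℝ} (hR : 0 < R) (h : NU U f)
    (hU : (closedBall (0:ℂ) R)ᶜ ⊆ U) {a b : ℝ} (ha : R ≤ a) (hab : a ≤ b) :
    ENNReal.ofReal (π * (b ^ 2 - a ^ 2)) ≤ ∫⁻ w in an0 a b, ENNReal.ofReal (‖deriv f w‖ ^ 2) := by
  have ho : IsOpen (closedBall (0:ℂ) R)ᶜ := isClosed_closedBall.isOpen_compl
  have h' := (h.mono hU).diff
  have hc : ContinuousOn (deriv f) (closedBall (0:ℂ) R)ᶜ := (h'.deriv ho).continuousOn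
  have ha0 : 0 < a := hR.trans_le ha
  rw [← polar_an0 ha0 (G := fun w => ENNReal.ofReal (‖deriv f w‖ ^ 2))
    (ENNReal.measurable_ofReal.comp ((measurable_deriv f).norm.pow_const 2))]
  have hcirc : ∀ ρ ∈ Ioo a b, ENNReal.ofReal (2 * π * ρ) ≤
      ∫⁻ θ in Ioo (-π) π, ENNReal.ofReal ρ * ENNReal.ofReal (‖deriv f (circleMap 0 ρ θ)‖ ^ 2) := by
    intro ρ hρ
    have hρR : R < ρ := ha.trans_lt hρ.1
    have hρ0 : 0 < ρ := hR.trans hρR
    have hmem : ∀ θ, circleMap 0 ρ θ ∈ (closedBall (0:ℂ) R)ᶜ := by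
      intro θ
      rw [mem_compl_iff, mem_closedBall, dist_zero_right, norm_circleMap_zero, abs_of_pos hρ0,
        not_le]
      exact hρR
    have hcθ : Continuous fun θ => deriv f (circleMap 0 ρ θ) :=
      hc.comp_continuous (continuous_circleMap 0 ρ) hmem
    have hint : ∀ {g : ℝ → ℝ}, Continuous g → IntegrableOn g (Ioo (-π) π) := fun hg =>
      (hg.integrableOn_Icc (a := -π) (b := π)).mono_set Ioo_subset_Icc_self
    have hmean := circle_mean hR h hU hρR
    have hintc : IntegrableOn (fun θ => deriv f (circleMap 0 ρ θ) - 1) (Ioo (-π) π) :=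
      ((hcθ.sub continuous_const).integrableOn_Icc (a := -π) (b := π)).mono_set Ioo_subset_Icc_self
    have hre : ∫ θ in Ioo (-π) π, (deriv f (circleMap 0 ρ θ) - 1).re = 0 := by
      have h1 := integral_re hintc
      simp only [RCLike.re_eq_complex_re] at h1
      rw [h1, hmean]
      simp
    have hle : 2 * π ≤ ∫ θ in Ioo (-π) π, ‖deriv f (circleMap 0 ρ θ)‖ ^ 2 := by
      have h2 : ∫ θ in Ioo (-π) π, (1 + 2 * (deriv f (circleMap 0 ρ θ) - 1).re) = 2 * π := by
        rw [integral_add (hint continuous_const) ((hint (by fun_prop)).const_mul 2),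
          integral_const_mul, hre]
        simp
        rw [max_eq_left (by linarith [Real.pi_pos])]
        ring
      rw [← h2]
      refine setIntegral_mono_on (hint (by fun_prop)) (hint (by fun_prop)) measurableSet_Ioo
        fun θ _ => ?_
      set w := deriv f (circleMap 0 ρ θ)
      have h3 : ‖w‖ ^ 2 = w.re ^ 2 + w.im ^ 2 := by
        rw [← Complex.normSq_eq_norm_sq, Complex.normSq_apply]; ring
      rw [h3, Complex.sub_re, Complex.one_re]
      nlinarith [sq_nonneg (w.re - 1), sq_nonneg w.im]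
    calc ENNReal.ofReal (2 * π * ρ) = ENNReal.ofReal ρ * ENNReal.ofReal (2 * π) := by
          rw [← ENNReal.ofReal_mul hρ0.le]; ring_nf
      _ ≤ ENNReal.ofReal ρ * ENNReal.ofReal (∫ θ in Ioo (-π) π, ‖deriv f (circleMap 0 ρ θ)‖ ^ 2) := by
          gcongr
      _ = ENNReal.ofReal ρ * ∫⁻ θ in Ioo (-π) π, ENNReal.ofReal (‖deriv f (circleMap 0 ρ θ)‖ ^ 2) := by
          rw [ofReal_integral_eq_lintegral_ofReal (hint (by fun_prop))
            (Eventually.of_forall fun θ => by positivity)]
      _ = _ := by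
          rw [lintegral_const_mul]
          exact ENNReal.measurable_ofReal.comp ((hcθ.norm.pow 2).measurable)
  refine le_trans ?_ (setLIntegral_mono' measurableSet_Ioo hcirc)
  rw [← ofReal_integral_eq_lintegral_ofReal]
  · apply ENNReal.ofReal_le_ofReal
    rw [← integral_Ioc_eq_integral_Ioo, ← intervalIntegral.integral_of_le hab]
    rw [intervalIntegral.integral_const_mul, integral_id]
    apply le_of_eq
    ring
  · exact ((continuous_const.mul continuous_id).integrableOn_Icc (a := a) (b := b)).mono_set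
      Ioo_subset_Icc_self
  · refine (ae_restrict_iff' measurableSet_Ioo).2 (Eventually.of_forall fun ρ hρ => ?_)
    have : 0 < ρ := ha0.trans hρ.1
    simp only [Pi.zero_apply]
    positivity

/-- **area inequality**: the energy inside `ball 0 R` plus the area of disjoint disks off the image
is at most `π R²` -/
theorem area_disks {K : Set ℂ} (hK : IsCompact K) {g : ℂ → ℂ} (hg : NU Kᶜ g) {R : ℝ} (hR : 0 < R)
    (hKR : K ⊆ ball 0 R) {ι : Type*} (s : Finset ι) (c : ι → ℂ) (r : ι → ℝ)
    (hr : ∀ i ∈ s, 0 ≤ r i)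
    (hd : ∀ i ∈ s, ∀ j ∈ s, i ≠ j → Disjoint (closedBall (c i) (r i)) (closedBall (c j) (r j)))
    (hsub : ∀ i ∈ s, closedBall (c i) (r i) ⊆ (g '' Kᶜ)ᶜ) :
    (∫⁻ z in ball 0 R \ K, ENNReal.ofReal (‖deriv g z‖ ^ 2)) +
      ∑ i ∈ s, ENNReal.ofReal (π * r i ^ 2) ≤ ENNReal.ofReal (π * R ^ 2) := by
  have hKR' : K ⊆ closedBall 0 R := hKR.trans ball_subset_closedBall
  have hU : (closedBall (0:ℂ) R)ᶜ ⊆ Kᶜ := compl_subset_compl.2 hKR'
  have hKo : IsOpen Kᶜ := hK.isClosed.isOpen_compl
  -- the inequality for large `T`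
  have hT : ∀ T : ℝ, 10 * R ≤ T →
      ((∫⁻ z in ball 0 R \ K, ENNReal.ofReal (‖deriv g z‖ ^ 2)) +
        ∑ i ∈ s, ENNReal.ofReal (π * r i ^ 2)) + ENNReal.ofReal (π * (T ^ 2 - R ^ 2)) ≤
      ENNReal.ofReal (π * (T + 200 * R ^ 3 / T ^ 2) ^ 2) := by
    intro T hT
    have hTpos : 0 < T := by linarith
    have hRT : R ≤ T := by linarith
    refine le_trans ?_ (volume_omit_le hR hT hg hU)
    set A : Set ℂ := (ball 0 R \ K) ∪ an0 R T with hA
    have hA1 : MeasurableSet (ball (0:ℂ) R \ K) := measurableSet_ball.diff hK.measurableSet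
    have hA2 : MeasurableSet (an0 R T) := (isOpen_an0 R T).measurableSet
    have hAK : A ⊆ Kᶜ := by
      rintro z (⟨-, hz⟩ | hz)
      · exact hz
      · intro hzK
        have := hKR hzK
        rw [mem_ball_zero_iff] at this
        exact absurd hz.1 (not_lt.2 this.le)
    have hdisj : Disjoint (ball (0:ℂ) R \ K) (an0 R T) := by
      rw [disjoint_left]
      rintro z ⟨hz, -⟩ hz2
      rw [mem_ball_zero_iff] at hz
      exact absurd hz2.1 (not_lt.2 hz.le)
    have hAT : ∀ z ∈ A, ‖z‖ < T := by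
      rintro z (⟨hz, -⟩ | hz)
      · rw [mem_ball_zero_iff] at hz
        linarith
      · exact hz.2
    have e1 : (∫⁻ z in ball 0 R \ K, ENNReal.ofReal (‖deriv g z‖ ^ 2)) +
        ENNReal.ofReal (π * (T ^ 2 - R ^ 2)) ≤ volume (g '' A) := by
      rw [← area_image hKo hg.diff hg.inj (hA1.union hA2) hAK, lintegral_union hA2 hdisj]
      gcongr
      exact annulus_lb hR hg hU le_rfl hRT
    have e2 : ∑ i ∈ s, ENNReal.ofReal (π * r i ^ 2) = volume (⋃ i ∈ s, closedBall (c i) (r i)) := by
      rw [measure_biUnion_finset (fun i hi j hj hij => hd i hi j hj hij)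
        (fun i _ => measurableSet_closedBall)]
      refine Finset.sum_congr rfl fun i hi => ?_
      rw [Complex.volume_closedBall, ← ENNReal.ofReal_pow (hr i hi)]
      have hpi : (NNReal.pi : ENNReal) = ENNReal.ofReal Real.pi := by
        rw [ENNReal.ofReal, ← NNReal.coe_real_pi, Real.toNNReal_coe]
      rw [hpi, ← ENNReal.ofReal_mul (by positivity), mul_comm]
    have hdis2 : Disjoint (⋃ i ∈ s, closedBall (c i) (r i)) (g '' A) := by
      rw [disjoint_left]
      intro w hw hw2
      obtain ⟨i, hi, hwi⟩ := mem_iUnion₂.1 hw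
      exact hsub i hi hwi (image_mono hAK hw2)
    have hgA : MeasurableSet (g '' A) := by
      refine MeasurableSet.image_of_continuousOn_injOn (hA1.union hA2)
        (hg.diff.continuousOn.mono hAK) (hg.inj.mono hAK)
    calc ((∫⁻ z in ball 0 R \ K, ENNReal.ofReal (‖deriv g z‖ ^ 2)) +
        ∑ i ∈ s, ENNReal.ofReal (π * r i ^ 2)) + ENNReal.ofReal (π * (T ^ 2 - R ^ 2))
        = ((∫⁻ z in ball 0 R \ K, ENNReal.ofReal (‖deriv g z‖ ^ 2)) +
          ENNReal.ofReal (π * (T ^ 2 - R ^ 2))) + ∑ i ∈ s, ENNReal.ofReal (π * r i ^ 2) := by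
          ring
      _ ≤ volume (g '' A) + volume (⋃ i ∈ s, closedBall (c i) (r i)) := by
          rw [e2]
          gcongr
      _ = volume (g '' A ∪ ⋃ i ∈ s, closedBall (c i) (r i)) :=
          (measure_union' hdis2.symm hgA).symm
      _ ≤ volume (g '' (closedBall (0:ℂ) T)ᶜ)ᶜ := by
          refine measure_mono ?_
          rintro w (⟨z, hz, rfl⟩ | hw) ⟨z', hz', hzz⟩
          · have hz'K : z' ∈ Kᶜ := by
              intro h1
              rw [mem_compl_iff, mem_closedBall, dist_zero_right, not_le] at hz'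
              have := hKR h1
              rw [mem_ball_zero_iff] at this
              linarith
            have h2 := hg.inj hz'K (hAK hz) hzz
            rw [mem_compl_iff, mem_closedBall, dist_zero_right, not_le, h2] at hz'
            linarith [hAT z hz]
          · obtain ⟨i, hi, hwi⟩ := mem_iUnion₂.1 hw
            refine hsub i hi hwi ⟨z', ?_, hzz⟩
            intro h1
            rw [mem_compl_iff, mem_closedBall, dist_zero_right, not_le] at hz'
            have := hKR h1
            rw [mem_ball_zero_iff] at this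
            linarith
  -- the limit
  set X : ℝ≥0∞ := (∫⁻ z in ball 0 R \ K, ENNReal.ofReal (‖deriv g z‖ ^ 2)) +
    ∑ i ∈ s, ENNReal.ofReal (π * r i ^ 2) with hX
  have hXfin : X ≠ ∞ := by
    have h1 := (le_self_add).trans (hT (10 * R) le_rfl)
    exact ne_top_of_le_ne_top ENNReal.ofReal_ne_top h1
  have hXT : ∀ T : ℝ, 10 * R ≤ T →
      X.toReal ≤ π * (T + 200 * R ^ 3 / T ^ 2) ^ 2 - π * (T ^ 2 - R ^ 2) := by
    intro T hTT
    have h1 := hT T hTT
    have hTpos : 0 < T := by linarith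
    have h2 : 0 ≤ π * (T ^ 2 - R ^ 2) := by
      have : R ^ 2 ≤ T ^ 2 := by nlinarith
      have := Real.pi_pos
      exact mul_nonneg this.le (by linarith)
    rw [← ENNReal.ofReal_toReal hXfin, ← ENNReal.ofReal_add ENNReal.toReal_nonneg h2] at h1
    have h3 := (ENNReal.ofReal_le_ofReal_iff (by positivity)).1 h1
    linarith
  have hlim : Tendsto (fun T : ℝ => π * (T + 200 * R ^ 3 / T ^ 2) ^ 2 - π * (T ^ 2 - R ^ 2)) atTop
      (𝓝 (π * R ^ 2)) := by
    have h1 : ∀ᶠ T : ℝ in atTop, π * R ^ 2 + π * (400 * R ^ 3 / T + 40000 * R ^ 6 / T ^ 4) =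
        π * (T + 200 * R ^ 3 / T ^ 2) ^ 2 - π * (T ^ 2 - R ^ 2) := by
      filter_upwards [eventually_gt_atTop 0] with T hT0
      field_simp
      ring
    refine Tendsto.congr' h1 ?_
    have h2 : Tendsto (fun T : ℝ => 400 * R ^ 3 / T + 40000 * R ^ 6 / T ^ 4) atTop (𝓝 (0 + 0)) :=
      (Tendsto.div_atTop tendsto_const_nhds tendsto_id).add
        (Tendsto.div_atTop tendsto_const_nhds (tendsto_pow_atTop (by norm_num)))
    have h3 := (h2.const_mul π).const_add (π * R ^ 2)
    simpa using h3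
  have h5 : X.toReal ≤ π * R ^ 2 := ge_of_tendsto hlim ((eventually_ge_atTop _).mono hXT)
  rw [← ENNReal.ofReal_toReal hXfin]
  exact ENNReal.ofReal_le_ofReal h5

end Vale.Agent.P116.KB
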