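import Vale.Agent.P116.KB.End
import Vale.Agent.P116.KB.HDef
import Vale.Agent.P116.KB.AV2
import Vale.Agent.P116.Cl.H521.Av

/-!
Sums of the squares of the mean radii; the real and the imaginary part of the average map are
honest functions.
-/

open Set Filter Topology Metric Bornology MeasureTheory
open scoped ENNReal Real

namespace Vale.Agent.P116.KB

open H906 PBC Cl

/-! ### general lemmas -/

lemma sq_integral_le_es {Ω : Type*} [MeasurableSpace Ω] {P : Measure Ω} [IsProbabilityMeasure P]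
    {X : Ω → ℝ} (h1 : Integrable X P) (h2 : Integrable (fun ω => X ω ^ 2) P) :
    (∫ ω, X ω ∂P) ^ 2 ≤ ∫ ω, X ω ^ 2 ∂P := by
  set m := ∫ ω, X ω ∂P with hm
  have h3 : 0 ≤ ∫ ω, (X ω - m) ^ 2 ∂P := integral_nonneg fun ω => sq_nonneg _
  have h4 : ∀ ω, (X ω - m) ^ 2 = X ω ^ 2 - 2 * m * X ω + m ^ 2 := fun ω => by ring
  simp_rw [h4] at h3
  have h5 : ∫ ω, (X ω ^ 2 - 2 * m * X ω + m ^ 2) ∂P = ∫ ω, X ω ^ 2 ∂P - 2 * m * m + m ^ 2 := by
    have e1 : ∫ ω, (X ω ^ 2 - 2 * m * X ω + m ^ 2) ∂P =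
        ∫ ω, (X ω ^ 2 - 2 * m * X ω) ∂P + ∫ _, m ^ 2 ∂P :=
      integral_add (f := fun ω => X ω ^ 2 - 2 * m * X ω) (g := fun _ => m ^ 2)
        (h2.sub (h1.const_mul _)) (integrable_const _)
    have e2 : ∫ ω, (X ω ^ 2 - 2 * m * X ω) ∂P = ∫ ω, X ω ^ 2 ∂P - ∫ ω, 2 * m * X ω ∂P :=
      integral_sub (f := fun ω => X ω ^ 2) (g := fun ω => 2 * m * X ω) h2 (h1.const_mul _)
    rw [e1, e2, integral_const_mul, ← hm]
    simp
  rw [h5] at h3
  nlinarith

/-- the nodes at a component -/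
lemma iUnion_nd {K : Set ℂ} {x : ℂ} (hx : x ∈ K) (n : ℕ) :
    (⋃ y ∈ connectedComponentIn K x, nd K n y) = nd K n x := by
  have hsub : connectedComponentIn K x ⊆ nd K n x :=
    connectedComponentIn_mono _ (subset_lev n)
  apply Subset.antisymm
  · refine iUnion₂_subset fun y hy => ?_
    rw [nd_eq (hsub hy)]
  · exact subset_iUnion₂_of_subset x (mem_connectedComponentIn hx) Subset.rfl

lemma oscS_nonneg_es {K A : Set ℂ} {u : ℂ → ℝ} {B : ℝ} (hB : ∀ z ∈ A, z ∉ K → |u z| ≤ B) :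
    0 ≤ oscS K u A := by
  rw [oscS, sub_nonneg]
  rcases (A \ K).eq_empty_or_nonempty with h | h
  · rw [h, image_empty, Real.sSup_empty, Real.sInf_empty]
  · exact csInf_le_csSup (h.image u) ⟨-B, by
      rintro _ ⟨z, hz, rfl⟩
      exact (abs_le.1 (hB z hz.1 hz.2)).1⟩ ⟨B, by
      rintro _ ⟨z, hz, rfl⟩
      exact (abs_le.1 (hB z hz.1 hz.2)).2⟩

lemma oscS_le_es {K A : Set ℂ} {u : ℂ → ℝ} {a R : ℝ} (hR : 0 ≤ R)
    (hB : ∀ z ∈ A, z ∉ K → |u z - a| ≤ R) : oscS K u A ≤ 2 * R := by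
  rw [oscS]
  rcases (A \ K).eq_empty_or_nonempty with h | h
  · rw [h, image_empty, Real.sSup_empty, Real.sInf_empty]
    linarith
  · have h1 : sSup (u '' (A \ K)) ≤ a + R := csSup_le (h.image u) (by
      rintro _ ⟨z, hz, rfl⟩
      have := (abs_le.1 (hB z hz.1 hz.2)).2
      linarith)
    have h2 : a - R ≤ sInf (u '' (A \ K)) := le_csInf (h.image u) (by
      rintro _ ⟨z, hz, rfl⟩
      have := (abs_le.1 (hB z hz.1 hz.2)).1
      linarith)
    linarith

lemma oscC_nonneg_es {K : Set ℂ} {u : ℂ → ℝ} {B : ℝ} (hB : ∀ z ∈ lev K 0, z ∉ K → |u z| ≤ B)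
    (c : Set ℂ) : 0 ≤ oscC K u c := by
  refine Real.iInf_nonneg fun n => oscS_nonneg_es (B := B) fun z hz hzK => ?_
  obtain ⟨y, -, hy⟩ := mem_iUnion₂.1 hz
  exact hB z (lev_anti (Nat.zero_le n) (nd_subset n y hy)) hzK

lemma oscC_le_es {K : Set ℂ} {u : ℂ → ℝ} {B : ℝ} (hB : ∀ z ∈ lev K 0, z ∉ K → |u z| ≤ B) {x : ℂ}
    (hx : x ∈ K) {a R : ℝ} (hR : 0 ≤ R)
    (h : ∀ δ > 0, ∃ n, ∀ z ∈ nd K n x, z ∉ K → |u z - a| ≤ R + δ) :
    oscC K u (connectedComponentIn K x) ≤ 2 * R := by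
  refine le_of_forall_pos_le_add fun ε hε => ?_
  obtain ⟨n, hn⟩ := h (ε / 2) (by positivity)
  have hbd : BddBelow (range fun n : ℕ => oscS K u (⋃ y ∈ connectedComponentIn K x, nd K n y)) := by
    refine ⟨0, ?_⟩
    rintro _ ⟨m, rfl⟩
    refine oscS_nonneg_es (B := B) fun z hz hzK => ?_
    obtain ⟨y, -, hy⟩ := mem_iUnion₂.1 hz
    exact hB z (lev_anti (Nat.zero_le m) (nd_subset m y hy)) hzK
  have h1 : oscC K u (connectedComponentIn K x) ≤
      oscS K u (⋃ y ∈ connectedComponentIn K x, nd K n y) := ciInf_le hbd n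
  rw [iUnion_nd hx n] at h1
  have h2 := oscS_le_es (K := K) (A := nd K n x) (u := u) (a := a) (R := R + ε / 2) (by positivity) hn
  linarith

/-! ### the radii -/

variable {K : Set ℂ} {Ω : Type} [TopologicalSpace Ω] [MeasurableSpace Ω] {P : Measure Ω}
  {g : Ω → ℂ → ℂ} {a : ℂ → Ω → ℂ} {r : ℂ → Ω → ℝ}

/-- the sum of the mean areas -/
theorem sum_int_sq_le (hA : AvH K Ω P g) (hR : Rad K P g a r)
    (hd : ∀ x ∈ K, ∀ y ∈ K, connectedComponentIn K x ≠ connectedComponentIn K y → ∀ᵐ ω ∂P,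
      Disjoint (closedBall (a x ω) (r x ω)) (closedBall (a y ω) (r y ω))) {T : ℝ} (hT : 0 < T)
    (hKT : K ⊆ ball 0 T) (F : Finset ℂ) (hF : ∀ x ∈ F, x ∈ K)
    (hFd : ∀ x ∈ F, ∀ y ∈ F, x ≠ y → connectedComponentIn K x ≠ connectedComponentIn K y) :
    ∑ x ∈ F, ∫ ω, r x ω ^ 2 ∂P ≤ T ^ 2 := by
  have := hA.prob
  rw [← integral_finsetSum F fun x hx => hR.int2 x (hF x hx)]
  have h1 : ∀ᵐ ω ∂P, ∀ x ∈ F, G.DiskAt K (g ω) x (a x ω) (r x ω) :=
    (Finset.eventually_all F).2 fun x hx => hR.disk x (hF x hx)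
  have h2 : ∀ᵐ ω ∂P, ∀ x ∈ F, ∀ y ∈ F, x ≠ y →
      Disjoint (closedBall (a x ω) (r x ω)) (closedBall (a y ω) (r y ω)) := by
    refine (Finset.eventually_all F).2 fun x hx => (Finset.eventually_all F).2 fun y hy => ?_
    by_cases hxy : x = y
    · exact Eventually.of_forall fun ω h => absurd hxy h
    · filter_upwards [hd x (hF x hx) y (hF y hy) (hFd x hx y hy hxy)] with ω hω _ using hω
  have h3 : ∀ᵐ ω ∂P, ∑ x ∈ F, r x ω ^ 2 ≤ T ^ 2 := by
    filter_upwards [h1, h2] with ω hω1 hω2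
    have h4 := area_disks hA.Kc (hA.nu ω) hT hKT F (fun x => a x ω) (fun x => r x ω)
      (fun x hx => hR.nn x (hF x hx) ω) hω2 (fun x hx => (hω1 x hx).compl)
    have h5 := le_add_self.trans h4
    rw [← ENNReal.ofReal_sum_of_nonneg fun x _ => by positivity] at h5
    have h6 := (ENNReal.ofReal_le_ofReal_iff (by positivity)).1 h5
    rw [← Finset.mul_sum] at h6
    exact le_of_mul_le_mul_left h6 Real.pi_pos
  calc ∫ ω, ∑ x ∈ F, r x ω ^ 2 ∂P ≤ ∫ _, T ^ 2 ∂P :=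
        integral_mono_ae (integrable_finsetSum F fun x hx => hR.int2 x (hF x hx))
          (integrable_const _) h3
    _ = T ^ 2 := by simp

/-- a point of a component -/
noncomputable def rp (c : comps K) : ℂ := c.2.choose

lemma rp_mem (c : comps K) : rp c ∈ K := c.2.choose_spec.1

lemma rp_comp (c : comps K) : connectedComponentIn K (rp c) = (c : Set ℂ) := c.2.choose_spec.2

/-- **S1**: the mean radii are square summable -/
theorem summable_rad (hA : AvH K Ω P g) (hR : Rad K P g a r)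
    (hd : ∀ x ∈ K, ∀ y ∈ K, connectedComponentIn K x ≠ connectedComponentIn K y → ∀ᵐ ω ∂P,
      Disjoint (closedBall (a x ω) (r x ω)) (closedBall (a y ω) (r y ω))) :
    Summable fun c : comps K => (2 * ∫ ω, r (rp c) ω ∂P) ^ 2 := by
  classical
  have := hA.prob
  obtain ⟨T₀, hT₀⟩ := hA.Kc.isBounded.subset_ball 0
  set T : ℝ := max T₀ 1 with hTdef
  have hT : 0 < T := lt_max_of_lt_right one_pos
  have hKT : K ⊆ ball 0 T := hT₀.trans (ball_subset_ball (le_max_left _ _))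
  refine summable_of_sum_le (c := 4 * T ^ 2) (fun c => sq_nonneg _) fun s => ?_
  have hinj : ∀ c ∈ s, ∀ c' ∈ s, rp c = rp c' → c = c' := by
    intro c _ c' _ h
    apply Subtype.ext
    rw [← rp_comp c, ← rp_comp c', h]
  have h1 := sum_int_sq_le hA hR hd hT hKT (s.image rp) (by
    intro x hx
    obtain ⟨c, -, rfl⟩ := Finset.mem_image.1 hx
    exact rp_mem c) (by
    intro x hx y hy hxy h
    obtain ⟨c, -, rfl⟩ := Finset.mem_image.1 hx
    obtain ⟨c', -, rfl⟩ := Finset.mem_image.1 hy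
    apply hxy
    rw [rp_comp, rp_comp] at h
    rw [Subtype.ext h])
  rw [Finset.sum_image hinj] at h1
  calc ∑ c ∈ s, (2 * ∫ ω, r (rp c) ω ∂P) ^ 2 ≤ ∑ c ∈ s, 4 * ∫ ω, r (rp c) ω ^ 2 ∂P := by
        refine Finset.sum_le_sum fun c _ => ?_
        have := sq_integral_le_es (hR.int _ (rp_mem c)) (hR.int2 _ (rp_mem c))
        rw [mul_pow]
        linarith
    _ ≤ 4 * T ^ 2 := by
        rw [← Finset.mul_sum]
        linarith

/-- **S2** -/
theorem countable_rad (hA : AvH K Ω P g) (hR : Rad K P g a r)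
    (hd : ∀ x ∈ K, ∀ y ∈ K, connectedComponentIn K x ≠ connectedComponentIn K y → ∀ᵐ ω ∂P,
      Disjoint (closedBall (a x ω) (r x ω)) (closedBall (a y ω) (r y ω))) :
    {c : comps K | 0 < ∫ ω, r (rp c) ω ∂P}.Countable := by
  refine (summable_rad hA hR hd).countable_support.mono fun c hc => ?_
  rw [Function.mem_support]
  have : (0:ℝ) < ∫ ω, r (rp c) ω ∂P := hc
  positivity

/-! ### the average map is honest -/

lemma avg_bound (hA : AvH K Ω P g) : ∃ B, ∀ z ∈ lev K 0, z ∉ K → ‖avg P g z‖ ≤ B := by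
  have := hA.prob
  have := hA.cpt
  have := hA.borel
  obtain ⟨R, hR, hRK⟩ := lev_bdd hA.Kc 0
  refine ⟨5 * R, fun z hz hzK => ?_⟩
  have hz' := hRK hz
  rw [mem_closedBall, dist_zero_right] at hz'
  exact H521.av_bound hA.nu hR ((subset_lev 0).trans hRK) hzK hz'

/-- the energy of the average map is locally finite -/
theorem avg_energy (hA : AvH K Ω P g) {w : Set ℂ} (hw : IsBounded w) :
    ∫⁻ z in w \ K, ENNReal.ofReal (‖deriv (avg P g) z‖ ^ 2) < ⊤ := by
  have := hA.prob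
  have := hA.cpt
  have := hA.borel
  obtain ⟨T₀, hT₀⟩ := (hA.Kc.isBounded.union hw).subset_ball 0
  set T : ℝ := max T₀ 1 with hTdef
  have hT : 0 < T := lt_max_of_lt_right one_pos
  have hKT : K ∪ w ⊆ ball 0 T := hT₀.trans (ball_subset_ball (le_max_left _ _))
  have h1 := H521.av_var (P := P) hA.Kc hA.cont hA.nu (A := ball 0 T \ K) (fun z hz => hz.2)
    (measurableSet_ball.diff hA.Kc.measurableSet)
  calc ∫⁻ z in w \ K, ENNReal.ofReal (‖deriv (avg P g) z‖ ^ 2)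
      ≤ ∫⁻ z in ball 0 T \ K, ENNReal.ofReal (‖deriv (avg P g) z‖ ^ 2) :=
        lintegral_mono_set (sdiff_subset_sdiff_left (subset_union_right.trans hKT))
    _ ≤ ∫⁻ ω, ∫⁻ z in ball 0 T \ K, ENNReal.ofReal (‖deriv (g ω) z‖ ^ 2) ∂volume ∂P := by
        rw [← h1]
        exact le_self_add
    _ ≤ ∫⁻ _, ENNReal.ofReal (π * T ^ 2) ∂P := by
        refine lintegral_mono fun ω => ?_
        have h2 := area_disks hA.Kc (hA.nu ω) hT (subset_union_left.trans hKT) (∅ : Finset ℕ)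
          (fun _ => 0) (fun _ => 0) (by simp) (by simp) (by simp)
        rw [Finset.sum_empty, add_zero] at h2
        exact h2
    _ = ENNReal.ofReal (π * T ^ 2) := by simp
    _ < ⊤ := ENNReal.ofReal_lt_top

lemma uGr_of_diff {G : Set ℂ} (hG : IsOpen G) {f : ℂ → ℂ} (hf : DifferentiableOn ℂ f G)
    {x y : ℂ} (hxy : segment ℝ x y ⊆ G) {M : ℝ} (hM : ∀ z ∈ segment ℝ x y, ‖deriv f z‖ ≤ M) :
    ‖f x - f y‖ ≤ M * ‖x - y‖ :=
  Convex.norm_image_sub_le_of_norm_hasDerivWithin_le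
    (fun z hz => ((hf.differentiableAt (hG.mem_nhds (hxy hz))).hasDerivAt).hasDerivWithinAt)
    hM (convex_segment x y) (right_mem_segment ℝ x y) (left_mem_segment ℝ x y)

/-- **S3** for the real part -/
theorem oscC_re_le (hA : AvH K Ω P g) (hR : Rad K P g a r) {x : ℂ} (hx : x ∈ K) :
    oscC K (fun z => (avg P g z).re) (connectedComponentIn K x) ≤ 2 * ∫ ω, r x ω ∂P := by
  obtain ⟨B, hB⟩ := avg_bound hA
  refine oscC_le_es (B := B) (fun z hz hzK => (Complex.abs_re_le_norm _).trans (hB z hz hzK)) hx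
    (a := (∫ ω, a x ω ∂P).re) (integral_nonneg fun ω => hR.nn x hx ω) fun δ hδ => ?_
  obtain ⟨n, hn⟩ := hR.near x hx δ hδ
  refine ⟨n, fun z hz hzK => ?_⟩
  rw [← Complex.sub_re]
  exact (Complex.abs_re_le_norm _).trans (hn n le_rfl z hz hzK)

/-- **S3** for the imaginary part -/
theorem oscC_im_le (hA : AvH K Ω P g) (hR : Rad K P g a r) {x : ℂ} (hx : x ∈ K) :
    oscC K (fun z => (avg P g z).im) (connectedComponentIn K x) ≤ 2 * ∫ ω, r x ω ∂P := by
  obtain ⟨B, hB⟩ := avg_bound hA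
  refine oscC_le_es (B := B) (fun z hz hzK => (Complex.abs_im_le_norm _).trans (hB z hz hzK)) hx
    (a := (∫ ω, a x ω ∂P).im) (integral_nonneg fun ω => hR.nn x hx ω) fun δ hδ => ?_
  obtain ⟨n, hn⟩ := hR.near x hx δ hδ
  refine ⟨n, fun z hz hzK => ?_⟩
  rw [← Complex.sub_im]
  exact (Complex.abs_im_le_norm _).trans (hn n le_rfl z hz hzK)

lemma hon_aux (hA : AvH K Ω P g) (hR : Rad K P g a r)
    (hd : ∀ x ∈ K, ∀ y ∈ K, connectedComponentIn K x ≠ connectedComponentIn K y → ∀ᵐ ω ∂P,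
      Disjoint (closedBall (a x ω) (r x ω)) (closedBall (a y ω) (r y ω))) {w : Set ℂ}
    (hw : IsBounded w) {φ : ℂ → ℝ} (hφ : Continuous φ) (hφ1 : ∀ z, |φ z| ≤ ‖z‖)
    (hφ2 : ∀ z z', φ z - φ z' = φ (z - z'))
    (ho : ∀ x ∈ K, oscC K (fun z => φ (avg P g z)) (connectedComponentIn K x) ≤
      2 * ∫ ω, r x ω ∂P) :
    Hon K w (fun z => φ (avg P g z)) (fun z => ‖deriv (avg P g) z‖) := by
  have := hA.prob
  have := hA.cpt
  have := hA.borel
  have hKo : IsOpen Kᶜ := hA.Kc.isClosed.isOpen_compl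
  have hdiff : DifferentiableOn ℂ (avg P g) Kᶜ := H521.av_diff hA.Kc hA.cont hA.nu
  obtain ⟨B, hB⟩ := avg_bound hA
  have hB' : ∀ z ∈ lev K 0, z ∉ K → |φ (avg P g z)| ≤ B := fun z hz hzK =>
    (hφ1 _).trans (hB z hz hzK)
  refine ⟨hφ.comp_continuousOn hdiff.continuousOn, ⟨B, hB'⟩, (hdiff.deriv hKo).continuousOn.norm,
    fun z _ => norm_nonneg _, ?_, avg_energy hA hw, ?_⟩
  · intro x y hxy M hM
    rw [hφ2]
    exact (hφ1 _).trans (uGr_of_diff hKo hdiff hxy hM)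
  · classical
    refine (summable_rad hA hR hd).of_nonneg_of_le (fun c => ?_) fun c => ?_
    · split_ifs
      · exact sq_nonneg _
      · exact le_rfl
    · split_ifs
      · have h1 := ho (rp c) (rp_mem c)
        rw [rp_comp] at h1
        have h2 := oscC_nonneg_es (K := K) hB' (c : Set ℂ)
        gcongr
      · exact sq_nonneg _

/-- **S4**: the real part of the average map is honest -/
theorem hon_re (hA : AvH K Ω P g) (hR : Rad K P g a r)
    (hd : ∀ x ∈ K, ∀ y ∈ K, connectedComponentIn K x ≠ connectedComponentIn K y → ∀ᵐ ω ∂P,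
      Disjoint (closedBall (a x ω) (r x ω)) (closedBall (a y ω) (r y ω))) {w : Set ℂ}
    (hw : IsBounded w) :
    Hon K w (fun z => (avg P g z).re) (fun z => ‖deriv (avg P g) z‖) :=
  hon_aux hA hR hd hw (φ := Complex.re) Complex.continuous_re Complex.abs_re_le_norm
    (fun _ _ => (Complex.sub_re _ _).symm) fun _ hx => oscC_re_le hA hR hx

/-- **S4**: the imaginary part of the average map is honest -/
theorem hon_im (hA : AvH K Ω P g) (hR : Rad K P g a r)
    (hd : ∀ x ∈ K, ∀ y ∈ K, connectedComponentIn K x ≠ connectedComponentIn K y → ∀ᵐ ω ∂P,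
      Disjoint (closedBall (a x ω) (r x ω)) (closedBall (a y ω) (r y ω))) {w : Set ℂ}
    (hw : IsBounded w) :
    Hon K w (fun z => (avg P g z).im) (fun z => ‖deriv (avg P g) z‖) :=
  hon_aux hA hR hd hw (φ := Complex.im) Complex.continuous_im Complex.abs_im_le_norm
    (fun _ _ => (Complex.sub_im _ _).symm) fun _ hx => oscC_im_le hA hR hx

end Vale.Agent.P116.KB
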