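import Vale.Agent.P116.KB.End
import Vale.Agent.P116.Cl.H521.Av

/-!
# VAR: averages of areas and energies

Fubini for the smoothed areas and the energies, and the pointwise variance identities.
-/

open Set Filter Topology Metric Bornology MeasureTheory
open scoped ComplexConjugate

namespace Vale.Agent.P116.KB

open H906 Cl FK

section line

variable {K : Set ℂ} {Ω : Type} [TopologicalSpace Ω] {R₀ : ℝ} {χ : ℂ → ℝ}

lemma cf_db_zero (hχ : Cf R₀ χ) {z : ℂ} (hz : ‖z‖ < R₀ + 1) :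
    db (fun z => ((χ z : ℝ) : ℂ)) z = 0 := by
  have h1 : (fun z => ((χ z : ℝ) : ℂ)) =ᶠ[𝓝 z] fun _ => (1:ℂ) := by
    filter_upwards [isOpen_ball.mem_nhds (mem_ball_zero_iff.2 hz)] with y hy
    rw [hχ.one y (ball_subset_closedBall hy)]
    simp
  rw [db_congr h1]
  exact db_eq_zero (differentiableAt_const _)

lemma cf_db_off {z : ℂ} (hz : z ∉ tsupport χ) : db (fun z => ((χ z : ℝ) : ℂ)) z = 0 := by
  have h1 : (fun z => ((χ z : ℝ) : ℂ)) =ᶠ[𝓝 z] fun _ => (0:ℂ) := by
    filter_upwards [(isClosed_tsupport χ).isOpen_compl.mem_nhds hz] with y hy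
    rw [image_eq_zero_of_notMem_tsupport hy]
    simp
  rw [db_congr h1]
  exact db_eq_zero (differentiableAt_const _)

lemma cf_db_cont (hχ : Cf R₀ χ) : Continuous (db (fun z => ((χ z : ℝ) : ℂ))) := by
  have h1 : Continuous (fderiv ℝ (fun z => ((χ z : ℝ) : ℂ))) :=
    hχ.smooth.continuous_fderiv (by norm_num)
  unfold db
  fun_prop

lemma notMem_of_le (hKR : K ⊆ closedBall 0 R₀) {z : ℂ} (hz : R₀ + 1 ≤ ‖z‖) : z ∉ K := by
  intro h
  have := hKR h
  rw [mem_closedBall, dist_zero_right] at this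
  linarith

/-- the line integrand is continuous -/
lemma cont_line (hK : IsCompact K) (hKR : K ⊆ closedBall 0 R₀) (hχ : Cf R₀ χ) {q : Ω × ℂ → ℂ}
    (hq : ContinuousOn q (univ ×ˢ Kᶜ)) :
    Continuous fun p : Ω × ℂ => db (fun z => ((χ z : ℝ) : ℂ)) p.2 * q p := by
  rw [continuous_iff_continuousAt]
  rintro ⟨ω, z⟩
  by_cases hz : ‖z‖ < R₀ + 1
  · have h1 : (fun p : Ω × ℂ => db (fun z => ((χ z : ℝ) : ℂ)) p.2 * q p) =ᶠ[𝓝 (ω, z)]
        fun _ => (0:ℂ) := by
      have h2 : ∀ᶠ p : Ω × ℂ in 𝓝 (ω, z), ‖p.2‖ < R₀ + 1 :=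
        (continuous_snd.norm.continuousAt (x := (ω, z))).eventually (gt_mem_nhds hz)
      filter_upwards [h2] with p hp
      rw [cf_db_zero hχ hp, zero_mul]
    exact continuousAt_const.congr h1.symm
  · rw [not_lt] at hz
    have hzK : z ∈ Kᶜ := notMem_of_le hKR hz
    have h1 : ContinuousAt q (ω, z) :=
      hq.continuousAt ((isOpen_univ.prod hK.isClosed.isOpen_compl).mem_nhds ⟨mem_univ _, hzK⟩)
    exact ((cf_db_cont hχ).comp continuous_snd).continuousAt.mul h1

variable [MeasurableSpace Ω] {P : Measure Ω}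

lemma int_line [CompactSpace Ω] [BorelSpace Ω] [IsFiniteMeasure P]
    (hK : IsCompact K) (hKR : K ⊆ closedBall 0 R₀) (hχ : Cf R₀ χ) {q : Ω × ℂ → ℂ}
    (hq : ContinuousOn q (univ ×ˢ Kᶜ)) :
    Integrable (fun p : Ω × ℂ => db (fun z => ((χ z : ℝ) : ℂ)) p.2 * q p) (P.prod volume) := by
  have h1 := cont_line hK hKR hχ hq
  obtain ⟨M, hM⟩ := ((isCompact_univ (X := Ω)).prod hχ.supp.isCompact).exists_bound_of_continuousOn
    h1.continuousOn
  have h2 : ∀ p : Ω × ℂ, p ∉ (univ : Set Ω) ×ˢ tsupport χ →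
      db (fun z => ((χ z : ℝ) : ℂ)) p.2 * q p = 0 := by
    intro p hp
    have h3 : p.2 ∉ tsupport χ := fun h => hp ⟨mem_univ _, h⟩
    rw [cf_db_off h3, zero_mul]
  have hm : MeasurableSet ((univ : Set Ω) ×ˢ tsupport χ) :=
    MeasurableSet.univ.prod (isClosed_tsupport χ).measurableSet
  rw [← integrableOn_iff_integrable_of_support_subset
    (s := (univ : Set Ω) ×ˢ tsupport χ) (fun p hp => by
      by_contra hcon
      exact hp (h2 p hcon))]
  have hfin : (P.prod volume) ((univ : Set Ω) ×ˢ tsupport χ) < ⊤ := by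
    rw [Measure.prod_prod]
    exact ENNReal.mul_lt_top (measure_lt_top P _) hχ.supp.isCompact.measure_lt_top
  refine ⟨h1.aestronglyMeasurable, ?_⟩
  refine HasFiniteIntegral.restrict_of_bounded (C := M) hfin ?_
  exact (ae_restrict_iff' hm).2 (Eventually.of_forall fun p hp => hM p hp)

end line

section

variable {K : Set ℂ} {Ω : Type} [TopologicalSpace Ω] [MeasurableSpace Ω] {P : Measure Ω}
  {g : Ω → ℂ → ℂ} {R₀ : ℝ} {χ : ℂ → ℝ}

omit [TopologicalSpace Ω] in
lemma avg_eq : avg P g = H521.av P g := rfl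

/-- the averages of the smoothed areas -/
theorem ar_part (hd : Cl.E0d) (h : AvH K Ω P g) (hR : 0 < R₀) (hKR : K ⊆ closedBall 0 R₀)
    (hχ : Cf R₀ χ) : Integrable (fun ω => ar χ (g ω) (g ω)) P ∧
      ∫ ω, ar χ (g ω) (g ω) ∂P ≤ ar χ (avg P g) (avg P g) := by
  have := h.cpt
  have := h.borel
  have := h.prob
  have hK := h.Kc
  have hKo : IsOpen Kᶜ := hK.isClosed.isOpen_compl
  have hcd := H521.cont_deriv hK h.cont h.nu
  have hF : DifferentiableOn ℂ (avg P g) Kᶜ := H521.av_diff hK h.cont h.nu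
  have hFt : Tendsto (fun z => avg P g z - z) (cobounded ℂ) (𝓝 0) :=
    H521.av_tendsto hK h.cont h.nu
  have hFd : ∀ z ∉ K, deriv (avg P g) z = ∫ ω, deriv (g ω) z ∂P := fun z hz =>
    H521.av_deriv hK h.cont h.nu hz
  set F := avg P g with hFdef
  set b : ℂ → ℂ := db (fun z => ((χ z : ℝ) : ℂ)) with hb
  have hFc : ContinuousOn (fun p : Ω × ℂ => F p.2) (univ ×ˢ Kᶜ) :=
    hF.continuousOn.comp continuousOn_snd fun p hp => hp.2
  have hFdc : ContinuousOn (fun p : Ω × ℂ => deriv F p.2) (univ ×ˢ Kᶜ) :=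
    (hF.deriv hKo).continuousOn.comp continuousOn_snd fun p hp => hp.2
  have hq1 : ContinuousOn (fun p : Ω × ℂ => conj (g p.1 p.2) * deriv (g p.1) p.2)
      (univ ×ˢ Kᶜ) := (Complex.continuous_conj.comp_continuousOn h.cont).mul hcd
  have hq2 : ContinuousOn (fun p : Ω × ℂ => conj (g p.1 p.2 - F p.2) *
      (deriv (g p.1) p.2 - deriv F p.2)) (univ ×ˢ Kᶜ) :=
    (Complex.continuous_conj.comp_continuousOn (h.cont.sub hFc)).mul (hcd.sub hFdc)
  have hq3 : ContinuousOn (fun p : Ω × ℂ => conj (F p.2) * deriv F p.2) (univ ×ˢ Kᶜ) :=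
    (Complex.continuous_conj.comp_continuousOn hFc).mul hFdc
  have hi1 := int_line (P := P) hK hKR hχ hq1
  have hi2 := int_line (P := P) hK hKR hχ hq2
  have hi3 := int_line (P := P) hK hKR hχ hq3
  have hI1 : Integrable (fun ω => ∫ z, b z * (conj (g ω z) * deriv (g ω) z)) P :=
    hi1.integral_prod_left
  have hI2 : Integrable (fun ω => ∫ z, b z * (conj (g ω z - F z) *
      (deriv (g ω) z - deriv F z))) P := hi2.integral_prod_left
  -- the difference
  have hd2 : ∀ ω, ar χ (fun z => g ω z - F z) (fun z => g ω z - F z) =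
      -(1 / 2) * (∫ z, b z * (conj (g ω z - F z) * (deriv (g ω) z - deriv F z))).re := by
    intro ω
    unfold ar
    congr 2
    refine integral_congr_ae (Eventually.of_forall fun z => ?_)
    change b z * (conj (g ω z - F z) * deriv (fun z => g ω z - F z) z) =
      b z * (conj (g ω z - F z) * (deriv (g ω) z - deriv F z))
    by_cases hz : ‖z‖ < R₀ + 1
    · rw [hb, cf_db_zero hχ hz, zero_mul, zero_mul]
    · rw [not_lt] at hz
      have hzK : z ∈ Kᶜ := notMem_of_le hKR hz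
      rw [deriv_fun_sub ((h.nu ω).diff.differentiableAt (hKo.mem_nhds hzK))
        (hF.differentiableAt (hKo.mem_nhds hzK))]
  have hle : ∀ ω, -(1 / 2) * (∫ z, b z * (conj (g ω z - F z) *
      (deriv (g ω) z - deriv F z))).re ≤ 0 := by
    intro ω
    rw [← hd2 ω]
    have hsub : {z : ℂ | R₀ < ‖z‖} ⊆ Kᶜ := by
      intro z hz hzK
      have hz' : R₀ < ‖z‖ := hz
      have := hKR hzK
      rw [mem_closedBall, dist_zero_right] at this
      linarith
    have hdd : DifferentiableOn ℂ (fun z => g ω z - F z) Kᶜ := (h.nu ω).diff.sub hF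
    refine hd hR (hdd.mono hsub) ?_ hχ
    have h7 := (h.nu ω).norm.sub hFt
    rw [sub_zero] at h7
    refine h7.congr fun z => ?_
    ring
  -- Fubini
  have hpt : ∀ z, ∫ ω, b z * (conj (g ω z - F z) * (deriv (g ω) z - deriv F z)) ∂P =
      (∫ ω, b z * (conj (g ω z) * deriv (g ω) z) ∂P) - b z * (conj (F z) * deriv F z) := by
    intro z
    by_cases hz : ‖z‖ < R₀ + 1
    · rw [hb, cf_db_zero hχ hz]
      simp
    rw [not_lt] at hz
    have hzK : z ∉ K := notMem_of_le hKR hz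
    have c1 : Continuous fun ω => g ω z := H521.cont_at h.cont hzK
    have c2 : Continuous fun ω => deriv (g ω) z := H521.cont_at (g := fun ω => deriv (g ω)) hcd hzK
    have i1 : Integrable (fun ω => conj (g ω z) * deriv (g ω) z) P :=
      H521.int_of_cont ((Complex.continuous_conj.comp c1).mul c2)
    have i2 : Integrable (fun ω => conj (g ω z) * deriv F z) P :=
      H521.int_of_cont ((Complex.continuous_conj.comp c1).mul continuous_const)
    have i3 : Integrable (fun ω => conj (F z) * deriv (g ω) z) P :=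
      H521.int_of_cont (continuous_const.mul c2)
    have e1 : ∀ ω, conj (g ω z - F z) * (deriv (g ω) z - deriv F z) =
        conj (g ω z) * deriv (g ω) z - conj (g ω z) * deriv F z - conj (F z) * deriv (g ω) z +
          conj (F z) * deriv F z := by
      intro ω
      rw [map_sub]
      ring
    rw [integral_const_mul, integral_const_mul, ← mul_sub]
    congr 1
    simp_rw [e1]
    have i4 : Integrable (fun ω => conj (g ω z) * deriv (g ω) z - conj (g ω z) * deriv F z) P :=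
      i1.sub i2
    have i5 : Integrable (fun ω => conj (g ω z) * deriv (g ω) z - conj (g ω z) * deriv F z -
      conj (F z) * deriv (g ω) z) P := i4.sub i3
    rw [integral_add i5 (integrable_const _), integral_sub i4 i3, integral_sub i1 i2,
      integral_const_mul, integral_mul_const, ← hFd z hzK]
    have e2 : ∫ ω, conj (g ω z) ∂P = conj (F z) := integral_conj
    rw [e2]
    simp only [integral_const, probReal_univ, one_smul]
    ring
  have hsw2 : ∫ ω, ∫ z, b z * (conj (g ω z - F z) * (deriv (g ω) z - deriv F z)) ∂volume ∂P =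
      ∫ z, ∫ ω, b z * (conj (g ω z - F z) * (deriv (g ω) z - deriv F z)) ∂P ∂volume :=
    integral_integral_swap (f := fun ω z => b z * (conj (g ω z - F z) *
      (deriv (g ω) z - deriv F z))) hi2
  have hsw1 : ∫ ω, ∫ z, b z * (conj (g ω z) * deriv (g ω) z) ∂volume ∂P =
      ∫ z, ∫ ω, b z * (conj (g ω z) * deriv (g ω) z) ∂P ∂volume :=
    integral_integral_swap (f := fun ω z => b z * (conj (g ω z) * deriv (g ω) z)) hi1
  have hJ1 : Integrable (fun z => ∫ ω, b z * (conj (g ω z) * deriv (g ω) z) ∂P) volume :=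
    hi1.integral_prod_right
  have hJ3 : Integrable (fun z => b z * (conj (F z) * deriv F z)) volume := by
    have h5 : Integrable (fun z => ∫ _ω, b z * (conj (F z) * deriv F z) ∂P) volume :=
      hi3.integral_prod_right
    simpa using h5
  have hkey : ∫ ω, ∫ z, b z * (conj (g ω z - F z) * (deriv (g ω) z - deriv F z)) ∂volume ∂P =
      (∫ ω, ∫ z, b z * (conj (g ω z) * deriv (g ω) z) ∂volume ∂P) -
        ∫ z, b z * (conj (F z) * deriv F z) := by
    rw [hsw2, hsw1]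
    simp_rw [hpt]
    rw [integral_sub hJ1 hJ3]
  have hre : ∀ {f : Ω → ℂ}, Integrable f P → ∫ ω, (f ω).re ∂P = (∫ ω, f ω ∂P).re :=
    fun hf => integral_re hf
  refine ⟨?_, ?_⟩
  · unfold ar
    exact (hI1.re).const_mul _
  · have h8 : ∫ ω, -(1 / 2) * (∫ z, b z * (conj (g ω z - F z) *
        (deriv (g ω) z - deriv F z))).re ∂P ≤ 0 := integral_nonpos fun ω => hle ω
    rw [integral_const_mul, hre hI2, hkey, Complex.sub_re] at h8
    unfold ar
    rw [integral_const_mul, hre hI1]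
    linarith

/-- the energies: integrability on the product -/
theorem en_int (hAR : Cl.AR) (h : AvH K Ω P g) (hR : 0 < R₀) (hKR : K ⊆ closedBall 0 R₀)
    (hχ : Cf R₀ χ) (hA : Integrable (fun ω => ar χ (g ω) (g ω)) P) :
    Integrable (fun p : Ω × ℂ => χ p.2 * ‖deriv (g p.1) p.2‖ ^ 2)
      (P.prod (volume.restrict Kᶜ)) := by
  have := h.cpt
  have := h.borel
  have := h.prob
  have hK := h.Kc
  have hKo : IsOpen Kᶜ := hK.isClosed.isOpen_compl
  have hcd := H521.cont_deriv hK h.cont h.nu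
  have hχc : Continuous χ := by
    have h1 := Complex.continuous_re.comp hχ.smooth.continuous
    simpa [Function.comp_def] using h1
  have hf : ContinuousOn (fun p : Ω × ℂ => χ p.2 * ‖deriv (g p.1) p.2‖ ^ 2) (univ ×ˢ Kᶜ) :=
    (hχc.comp continuous_snd).continuousOn.mul (hcd.norm.pow 2)
  have hms : MeasurableSet ((univ : Set Ω) ×ˢ (Kᶜ : Set ℂ)) :=
    MeasurableSet.univ.prod hKo.measurableSet
  have hm : AEStronglyMeasurable (fun p : Ω × ℂ => χ p.2 * ‖deriv (g p.1) p.2‖ ^ 2)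
      (P.prod (volume.restrict Kᶜ)) := by
    have h3 : P.prod (volume.restrict Kᶜ) = (P.prod volume).restrict (univ ×ˢ Kᶜ) := by
      rw [← Measure.prod_restrict, Measure.restrict_univ]
    rw [h3]
    exact hf.aestronglyMeasurable hms
  rw [integrable_prod_iff hm]
  have hw : ∀ ω, IntegrableOn (fun z => χ z * ‖deriv (g ω) z‖ ^ 2) Kᶜ ∧
      enr Kᶜ χ (fun z => ‖deriv (g ω) z‖) ≤ ar χ (g ω) (g ω) := by
    intro ω
    obtain ⟨h1, h2⟩ := hAR hK (h.nu ω) MeasurableSet.empty (disjoint_bot_left) hR hKR hχ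
    refine ⟨h1, ?_⟩
    simpa using h2
  refine ⟨Eventually.of_forall fun ω => (hw ω).1, ?_⟩
  refine hA.mono' hm.norm.integral_prod_right' (Eventually.of_forall fun ω => ?_)
  have e1 : ∀ z, ‖χ z * ‖deriv (g ω) z‖ ^ 2‖ = χ z * ‖deriv (g ω) z‖ ^ 2 := fun z =>
    Real.norm_of_nonneg (mul_nonneg (hχ.nn z) (by positivity))
  simp only [e1]
  rw [Real.norm_of_nonneg (integral_nonneg fun z => mul_nonneg (hχ.nn z) (by positivity))]
  exact (hw ω).2

theorem en_part (h : AvH K Ω P g) (hχ : Cf R₀ χ)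
    (hw : ∀ ω, IntegrableOn (fun z => χ z * ‖deriv (g ω) z‖ ^ 2) Kᶜ)
    (hi1 : Integrable (fun p : Ω × ℂ => χ p.2 * ‖deriv (g p.1) p.2‖ ^ 2)
      (P.prod (volume.restrict Kᶜ))) :
    IntegrableOn (fun z => χ z * ‖deriv (avg P g) z‖ ^ 2) Kᶜ ∧
    Integrable (fun ω => enr Kᶜ χ (fun z => ‖deriv (g ω) z‖)) P ∧
    Integrable (fun ω => enr Kᶜ χ (fun z => ‖deriv (g ω) z - deriv (avg P g) z‖)) P ∧
    (∀ ω, IntegrableOn (fun z => χ z * ‖deriv (g ω) z - deriv (avg P g) z‖ ^ 2) Kᶜ) ∧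
    enr Kᶜ χ (fun z => ‖deriv (avg P g) z‖) +
      ∫ ω, enr Kᶜ χ (fun z => ‖deriv (g ω) z - deriv (avg P g) z‖) ∂P =
      ∫ ω, enr Kᶜ χ (fun z => ‖deriv (g ω) z‖) ∂P := by
  have := h.cpt
  have := h.borel
  have := h.prob
  have hK := h.Kc
  have hKo : IsOpen Kᶜ := hK.isClosed.isOpen_compl
  have hcd := H521.cont_deriv hK h.cont h.nu
  have hF : DifferentiableOn ℂ (avg P g) Kᶜ := H521.av_diff hK h.cont h.nu
  have hFd : ∀ z ∉ K, deriv (avg P g) z = ∫ ω, deriv (g ω) z ∂P := fun z hz =>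
    H521.av_deriv hK h.cont h.nu hz
  set F := avg P g with hFdef
  have hχc : Continuous χ := by
    have h1 := Complex.continuous_re.comp hχ.smooth.continuous
    simpa [Function.comp_def] using h1
  have hFc : ContinuousOn (deriv F) Kᶜ := (hF.deriv hKo).continuousOn
  have hFdc : ContinuousOn (fun p : Ω × ℂ => deriv F p.2) (univ ×ˢ Kᶜ) :=
    hFc.comp continuousOn_snd fun p hp => hp.2
  have hvar : ∀ z ∉ K, ∫ ω, ‖deriv (g ω) z - deriv F z‖ ^ 2 ∂P =
      ∫ ω, ‖deriv (g ω) z‖ ^ 2 ∂P - ‖deriv F z‖ ^ 2 := by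
    intro z hz
    rw [hFd z hz]
    exact H521.var_real (H521.cont_at (g := fun ω => deriv (g ω)) hcd hz)
  have hle : ∀ z ∉ K, ‖deriv F z‖ ^ 2 ≤ ∫ ω, ‖deriv (g ω) z‖ ^ 2 ∂P := by
    intro z hz
    have h1 : 0 ≤ ∫ ω, ‖deriv (g ω) z - deriv F z‖ ^ 2 ∂P := integral_nonneg fun ω => by positivity
    rw [hvar z hz] at h1
    linarith
  have hJ1 : IntegrableOn (fun z => ∫ ω, χ z * ‖deriv (g ω) z‖ ^ 2 ∂P) Kᶜ :=
    hi1.integral_prod_right
  -- the average
  have hI3 : IntegrableOn (fun z => χ z * ‖deriv F z‖ ^ 2) Kᶜ := by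
    refine hJ1.mono' ((hχc.continuousOn.mul (hFc.norm.pow 2)).aestronglyMeasurable
      hKo.measurableSet) ((ae_restrict_iff' hKo.measurableSet).2
      (Eventually.of_forall fun z hz => ?_))
    rw [Real.norm_of_nonneg (mul_nonneg (hχ.nn z) (by positivity)), integral_const_mul]
    exact mul_le_mul_of_nonneg_left (hle z hz) (hχ.nn z)
  have hpar : ∀ x y : ℂ, ‖x - y‖ ^ 2 ≤ 2 * ‖x‖ ^ 2 + 2 * ‖y‖ ^ 2 := by
    intro x y
    have h1 := norm_sub_le x y
    have h2 : ‖x - y‖ ^ 2 ≤ (‖x‖ + ‖y‖) ^ 2 := by gcongr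
    nlinarith [sq_nonneg (‖x‖ - ‖y‖)]
  have hdiff : ∀ ω, IntegrableOn (fun z => χ z * ‖deriv (g ω) z - deriv F z‖ ^ 2) Kᶜ := by
    intro ω
    have hgc : ContinuousOn (deriv (g ω)) Kᶜ := ((h.nu ω).diff.deriv hKo).continuousOn
    have h1 : IntegrableOn (fun z => 2 * (χ z * ‖deriv (g ω) z‖ ^ 2) +
        2 * (χ z * ‖deriv F z‖ ^ 2)) Kᶜ := ((hw ω).const_mul 2).add (hI3.const_mul 2)
    refine h1.mono' ((hχc.continuousOn.mul ((hgc.sub hFc).norm.pow 2)).aestronglyMeasurable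
      hKo.measurableSet) (Eventually.of_forall fun z => ?_)
    rw [Real.norm_of_nonneg (mul_nonneg (hχ.nn z) (by positivity))]
    have := mul_le_mul_of_nonneg_left (hpar (deriv (g ω) z) (deriv F z)) (hχ.nn z)
    linarith
  -- the difference on the product
  have hi3 : Integrable (fun p : Ω × ℂ => χ p.2 * ‖deriv F p.2‖ ^ 2)
      (P.prod (volume.restrict Kᶜ)) :=
    Integrable.comp_snd (f := fun z => χ z * ‖deriv F z‖ ^ 2) hI3 P
  have hi2 : Integrable (fun p : Ω × ℂ => χ p.2 * ‖deriv (g p.1) p.2 - deriv F p.2‖ ^ 2)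
      (P.prod (volume.restrict Kᶜ)) := by
    have hms : MeasurableSet ((univ : Set Ω) ×ˢ (Kᶜ : Set ℂ)) :=
      MeasurableSet.univ.prod hKo.measurableSet
    have hf : ContinuousOn (fun p : Ω × ℂ => χ p.2 * ‖deriv (g p.1) p.2 - deriv F p.2‖ ^ 2)
        (univ ×ˢ Kᶜ) := (hχc.comp continuous_snd).continuousOn.mul ((hcd.sub hFdc).norm.pow 2)
    have hm : AEStronglyMeasurable (fun p : Ω × ℂ => χ p.2 *
        ‖deriv (g p.1) p.2 - deriv F p.2‖ ^ 2) (P.prod (volume.restrict Kᶜ)) := by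
      have h3 : P.prod (volume.restrict Kᶜ) = (P.prod volume).restrict (univ ×ˢ Kᶜ) := by
        rw [← Measure.prod_restrict, Measure.restrict_univ]
      rw [h3]
      exact hf.aestronglyMeasurable hms
    refine ((hi1.const_mul 2).add (hi3.const_mul 2)).mono' hm (Eventually.of_forall fun p => ?_)
    rw [Real.norm_of_nonneg (mul_nonneg (hχ.nn p.2) (by positivity))]
    have := mul_le_mul_of_nonneg_left (hpar (deriv (g p.1) p.2) (deriv F p.2)) (hχ.nn p.2)
    simp only [Pi.add_apply]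
    linarith
  refine ⟨hI3, hi1.integral_prod_left, hi2.integral_prod_left, hdiff, ?_⟩
  have hsw1 : ∫ ω, ∫ z in Kᶜ, χ z * ‖deriv (g ω) z‖ ^ 2 ∂volume ∂P =
      ∫ z in Kᶜ, ∫ ω, χ z * ‖deriv (g ω) z‖ ^ 2 ∂P ∂volume :=
    integral_integral_swap (f := fun ω z => χ z * ‖deriv (g ω) z‖ ^ 2) hi1
  have hsw2 : ∫ ω, ∫ z in Kᶜ, χ z * ‖deriv (g ω) z - deriv F z‖ ^ 2 ∂volume ∂P =
      ∫ z in Kᶜ, ∫ ω, χ z * ‖deriv (g ω) z - deriv F z‖ ^ 2 ∂P ∂volume :=
    integral_integral_swap (f := fun ω z => χ z * ‖deriv (g ω) z - deriv F z‖ ^ 2) hi2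
  have hpt : ∫ z in Kᶜ, ∫ ω, χ z * ‖deriv (g ω) z - deriv F z‖ ^ 2 ∂P ∂volume =
      ∫ z in Kᶜ, ((∫ ω, χ z * ‖deriv (g ω) z‖ ^ 2 ∂P) - χ z * ‖deriv F z‖ ^ 2) := by
    refine setIntegral_congr_fun hKo.measurableSet fun z hz => ?_
    rw [integral_const_mul, integral_const_mul, hvar z hz]
    ring
  unfold enr
  rw [hsw1, hsw2, hpt, integral_sub hJ1 hI3]
  ring

/-- **VAR** -/
theorem var (hd : Cl.E0d) (hAR : Cl.AR) : VAR := by
  intro K Ω _ _ P g h R₀ hR hKR χ hχ
  have := h.cpt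
  have := h.borel
  have := h.prob
  obtain ⟨h1, h2⟩ := ar_part hd h hR hKR hχ
  have hi1 := en_int hAR h hR hKR hχ h1
  obtain ⟨h3, h4, h5, h6, h7⟩ := en_part h hχ
    (fun ω => (hAR h.Kc (h.nu ω) MeasurableSet.empty disjoint_bot_left hR hKR hχ).1) hi1
  exact ⟨H521.av_diff h.Kc h.cont h.nu, H521.av_tendsto h.Kc h.cont h.nu, h3, h1, h2, h4, h5,
    h6, h7⟩

end

end Vale.Agent.P116.KB
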