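import Vale.Agent.P116.G.Out
import Vale.Agent.P116.Cl.E0Spec

/-!
# Full Koebe, the end game (E3): exact statements

`Rad` radii and centres of the random disks; `TM` test maps (output of Zorn, flattening and
adaptation); `LB` the smoothed area of the average from above (uses E0); `VAR` the variance
inequalities; `VAR0` the random map is constant.
-/

open Set Filter Topology Metric Bornology MeasureTheory

namespace Vale.Agent.P116.KB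

open H906 PBC Cl

/-- the average map -/
noncomputable def avg {Ω : Type} [MeasurableSpace Ω] (P : Measure Ω) (g : Ω → ℂ → ℂ) (z : ℂ) : ℂ :=
  ∫ ω, g ω z ∂P

/-- a continuous family of normalized univalent maps of `Kᶜ`, with a law -/
structure AvH (K : Set ℂ) (Ω : Type) [TopologicalSpace Ω] [MeasurableSpace Ω] (P : Measure Ω)
    (g : Ω → ℂ → ℂ) : Prop where
  Kc : IsCompact K
  full : Full K
  cpt : CompactSpace Ω
  metr : TopologicalSpace.MetrizableSpace Ω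
  borel : BorelSpace Ω
  prob : IsProbabilityMeasure P
  cont : ContinuousOn (fun p : Ω × ℂ => g p.1 p.2) (univ ×ˢ Kᶜ)
  nu : ∀ ω, NU Kᶜ (g ω)

/-- oscillation of a real function on `A \ K` -/
noncomputable def oscE (K : Set ℂ) (u : ℂ → ℝ) (A : Set ℂ) : ℝ := sSup (u '' (A \ K)) - sInf (u '' (A \ K))

/-- the random disk of `x` has centre `a x ω` and radius `r x ω` -/
structure Rad (K : Set ℂ) {Ω : Type} [MeasurableSpace Ω] (P : Measure Ω) (g : Ω → ℂ → ℂ)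
    (a : ℂ → Ω → ℂ) (r : ℂ → Ω → ℝ) : Prop where
  nn : ∀ x ∈ K, ∀ ω, 0 ≤ r x ω
  int : ∀ x ∈ K, Integrable (r x) P
  int2 : ∀ x ∈ K, Integrable (fun ω => r x ω ^ 2) P
  disk : ∀ x ∈ K, ∀ᵐ ω ∂P, G.DiskAt K (g ω) x (a x ω) (r x ω)
  near : ∀ x ∈ K, ∀ δ > 0, ∃ n, ∀ m ≥ n, ∀ z ∈ nd K m x, z ∉ K →
    ‖avg P g z - ∫ ω, a x ω ∂P‖ ≤ (∫ ω, r x ω ∂P) + δ

/-- TM: for each level `k` there is a test map `W` which is `f` off the nodes of level `k`, has the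
same gradient majorant, and there are adapted structures for `W` inside all the nodes of level `k`
at the cost `τ` of the ends -/
def TM (K : Set ℂ) (f : ℂ → ℂ) (τ : Set ℂ → ℝ) : Prop :=
  ∀ k : ℕ, ∃ W : ℂ → ℂ, ContinuousOn W Kᶜ ∧ (∀ z ∉ lev K k, W z = f z) ∧
    Maj Kᶜ (fun z => (W z).re) (fun z => ‖deriv f z‖) ∧
    Maj Kᶜ (fun z => (W z).im) (fun z => ‖deriv f z‖) ∧
    ∀ w ∈ nodes K k, ∀ δ > (0:ℝ), ∃ S : Set (Set ℂ), G.NS K w S ∧
      (∀ x ∈ K, x ∈ w → ∃ P ∈ S, x ∈ P) ∧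
      (∀ P ∈ S, BddAbove ((fun z => (W z).re) '' (P \ K)) ∧ BddBelow ((fun z => (W z).re) '' (P \ K)) ∧
        BddAbove ((fun z => (W z).im) '' (P \ K)) ∧ BddBelow ((fun z => (W z).im) '' (P \ K))) ∧
      ∑ᶠ P ∈ S, oscE K (fun z => (W z).re) P ^ 2 ≤
        ∑' c : comps K, (open Classical in if (c : Set ℂ) ⊆ w then τ c else 0) + δ ∧
      ∑ᶠ P ∈ S, oscE K (fun z => (W z).im) P ^ 2 ≤
        ∑' c : comps K, (open Classical in if (c : Set ℂ) ⊆ w then τ c else 0) + δ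

/-- LB: the smoothed area of the average from above (uses E0; structure: the nodes of level `k` of
the points of `F` and the adapted structures in the other nodes of level `k`, `k` large) -/
def LB : Prop := ∀ {K : Set ℂ} {Ω : Type} [TopologicalSpace Ω] [MeasurableSpace Ω]
    {P : Measure Ω} {g : Ω → ℂ → ℂ} (_ : AvH K Ω P g) {a : ℂ → Ω → ℂ} {r : ℂ → Ω → ℝ}
    (_ : Rad K P g a r) (_ : DifferentiableOn ℂ (avg P g) Kᶜ)
    (_ : Tendsto (fun z => avg P g z - z) (cobounded ℂ) (𝓝 0)) {τ : Set ℂ → ℝ}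
    (_ : ∀ c, 0 ≤ τ c) (_ : Summable fun c : comps K => τ c) (_ : TM K (avg P g) τ)
    {R₀ : ℝ} (_ : 0 < R₀) (_ : lev K 0 ⊆ closedBall 0 R₀) {χ : ℂ → ℝ} (_ : Cf R₀ χ)
    (_ : IntegrableOn (fun z => χ z * ‖deriv (avg P g) z‖ ^ 2) Kᶜ) (F : Finset ℂ)
    (_ : ∀ x ∈ F, x ∈ K)
    (_ : ∀ x ∈ F, ∀ y ∈ F, x ≠ y → connectedComponentIn K x ≠ connectedComponentIn K y)
    {η : ℝ} (_ : 0 < η)
    (_ : ∑' c : comps K, (open Classical in if ∃ x ∈ F, x ∈ (c : Set ℂ) then 0 else τ c) ≤ η),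
    ar χ (avg P g) (avg P g) ≤ enr Kᶜ χ (fun z => ‖deriv (avg P g) z‖) +
      Real.pi * ∑ x ∈ F, (∫ ω, r x ω ∂P) ^ 2 + 3 * η

/-- VAR: averages of areas and energies (uses E0d; pointwise variance identity, Tonelli) -/
def VAR : Prop := ∀ {K : Set ℂ} {Ω : Type} [TopologicalSpace Ω] [MeasurableSpace Ω]
    {P : Measure Ω} {g : Ω → ℂ → ℂ} (_ : AvH K Ω P g) {R₀ : ℝ} (_ : 0 < R₀)
    (_ : K ⊆ closedBall 0 R₀) {χ : ℂ → ℝ} (_ : Cf R₀ χ),
    DifferentiableOn ℂ (avg P g) Kᶜ ∧ Tendsto (fun z => avg P g z - z) (cobounded ℂ) (𝓝 0) ∧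
    IntegrableOn (fun z => χ z * ‖deriv (avg P g) z‖ ^ 2) Kᶜ ∧
    Integrable (fun ω => ar χ (g ω) (g ω)) P ∧
    ∫ ω, ar χ (g ω) (g ω) ∂P ≤ ar χ (avg P g) (avg P g) ∧
    Integrable (fun ω => enr Kᶜ χ (fun z => ‖deriv (g ω) z‖)) P ∧
    Integrable (fun ω => enr Kᶜ χ (fun z => ‖deriv (g ω) z - deriv (avg P g) z‖)) P ∧
    (∀ ω, IntegrableOn (fun z => χ z * ‖deriv (g ω) z - deriv (avg P g) z‖ ^ 2) Kᶜ) ∧
    enr Kᶜ χ (fun z => ‖deriv (avg P g) z‖) +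
      ∫ ω, enr Kᶜ χ (fun z => ‖deriv (g ω) z - deriv (avg P g) z‖) ∂P =
      ∫ ω, enr Kᶜ χ (fun z => ‖deriv (g ω) z‖) ∂P

/-- VAR0: the random map is constant (uses LB, VAR, AR) -/
def VAR0 : Prop := ∀ {K : Set ℂ} {Ω : Type} [TopologicalSpace Ω] [MeasurableSpace Ω]
    {P : Measure Ω} {g : Ω → ℂ → ℂ} (_ : AvH K Ω P g) {a : ℂ → Ω → ℂ} {r : ℂ → Ω → ℝ}
    (_ : Rad K P g a r)
    (_ : ∀ x ∈ K, ∀ y ∈ K, connectedComponentIn K x ≠ connectedComponentIn K y → ∀ᵐ ω ∂P,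
      Disjoint (closedBall (a x ω) (r x ω)) (closedBall (a y ω) (r y ω)))
    {τ : Set ℂ → ℝ} (_ : ∀ c, 0 ≤ τ c) (_ : Summable fun c : comps K => τ c)
    (_ : TM K (avg P g) τ), ∀ᵐ ω ∂P, EqOn (g ω) (avg P g) Kᶜ

end Vale.Agent.P116.KB
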