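import Vale.Agent.P116.KB.V6
import Vale.Agent.P116.KB.End
import Vale.Agent.P116.KF.FL2
import Vale.Agent.P116.KF.FlatHon
import Vale.Agent.P116.KF.Spec

/-!
# Test maps from flattened pairs and the adaptation statement

`FlatN K w f τ u v`: `u`, `v` are compatible flattenings in the node `w` of the real and imaginary
parts of `f`, with square oscillations at the ends at most `τ`. If all the nodes have such pairs
then [7] gives the test maps of the end game.
-/

open Set Filter Topology Metric Bornology MeasureTheory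

namespace Vale.Agent.P116.KB.T906

open H906 PBC Slow KF Cl

variable {K w : Set ℂ} {f : ℂ → ℂ} {τ : Set ℂ → ℝ} {u v : ℂ → ℝ}

/-- compatible flattenings of the real and imaginary parts of `f` in the node `w` -/
structure FlatN (K w : Set ℂ) (f : ℂ → ℂ) (τ : Set ℂ → ℝ) (u v : ℂ → ℝ) : Prop where
  honu : Hon K w u (fun z => ‖deriv f z‖)
  honv : Hon K w v (fun z => ‖deriv f z‖)
  monu : SMon K w u
  monv : SMon K w v
  offu : ∀ z, z ∉ w → u z = (f z).re
  offv : ∀ z, z ∉ w → v z = (f z).im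
  null : volume (Zs K w u v) = 0
  tauu : ∀ c ∈ comps K, c ⊆ w → oscC K u c ^ 2 ≤ τ c
  tauv : ∀ c ∈ comps K, c ⊆ w → oscC K v c ^ 2 ≤ τ c

lemma oscE_eq (K : Set ℂ) (u : ℂ → ℝ) (A : Set ℂ) : oscE K u A = oscS K u A := rfl

/-- off `K` only one node of level `k` is near a point -/
lemma near_node (hK : IsCompact K) (k : ℕ) (a : ℂ) :
    (∀ᶠ z in 𝓝 a, z ∉ lev K k) ∨ ∃ x ∈ K, ∀ᶠ z in 𝓝 a, z ∈ lev K k → z ∈ nd K k x := by
  by_cases h : a ∈ lev K k
  · right
    obtain ⟨x, hx, hax⟩ := exists_node hK h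
    refine ⟨x, hx, ?_⟩
    have hfin : (nodes K k \ {nd K k x}).Finite := (finite_nodes hK k).subset sdiff_subset
    have hc : IsClosed (⋃ Q ∈ nodes K k \ {nd K k x}, Q) := by
      refine hfin.isClosed_biUnion ?_
      rintro Q ⟨⟨y, hy, rfl⟩, -⟩
      exact (isCompact_nd hK k y).isClosed
    have hna : a ∉ ⋃ Q ∈ nodes K k \ {nd K k x}, Q := by
      intro h1
      obtain ⟨Q, ⟨⟨y, hy, rfl⟩, hne⟩, haQ⟩ := mem_iUnion₂.1 h1
      exact hne (by rw [mem_singleton_iff, ← nd_eq haQ, ← nd_eq hax])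
    filter_upwards [hc.isOpen_compl.mem_nhds hna] with z hz hzl
    rw [lev_eq hK] at hzl
    obtain ⟨Q, hQ, hzQ⟩ := mem_iUnion₂.1 hzl
    by_contra hcon
    exact hz (mem_iUnion₂.2 ⟨Q, ⟨hQ, fun h2 => hcon (by rw [mem_singleton_iff] at h2; rwa [← h2])⟩,
      hzQ⟩)
  · left
    exact (isClosed_lev k).isOpen_compl.mem_nhds h

/-- gluing: near each point off `K`, `u` agrees with one of the functions `U Q` or with `u₀` -/
lemma glue_near (hK : IsCompact K) (k : ℕ) {U : Set ℂ → ℂ → ℝ} {u₀ u : ℂ → ℝ}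
    (hU : ∀ x ∈ K, ∀ z, z ∉ nd K k x → U (nd K k x) z = u₀ z)
    (hu : ∀ z, z ∉ lev K k → u z = u₀ z) (hu' : ∀ x ∈ K, ∀ z ∈ nd K k x, u z = U (nd K k x) z)
    (a : ℂ) :
    (∀ᶠ z in 𝓝 a, u z = u₀ z) ∨ ∃ x ∈ K, ∀ᶠ z in 𝓝 a, u z = U (nd K k x) z := by
  rcases near_node hK k a with h | ⟨x, hx, h⟩
  · left
    filter_upwards [h] with z hz using hu z hz
  · right
    refine ⟨x, hx, ?_⟩
    filter_upwards [h] with z hz
    by_cases h1 : z ∈ lev K k
    · exact hu' x hx z (hz h1)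
    · rw [hu z h1, hU x hx z fun h2 => h1 (nd_subset k x h2)]

lemma glue_maj (hK : IsCompact K) (k : ℕ) {U : Set ℂ → ℂ → ℝ} {u₀ u ρ : ℂ → ℝ}
    (hU : ∀ x ∈ K, ∀ z, z ∉ nd K k x → U (nd K k x) z = u₀ z)
    (hu : ∀ z, z ∉ lev K k → u z = u₀ z) (hu' : ∀ x ∈ K, ∀ z ∈ nd K k x, u z = U (nd K k x) z)
    (h0 : Maj Kᶜ u₀ ρ) (h1 : ∀ x ∈ K, Maj Kᶜ (U (nd K k x)) ρ) : Maj Kᶜ u ρ where
  cont := h0.cont
  nn := h0.nn
  lip a ha ε hε := by
    have key : ∀ v : ℂ → ℝ, Maj Kᶜ v ρ → (∀ᶠ z in 𝓝 a, u z = v z) →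
        ∃ δ > 0, ∀ x ∈ ball a δ, ∀ y ∈ ball a δ, |u x - u y| ≤ (ρ a + ε) * ‖x - y‖ := by
      intro v hv h
      obtain ⟨δ, hδ, h1⟩ := hv.lip a ha ε hε
      obtain ⟨δ', hδ', h2⟩ := Metric.eventually_nhds_iff_ball.1 h
      refine ⟨min δ δ', lt_min hδ hδ', fun x hx y hy => ?_⟩
      rw [h2 x (ball_subset_ball (min_le_right _ _) hx),
        h2 y (ball_subset_ball (min_le_right _ _) hy)]
      exact h1 x (ball_subset_ball (min_le_left _ _) hx) y (ball_subset_ball (min_le_left _ _) hy)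
    rcases glue_near hK k hU hu hu' a with h | ⟨x, hx, h⟩
    · exact key _ h0 h
    · exact key _ (h1 x hx) h

/-- the square oscillations at the ends inside a node -/
lemma sum_oc_le (hτs : Summable fun c : comps K => τ c) (hτ : ∀ c, 0 ≤ τ c)
    (h : ∀ c ∈ comps K, c ⊆ w → oscC K u c ^ 2 ≤ τ c) :
    ∑' c : comps K, oc K w u c ≤
      ∑' c : comps K, (open Classical in if (c : Set ℂ) ⊆ w then τ c else 0) := by
  classical
  have h1 : Summable fun c : comps K => (if (c : Set ℂ) ⊆ w then τ c else 0) := by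
    refine Summable.of_nonneg_of_le (fun c => ?_) (fun c => ?_) hτs
    · split_ifs
      · exact hτ _
      · exact le_rfl
    · split_ifs
      · exact le_rfl
      · exact hτ _
  have h2 : ∀ c : comps K, oc K w u c ≤ (if (c : Set ℂ) ⊆ w then τ c else 0) := by
    intro c
    by_cases hc : (c : Set ℂ) ⊆ w
    · rw [oc_of_sub hc, if_pos hc]
      exact h c c.2 hc
    · rw [oc_of_not_sub hc, if_neg hc]
  exact (Summable.of_nonneg_of_le (fun c => oc_nonneg _ _ _ _) h2 h1).tsum_le_tsum h2 h1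

/-- **test maps** from compatible flattenings in all the nodes -/
theorem tm_of (hK : IsCompact K) (hf : Full K) (hfm : Maj Kᶜ (fun z => (f z).re) (fun z => ‖deriv f z‖))
    (hfm' : Maj Kᶜ (fun z => (f z).im) (fun z => ‖deriv f z‖))
    (hτ : ∀ c, 0 ≤ τ c) (hτs : Summable fun c : comps K => τ c)
    (hfl : ∀ n, ∀ x ∈ K, ∃ u v, FlatN K (nd K n x) f τ u v) (h7 : AD7) : TM K f τ := by
  classical
  intro k
  have h1 : ∀ Q : Set ℂ, ∃ u v : ℂ → ℝ, Q ∈ nodes K k → FlatN K Q f τ u v := by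
    intro Q
    by_cases hQ : Q ∈ nodes K k
    · obtain ⟨x, hx, rfl⟩ := hQ
      obtain ⟨u, v, h⟩ := hfl k x hx
      exact ⟨u, v, fun _ => h⟩
    · exact ⟨0, 0, fun h => absurd h hQ⟩
  choose U V hUV using h1
  have hUV' : ∀ x ∈ K, FlatN K (nd K k x) f τ (U (nd K k x)) (V (nd K k x)) :=
    fun x hx => hUV _ ⟨x, hx, rfl⟩
  set W : ℂ → ℂ := fun z => if z ∈ lev K k then
    ((U (nd K k z) z : ℝ) : ℂ) + ((V (nd K k z) z : ℝ) : ℂ) * Complex.I else f z with hW
  have hWf : ∀ z ∉ lev K k, W z = f z := fun z hz => by simp only [hW, if_neg hz]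
  have hWre : ∀ x ∈ K, ∀ z ∈ nd K k x, (W z).re = U (nd K k x) z := by
    intro x hx z hz
    simp only [hW, if_pos (nd_subset k x hz), nd_eq hz]
    simp
  have hWim : ∀ x ∈ K, ∀ z ∈ nd K k x, (W z).im = V (nd K k x) z := by
    intro x hx z hz
    simp only [hW, if_pos (nd_subset k x hz), nd_eq hz]
    simp
  have hmre : Maj Kᶜ (fun z => (W z).re) (fun z => ‖deriv f z‖) :=
    glue_maj hK k (U := U) (u₀ := fun z => (f z).re) (fun x hx z hz => (hUV' x hx).offu z hz)
      (fun z hz => by simp only [hWf z hz]) hWre hfm fun x hx =>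
        ugr_maj hK.isClosed.isOpen_compl (hUV' x hx).honu.maj (hUV' x hx).honu.rc
          (hUV' x hx).honu.rnn
  have hmim : Maj Kᶜ (fun z => (W z).im) (fun z => ‖deriv f z‖) :=
    glue_maj hK k (U := V) (u₀ := fun z => (f z).im) (fun x hx z hz => (hUV' x hx).offv z hz)
      (fun z hz => by simp only [hWf z hz]) hWim hfm' fun x hx =>
        ugr_maj hK.isClosed.isOpen_compl (hUV' x hx).honv.maj (hUV' x hx).honv.rc
          (hUV' x hx).honv.rnn
  refine ⟨W, ?_, hWf, hmre, hmim, ?_⟩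
  · have e : W = fun z => (((W z).re : ℝ) : ℂ) + (((W z).im : ℝ) : ℂ) * Complex.I := by
      funext z
      exact (Complex.re_add_im (W z)).symm
    rw [e]
    exact (Complex.continuous_ofReal.comp_continuousOn (maj_continuousOn hmre)).add
      ((Complex.continuous_ofReal.comp_continuousOn (maj_continuousOn hmim)).mul
        continuousOn_const)
  · rintro Q ⟨x, hx, rfl⟩ δ hδ
    have hF := hUV' x hx
    obtain ⟨S, hS1, hS2, hS3⟩ := h7 hK hf hx (m := 2) ![U (nd K k x), V (nd K k x)]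
      ![fun z => ‖deriv f z‖, fun z => ‖deriv f z‖]
      (fun i => by fin_cases i; exacts [hF.honu, hF.honv])
      (fun i => by fin_cases i; exacts [hF.monu, hF.monv])
      (fun i j hij => by
        fin_cases i <;> fin_cases j
        · exact absurd rfl hij
        · exact hF.null
        · change volume (Zs K (nd K k x) (V (nd K k x)) (U (nd K k x))) = 0
          have e : Zs K (nd K k x) (V (nd K k x)) (U (nd K k x)) =
              Prod.swap ⁻¹' Zs K (nd K k x) (U (nd K k x)) (V (nd K k x)) := by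
            ext ⟨s, t⟩
            constructor
            · rintro ⟨z, hz, hzA, h1, h2, h3⟩
              exact ⟨z, hz, hzA, fun h => h1 ⟨h.2, h.1⟩, h3, h2⟩
            · rintro ⟨z, hz, hzA, h1, h2, h3⟩
              exact ⟨z, hz, hzA, fun h => h1 ⟨h.2, h.1⟩, h3, h2⟩
          rw [e]
          exact (Measure.measurePreserving_swap (μ := (volume : Measure ℝ))
            (ν := (volume : Measure ℝ))).quasiMeasurePreserving.preimage_null hF.null
        · exact absurd rfl hij) hδ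
    have hre : ∀ P ∈ S, (fun z => (W z).re) '' (P \ K) = U (nd K k x) '' (P \ K) := fun P hP =>
      image_congr fun z hz => hWre x hx z (hS1.sub P hP hz.1)
    have him : ∀ P ∈ S, (fun z => (W z).im) '' (P \ K) = V (nd K k x) '' (P \ K) := fun P hP =>
      image_congr fun z hz => hWim x hx z (hS1.sub P hP hz.1)
    refine ⟨S, hS1, hS2, fun P hP => ?_, ?_, ?_⟩
    · have hPl : P ⊆ lev K 0 := (hS1.sub P hP).trans (nd_sub_lev0 k x)
      rw [hre P hP, him P hP]
      exact ⟨(hF.honu.bdK.bdA hPl).above, (hF.honu.bdK.bdA hPl).below,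
        (hF.honv.bdK.bdA hPl).above, (hF.honv.bdK.bdA hPl).below⟩
    · have e : ∑ᶠ P ∈ S, oscE K (fun z => (W z).re) P ^ 2 =
          ∑ᶠ P ∈ S, oscS K (U (nd K k x)) P ^ 2 :=
        finsum_mem_congr rfl fun P hP => by rw [oscE, hre P hP, oscS]
      rw [e]
      have h2 := hS3 0
      simp only [Matrix.cons_val_zero] at h2
      have h3 := sum_oc_le hτs hτ hF.tauu
      linarith
    · have e : ∑ᶠ P ∈ S, oscE K (fun z => (W z).im) P ^ 2 =
          ∑ᶠ P ∈ S, oscS K (V (nd K k x)) P ^ 2 :=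
        finsum_mem_congr rfl fun P hP => by rw [oscE, him P hP, oscS]
      rw [e]
      have h2 := hS3 1
      simp only [Matrix.cons_val_one, Matrix.cons_val_zero] at h2
      have h3 := sum_oc_le hτs hτ hF.tauv
      linarith

end Vale.Agent.P116.KB.T906
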