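import Vale.Agent.P116.KB.EndJoin
import Vale.Agent.P116.KB.EndSum
import Vale.Agent.P116.KB.EndRad
import Vale.Agent.P116.KB.EndLB
import Vale.Agent.P116.KB.EndVar
import Vale.Agent.P116.KB.TM906
import Vale.Agent.P116.Cl.AR
import Vale.Agent.P116.Cl.E0
import Vale.Agent.P116.KF.Spec

/-!
# Full Koebe: the join of the end game with the specification
-/

open Set Filter Topology Metric Bornology MeasureTheory
open scoped NNReal

namespace Vale.Agent.P116.KB.H221

open H906 PBC Cl KF

section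

variable {K : Set ℂ} {Ω : Type} [TopologicalSpace Ω] [MeasurableSpace Ω] {P : Measure Ω}
  {g : Ω → ℂ → ℂ}

lemma isAvg_re (h : AvH K Ω P g) : IsAvg K P g (fun z => (avg P g z).re) := by
  have := h.cpt
  have := h.borel
  have := h.prob
  refine ⟨Complex.re, 1, fun _ => 0, ?_, measurable_const, ?_, fun z hz => ?_⟩
  · refine LipschitzWith.of_dist_le_mul fun x y => ?_
    rw [Real.dist_eq, NNReal.coe_one, one_mul, dist_eq_norm, ← Complex.sub_re]
    exact Complex.abs_re_le_norm _
  · exact (Set.finite_range_const (α := Ω) (c := (0:ℂ))).isBounded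
  · have h1 : Integrable (fun ω => g ω z) P := H521.int_of_cont (H521.cont_at h.cont hz)
    have h2 := integral_re (𝕜 := ℂ) h1
    simp only [sub_zero]
    exact h2.symm

lemma isAvg_im (h : AvH K Ω P g) : IsAvg K P g (fun z => (avg P g z).im) := by
  have := h.cpt
  have := h.borel
  have := h.prob
  refine ⟨Complex.im, 1, fun _ => 0, ?_, measurable_const, ?_, fun z hz => ?_⟩
  · refine LipschitzWith.of_dist_le_mul fun x y => ?_
    rw [Real.dist_eq, NNReal.coe_one, one_mul, dist_eq_norm, ← Complex.sub_im]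
    exact Complex.abs_im_le_norm _
  · exact (Set.finite_range_const (α := Ω) (c := (0:ℂ))).isBounded
  · have h1 : Integrable (fun ω => g ω z) P := H521.int_of_cont (H521.cont_at h.cont hz)
    have h2 := integral_im (𝕜 := ℂ) h1
    simp only [sub_zero]
    exact h2.symm

lemma comp_sub_lev {c : Set ℂ} (hc : c ∈ comps K) : c ⊆ lev K 0 := by
  obtain ⟨x, hx, rfl⟩ := hc
  exact (connectedComponentIn_subset K x).trans (subset_lev 0)

lemma Hon.sum_all {u ρ : ℂ → ℝ} (h : Hon K (lev K 0) u ρ) :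
    Summable fun c : comps K => oscC K u c ^ 2 := by
  classical
  refine h.sum.congr fun c => ?_
  rw [if_pos (comp_sub_lev c.2)]

end

lemma ad7_of (h : AD) : AD7 := by
  intro K hK hf n x hx m u ρ h1 h2 h3 δ hδ
  exact h hK hf hx (ι := Fin m) (u := u) (fun i => ⟨ρ i, h1 i⟩) h2 h3 hδ

/-- the random map is constant -/
theorem var0' : VAR0 := var0 (lb e0) (var e0d ar_proof) ar_proof

/-- **END** -/
theorem endE : EndE := by
  intro hAD K hK hf hne Par B Ω _ _ P gg 𝔊 h hA
  obtain ⟨a, r, hr, hdj⟩ := exists_rad hK hf h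
  have hAv := avH_of_fst hK hf h
  have hre : ∀ {w : Set ℂ}, IsBounded w →
      Hon K w (fun z => (avg P gg z).re) (fun z => ‖deriv (avg P gg) z‖) :=
    fun hw => hon_re hAv hr hdj hw
  have him : ∀ {w : Set ℂ}, IsBounded w →
      Hon K w (fun z => (avg P gg z).im) (fun z => ‖deriv (avg P gg) z‖) :=
    fun hw => hon_im hAv hr hdj hw
  have hb0 : IsBounded (lev K 0) := (isCompact_lev hK 0).isBounded
  set τ : Set ℂ → ℝ := fun c => oscC K (fun z => (avg P gg z).re) c ^ 2 +
    oscC K (fun z => (avg P gg z).im) c ^ 2 with hτ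
  have hτ0 : ∀ c, 0 ≤ τ c := fun c => by positivity
  have hτs : Summable fun c : comps K => τ c :=
    (Hon.sum_all (hre hb0)).add (Hon.sum_all (him hb0))
  have hKo : IsOpen Kᶜ := hK.isClosed.isOpen_compl
  have hT : TM K (avg P gg) τ := by
    refine T906.tm_of hK hf (KF.ugr_maj hKo (hre hb0).maj (hre hb0).rc ?_)
      (KF.ugr_maj hKo (him hb0).maj (him hb0).rc ?_) hτ0 hτs (fun n x hx => ?_) (ad7_of hAD)
    · exact fun z hz => (hre hb0).rnn z hz
    · exact fun z hz => (him hb0).rnn z hz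
    have hbn : IsBounded (nd K n x) := (isCompact_nd hK n x).isBounded
    obtain ⟨v, v', h1, h2, h3, h4, h5, h6, h7⟩ := hA.flat2 n x hx _ _ _ _ (isAvg_re hAv) (hre hbn)
      (isAvg_im hAv) (him hbn)
    obtain ⟨B₁, hB₁⟩ := h1.bdd
    obtain ⟨B₂, hB₂⟩ := h4.bdd
    refine ⟨v, v', h1, h4, h2, h5, h3.off, h6.off, h7, fun c hc _ => ?_, fun c hc _ => ?_⟩
    · have h8 := h3.oscC c hc
      have h9 : 0 ≤ oscC K v c := oscC_nonneg_es hB₁ c
      calc oscC K v c ^ 2 ≤ oscC K (fun z => (avg P gg z).re) c ^ 2 := by gcongr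
        _ ≤ τ c := le_add_of_nonneg_right (sq_nonneg _)
    · have h8 := h6.oscC c hc
      have h9 : 0 ≤ oscC K v' c := oscC_nonneg_es hB₂ c
      calc oscC K v' c ^ 2 ≤ oscC K (fun z => (avg P gg z).im) c ^ 2 := by gcongr
        _ ≤ τ c := le_add_of_nonneg_left (sq_nonneg _)
  exact ⟨avg P gg, var0' hAv hr hdj hτ0 hτs hT⟩

end Vale.Agent.P116.KB.H221
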