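import Vale.Agent.P116.KB.V4
import Vale.Agent.P116.G.TB
import Vale.Agent.P116.Cl.H339.RVw

/-!
# The limit trees of the budget family form a nice set
-/

open Set Filter Topology

namespace Vale.Agent.P116.KB

open H906 Slow Slow.Sys
open G (NS XQ sysK)

variable {K : Set ℂ} {R ρ : ℝ} {𝔘 : Type}

instance directed_par : IsDirected (Finset 𝔘 × ℕ) (· ≤ ·) := by
  classical
  exact ⟨fun t t' => ⟨(t.1 ∪ t'.1, max t.2 t'.2),
    ⟨Finset.subset_union_left, le_max_left _ _⟩, ⟨Finset.subset_union_right, le_max_right _ _⟩⟩⟩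

instance nonempty_par : Nonempty (Finset 𝔘 × ℕ) := ⟨(∅, 0)⟩

/-- **the limit trees of the budget family form a nice set** -/
theorem OscD.nice (D : OscD K 𝔘) (h : G.Far K R ρ) (hne : K.Nonempty)
    (hAD : ∀ t : Finset 𝔘 × ℕ, ∃ k, ∀ q : Tn K, k ≤ q.lv → ∀ δ > 0,
      ∃ S, NS K q.st S ∧ D.EU t δ q.st S) :
    (sysK h hne).cmp.NiceU (range (Ms.brc (K := K))) ((sysK h hne).VV (D.E h)) :=
  Cl.rv1w (sysK h hne) (D.E h) (G.tbd h)
    (fun _ => ⟨rfl, fun k => (mem_cht h.cpt).2 (br_succ_mem _ k)⟩)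
    (OscD.E_anti h) (OscD.E_mono h) (OscD.E_nonempty h hAD) (OscD.E_join h hne)
    (fun t c _ hδ => OscD.E_brc h hne t c hδ)

end Vale.Agent.P116.KB
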