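import Vale.Agent.P116.KB.V5
import Vale.Agent.P116.KB.OscAPI

/-!
# The budget family of a set of admissible pairs, and the adaptation statement [7]
-/

open Set Filter Topology Metric Bornology MeasureTheory

namespace Vale.Agent.P116.KB

open H906 PBC Slow

variable {K : Set ℂ} {R ρ : ℝ}

/-- **[7] ADAPTATION**: in a node, finitely many pairwise compatible honest strongly monotone
functions have structures with arbitrarily small excess -/
def AD7 : Prop := ∀ {K : Set ℂ} (_ : IsCompact K) (_ : Full K) {n : ℕ} {x : ℂ} (_ : x ∈ K)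
    {m : ℕ} (u ρ : Fin m → ℂ → ℝ) (_ : ∀ i, Hon K (nd K n x) (u i) (ρ i))
    (_ : ∀ i, KF.SMon K (nd K n x) (u i))
    (_ : ∀ i j, i ≠ j → volume (Zs K (nd K n x) (u i) (u j)) = 0) {δ : ℝ} (_ : 0 < δ),
    ∃ S, G.NS K (nd K n x) S ∧ (∀ y ∈ K, y ∈ nd K n x → ∃ P ∈ S, y ∈ P) ∧
      ∀ i, ∑ᶠ P ∈ S, oscS K (u i) P ^ 2 ≤ ∑' c : comps K, oc K (nd K n x) (u i) c + δ

/-- the oscillation data of a set of admissible pairs -/
noncomputable def oD (U : Set Pair) (hU : ∀ p ∈ U, APair K p) : OscD K U where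
  oP f P := oP K f.1.1 f.1.2 P
  oc f c := oc K f.1.1 f.1.2 c
  oc_nn _ _ _ := oc_nonneg _ _ _ _
  sum f := by
    obtain ⟨ρ, hρ⟩ := (hU f.1 f.2).hon
    exact hρ.sum
  lim f x hx ε hε := by
    obtain ⟨ρ, hρ⟩ := (hU f.1 f.2).hon
    obtain ⟨n, y, hy, hw⟩ := (hU f.1 f.2).node
    have hc : connectedComponentIn K x ∈ comps K := ⟨x, hx, rfl⟩
    obtain ⟨m₀, hm₀⟩ := exists_sq_nd_lt hρ.bdK hx hε
    refine ⟨m₀, fun m hm => ?_⟩
    by_cases h1 : nd K m x ⊆ f.1.1
    · have h2 : connectedComponentIn K x ⊆ f.1.1 :=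
        (comp_subset_nd hc (mem_connectedComponentIn hx) m).trans h1
      rw [oP_of_sub h1, oc_of_sub h2]
      exact (hm₀ m hm).le
    · rw [oP_of_not_sub h1]
      have := oc_nonneg K f.1.1 f.1.2 (connectedComponentIn K x)
      linarith

/-- restriction of the total oscillation to a node inside `w` -/
lemma oD_A {U : Set Pair} {hU : ∀ p ∈ U, APair K p} (f : U)
    {Q : Set ℂ} (hQ : Q ⊆ f.1.1) :
    (oD U hU).A f Q = ∑' c : comps K, oc K Q f.1.2 c := by
  classical
  unfold OscD.A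
  refine tsum_congr fun c => ?_
  by_cases h : (c : Set ℂ) ⊆ Q
  · rw [if_pos h, oc_of_sub h]
    exact oc_of_sub (h.trans hQ)
  · rw [if_neg h, oc_of_not_sub h]

lemma tsum_root {U : Set Pair} {hU : ∀ p ∈ U, APair K p} (f : U) :
    (oD U hU).A f (lev K 0) = ∑' c : comps K, oc K f.1.1 f.1.2 c := by
  classical
  unfold OscD.A
  refine tsum_congr fun c => ?_
  rw [if_pos ((comps_subset c.2).trans (H906.subset_lev 0))]
  rfl

/-- the budgets at the root -/
lemma EU_root {U : Set Pair} {hU : ∀ p ∈ U, APair K p} {t : Finset U × ℕ} {δ : ℝ}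
    {S : Set (Set ℂ)} (h : (oD U hU).EU t δ (lev K 0) S) :
    (∀ P ∈ S, P ⊆ lev K t.2) ∧ (∀ x ∈ K, ∃ P ∈ S, x ∈ P) ∧
      ∀ f ∈ t.1, ∑ᶠ P ∈ S, oP K f.1.1 f.1.2 P ≤ ∑' c : comps K, oc K f.1.1 f.1.2 c + δ :=
  ⟨h.lev, fun x hx => h.cov x hx (H906.subset_lev 0 hx), fun f hf => by
    rw [← tsum_root (hU := hU) f]
    exact h.bud f hf⟩

/-- existence in deep nodes -/
theorem exists_deep (h7 : AD7) (hK : IsCompact K) (hf : Full K) (U : Set Pair)
    (hU : ∀ p ∈ U, APair K p) (hc : ∀ p ∈ U, ∀ p' ∈ U, p ≠ p' → Cmp K p p')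
    (t : Finset U × ℕ) : ∃ k, ∀ q : Tn K, k ≤ q.lv → ∀ δ > 0,
      ∃ S, G.NS K q.st S ∧ (oD U hU).EU t δ q.st S := by
  classical
  choose lvl y hy hw using fun f : U => (hU f.1 f.2).node
  refine ⟨(max (t.1.sup lvl) t.2) + 1, ?_⟩
  rintro ⟨⟨n', Q⟩, hq⟩ hk δ hδ
  cases n' with
  | zero => exact absurd hk (by change ¬ (_ + 1 ≤ 0); omega)
  | succ n =>
    obtain ⟨x, hx, hxQ⟩ := hq
    have hxQ' : nd K n x = Q := hxQ
    subst hxQ'
    have hk' : max (t.1.sup lvl) t.2 ≤ n := by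
      have : (max (t.1.sup lvl) t.2) + 1 ≤ n + 1 := hk
      omega
    change ∃ S, G.NS K (nd K n x) S ∧ (oD U hU).EU t δ (nd K n x) S
    -- the functions which live on the node
    set s : Finset U := t.1.filter fun f => nd K n x ⊆ f.1.1 with hs
    set e := s.equivFin with he
    have hmem : ∀ i : Fin s.card, nd K n x ⊆ (e.symm i).1.1.1 := fun i =>
      (Finset.mem_filter.1 (e.symm i).2).2
    choose r hr using fun f : U => (hU f.1 f.2).hon
    obtain ⟨S, h1, h2, h3⟩ := h7 hK hf hx (m := s.card) (fun i => (e.symm i).1.1.2)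
      (fun i => r (e.symm i).1) (fun i => (hr (e.symm i).1).restrict (hmem i))
      (fun i => SMon_restrict (hmem i)
        (by rw [hw (e.symm i).1]; exact isCompact_nd hK _ _)
        ((full_nd hK n x).isPreconnected_compl (isCompact_nd hK n x).isBounded)
        (hU (e.symm i).1.1 (e.symm i).1.2).mon)
      (fun i j hij => by
        have h4 : (e.symm i).1.1 ≠ (e.symm j).1.1 := fun h5 =>
          hij (e.symm.injective (Subtype.ext (Subtype.ext h5)))
        have h5 := hc _ (e.symm i).1.2 _ (e.symm j).1.2 h4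
        exact measure_mono_null (Zs_mono_set (subset_inter (hmem i) (hmem j)) _ _) h5) hδ
    refine ⟨S, h1, ⟨fun P hP => ?_, h2, fun f hft => ?_⟩⟩
    · exact (h1.sub P hP).trans ((nd_subset n x).trans
        (lev_anti ((le_max_right _ _).trans hk')))
    · by_cases hfs : nd K n x ⊆ f.1.1
      · have hf1 : f ∈ s := Finset.mem_filter.2 ⟨hft, hfs⟩
        have h4 := h3 (e ⟨f, hf1⟩)
        simp only [Equiv.symm_apply_apply] at h4
        rw [oD_A f hfs]
        refine le_trans (le_of_eq ?_) h4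
        refine finsum_mem_congr rfl fun P hP => ?_
        exact oP_of_sub ((h1.sub P hP).trans hfs)
      · have h4 : ∑ᶠ P ∈ S, (oD U hU).oP f P = 0 := by
          rw [← finsum_mem_zero S]
          refine finsum_mem_congr rfl fun P hP => ?_
          refine oP_of_not_sub fun hPw => hfs ?_
          obtain ⟨z, hz⟩ := (h1.pc P hP).nonempty
          rw [hw f]
          refine nd_nested (Finset.le_sup (f := lvl) hft |>.trans
            ((le_max_left _ _).trans hk')) ⟨z, ?_, h1.sub P hP hz⟩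
          rw [← hw f]
          exact hPw hz
        rw [h4]
        have := OscD.A_nonneg (D := oD U hU) f (nd K n x)
        linarith

/-- **the limit trees with zero excess for all the pairs of `U` form a nice set** -/
theorem nice_of_pairs (h7 : AD7) (h : G.Far K R ρ) (hne : K.Nonempty) (U : Set Pair)
    (hU : ∀ p ∈ U, APair K p) (hc : ∀ p ∈ U, ∀ p' ∈ U, p ≠ p' → Cmp K p p') :
    (G.sysK h hne).cmp.NiceU (range (Ms.brc (K := K)))
      ((G.sysK h hne).VV ((oD U hU).E h)) :=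
  OscD.nice _ h hne (exists_deep h7 h.cpt h.full U hU hc)

end Vale.Agent.P116.KB
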