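import Mathlib

/-!
# P116, block [Z]: the abstract fixed point

`U` is a maximal family of pairwise compatible admissible functions. A law (random state) which
lives on the limit states adapted to all members of `U` has its own (flattened) averages in `U`.
-/

open Set

namespace Vale.Agent.P116.KB

/-- a maximal family of pairwise compatible elements; it contains every element which is compatible
with all its members -/
theorem exists_max {A : Type*} (P : A → Prop) (C : A → A → Prop) (hsymm : ∀ a b, C a b → C b a)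
    (hrefl : ∀ a, P a → C a a) :
    ∃ U : Set A, (∀ a ∈ U, P a) ∧ (∀ a ∈ U, ∀ b ∈ U, C a b) ∧
      ∀ a, P a → (∀ b ∈ U, C a b) → a ∈ U := by
  obtain ⟨U, hU⟩ := zorn_subset {U : Set A | (∀ a ∈ U, P a) ∧ ∀ a ∈ U, ∀ b ∈ U, C a b} (by
    intro c hc hch
    refine ⟨⋃₀ c, ⟨?_, ?_⟩, fun s hs => subset_sUnion_of_mem hs⟩
    · rintro a ⟨s, hs, ha⟩
      exact (hc hs).1 a ha
    · rintro a ⟨s, hs, ha⟩ b ⟨t, ht, hb⟩
      rcases hch.total hs ht with h | h
      · exact (hc ht).2 a (h ha) b hb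
      · exact (hc hs).2 a ha b (h hb))
  refine ⟨U, hU.prop.1, hU.prop.2, fun a ha hC => ?_⟩
  have h1 : insert a U ∈ {U : Set A | (∀ a ∈ U, P a) ∧ ∀ a ∈ U, ∀ b ∈ U, C a b} := by
    refine ⟨?_, ?_⟩
    · rintro b (rfl | hb)
      · exact ha
      · exact hU.prop.1 b hb
    · rintro b (rfl | hb) b' (rfl | hb')
      · exact hrefl _ ha
      · exact hC b' hb'
      · exact hsymm _ _ (hC b hb)
      · exact hU.prop.2 b hb b' hb'
  exact hU.le_of_ge h1 (subset_insert a U) (mem_insert a U)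

/-- **Zorn.** `On μ U`: the law `μ` lives on the limit states adapted to all members of `U`;
`fam μ`: the flattened averages of `μ`. -/
theorem exists_fixed {A L : Type*} (P : A → Prop) (C : A → A → Prop)
    (hsymm : ∀ a b, C a b → C b a) (hrefl : ∀ a, P a → C a a)
    (On : L → Set A → Prop) (fam : L → Set A)
    (h1 : ∀ U : Set A, (∀ a ∈ U, P a) → (∀ a ∈ U, ∀ b ∈ U, C a b) → ∃ μ, On μ U)
    (h2 : ∀ (U : Set A) (μ : L), (∀ a ∈ U, P a) → (∀ a ∈ U, ∀ b ∈ U, C a b) → On μ U →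
      ∀ a ∈ fam μ, P a ∧ ∀ b ∈ U, C a b) :
    ∃ (μ : L) (U : Set A), (∀ a ∈ U, P a) ∧ (∀ a ∈ U, ∀ b ∈ U, C a b) ∧ On μ U ∧ fam μ ⊆ U := by
  obtain ⟨U, hP, hC, hmax⟩ := exists_max P C hsymm hrefl
  obtain ⟨μ, hμ⟩ := h1 U hP hC
  exact ⟨μ, U, hP, hC, hμ, fun a ha => hmax a (h2 U μ hP hC hμ a ha).1 (h2 U μ hP hC hμ a ha).2⟩

end Vale.Agent.P116.KB
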