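import Vale.Agent.P116.Slow.Mob
import Vale.Agent.P116.G.Out

/-!
# P116, block [Z]: from a deterministic map to a circle domain, and all domains of the sphere
-/

open Set Filter Topology Metric Bornology MeasureTheory OnePoint

namespace Vale.Agent.P116.KB

open H906 PBC Slow

section

variable {h : FK} {K : Set ℂ} {𝔊 : Ultrafilter Str}

/-- a round end of the limit map is a good end of every approximating ultrafilter -/
theorem goodAt_of_disked (hK : IsCompact K) (hf : Full K) (hG : Fine K (𝔊 : Filter Str))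
    {g : ℂ → ℂ} (hg : TendstoLocallyUniformlyOn (kF h) g (𝔊 : Filter Str) Kᶜ) {x : ℂ}
    (hD : Disked K g x) : GoodAt h K (𝔊 : Filter Str) x := by
  obtain ⟨c, r, hr, hball, -, hnd⟩ := hD
  refine ⟨c, r, hr, fun ε hε => ?_, fun z hz => ?_⟩
  · obtain ⟨n, hn⟩ := hnd (ε / 2) (by positivity)
    refine ⟨n, ?_⟩
    set E := frontier (nd K n x) with hE
    have hEK : Disjoint E K := frontier_nd_disjoint n x
    have hEc : IsCompact E := (isCompact_nd hK n x).of_isClosed_subset isClosed_frontier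
      ((isCompact_nd hK n x).isClosed.frontier_subset)
    have hEsub : E ⊆ Kᶜ := fun z hz => disjoint_left.1 hEK hz
    have hunif : ∀ᶠ S in (𝔊 : Filter Str), ∀ z ∈ E, dist (g z) (kF h S z) < ε / 2 := by
      have h1 := (tendstoLocallyUniformlyOn_iff_forall_isCompact hK.isClosed.isOpen_compl).1 hg E
        hEsub hEc
      exact Metric.tendstoUniformlyOn_iff.1 h1 (ε / 2) (by positivity)
    filter_upwards [hunif, hG.disj hK hf hEc hEK] with S h2 h3
    refine (kmap h S).Tm_subset_closedBall S.2 (isCompact_nd hK n x).isBounded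
      (by positivity) ?_
    rintro _ (⟨z, ⟨hz1, hz2⟩, rfl⟩ | hy2)
    · have h4 := h2 z hz1
      have h5 : g z ∈ closedBall c (r + ε / 2) :=
        hn ⟨z, ⟨(isCompact_nd hK n x).isClosed.frontier_subset hz1, hEsub hz1⟩, rfl⟩
      rw [mem_closedBall] at h5 ⊢
      linarith [dist_triangle (kF h S z) (g z) c, dist_comm (g z) (kF h S z)]
    · exfalso
      obtain ⟨P, ⟨hP, z, hz, hzP⟩, -⟩ := mem_iUnion₂.1 hy2
      exact disjoint_left.1 h3 hz ⟨P, hP, hzP⟩
  · have h1 : g z ∉ closedBall c r := fun hmem => hball hmem ⟨z, hz, rfl⟩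
    have h2 : r < ‖g z - c‖ := by rwa [mem_closedBall, dist_eq_norm, not_le] at h1
    have h3 : Tendsto (fun S => ‖kF h S z - c‖) 𝔊 (𝓝 ‖g z - c‖) :=
      ((hg.tendsto_at hz).sub_const c).norm
    refine ⟨(‖g z - c‖ - r) / 2, by linarith, ?_⟩
    exact h3.eventually (lt_mem_nhds (by linarith))

/-- **one limit map with all ends round** -/
theorem isKoebe_of_disked (hK : IsCompact K) (hf : Full K) (hG : Fine K (𝔊 : Filter Str))
    {g : ℂ → ℂ} (hg : TendstoLocallyUniformlyOn (kF h) g (𝔊 : Filter Str) Kᶜ) (hnu : NU Kᶜ g)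
    (hD : ∀ x ∈ K, Disked K g x) : IsKoebe (((fun z : ℂ => (z : OnePoint ℂ)) '' K)ᶜ) :=
  PBC.sphere_transfer hK (hf.isPreconnected_compl hK.isBounded) hnu fun _ hw =>
    assembly hK hf hG hg (fun x hx => goodAt_of_disked hK hf hG hg (hD x hx)) hw

lemma disked_congr {K : Set ℂ} {g g' : ℂ → ℂ} {x : ℂ} (hD : Disked K g x)
    (he : EqOn g g' Kᶜ) : Disked K g' x := by
  obtain ⟨c, r, hr, h1, h2, h3⟩ := hD
  have e1 : g '' Kᶜ = g' '' Kᶜ := image_congr he
  refine ⟨c, r, hr, ?_, ?_, fun ε hε => ?_⟩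
  · rwa [← e1]
  · rwa [← e1]
  · obtain ⟨n, hn⟩ := h3 ε hε
    refine ⟨n, ?_⟩
    have e2 : g '' (nd K n x \ K) = g' '' (nd K n x \ K) :=
      image_congr fun z hz => he hz.2
    rwa [← e2]

end

/-- **one ultrafilter all of whose ends are good** (the output of the second end game) -/
theorem isKoebe_of_good {K : Set ℂ} {𝔊 : Ultrafilter Str} {g : ℂ → ℂ} (hK : IsCompact K)
    (hf : Full K) (hG : Fine K (𝔊 : Filter Str))
    (hg : TendstoLocallyUniformlyOn (kF fk) g (𝔊 : Filter Str) Kᶜ) (hnu : NU Kᶜ g)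
    (hgood : ∀ x ∈ K, GoodAt fk K (𝔊 : Filter Str) x) :
    IsKoebe (((fun z : ℂ => (z : OnePoint ℂ)) '' K)ᶜ) :=
  PBC.sphere_transfer hK (hf.isPreconnected_compl hK.isBounded) hnu fun _ hw =>
    assembly hK hf hG hg hgood hw

/-- **a fair law with an almost surely constant limit map** (the output of the first end game) -/
theorem isKoebe_of_const {K : Set ℂ} (hK : IsCompact K) (hf : Full K) {Par : Type}
    {B : Par → ℝ → Set (Set (Set ℂ))} {Ω : Type} [TopologicalSpace Ω] [MeasurableSpace Ω]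
    {P : Measure Ω} {gg : Ω → ℂ → ℂ} {𝔉 : Ω → Ultrafilter Str} (h : G.FSt K B Ω P gg 𝔉)
    {g₀ : ℂ → ℂ} (h₀ : ∀ᵐ ω ∂P, EqOn (gg ω) g₀ Kᶜ) :
    IsKoebe (((fun z : ℂ => (z : OnePoint ℂ)) '' K)ᶜ) := by
  obtain ⟨h1, h2⟩ := G.koebe_of_const hK hf h h₀
  exact PBC.sphere_transfer hK (hf.isPreconnected_compl hK.isBounded) h1 h2

lemma nd_eq_of_cc {K : Set ℂ} {x y : ℂ} (hx : x ∈ K) (hy : y ∈ K)
    (h : connectedComponentIn K x = connectedComponentIn K y) (n : ℕ) : nd K n x = nd K n y := by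
  have h1 : connectedComponentIn K x ⊆ nd K n x :=
    isPreconnected_connectedComponentIn.subset_connectedComponentIn (mem_connectedComponentIn hx)
      ((connectedComponentIn_subset _ _).trans (subset_lev n))
  have h2 : y ∈ nd K n x := h1 (h ▸ mem_connectedComponentIn hy)
  exact (nd_eq h2).symm

lemma goodAt_congr {h : FK} {K : Set ℂ} {𝔊 : Filter Str} {x y : ℂ} (hx : x ∈ K) (hy : y ∈ K)
    (hxy : connectedComponentIn K x = connectedComponentIn K y) (H : GoodAt h K 𝔊 y) :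
    GoodAt h K 𝔊 x := by
  obtain ⟨c, r, hr, h1, h2⟩ := H
  refine ⟨c, r, hr, fun ε hε => ?_, h2⟩
  obtain ⟨n, hn⟩ := h1 ε hε
  refine ⟨n, ?_⟩
  rw [nd_eq_of_cc hx hy hxy n]
  exact hn

/-- a fair law, almost all of whose states are good at all ends outside a countable set -/
theorem isKoebe_of_ae {K : Set ℂ} (hK : IsCompact K) (hf : Full K) {Par : Type}
    {B : Par → ℝ → Set (Set (Set ℂ))} {Ω : Type} [TopologicalSpace Ω] [MeasurableSpace Ω]
    {P : Measure Ω} {gg : Ω → ℂ → ℂ} {𝔉 : Ω → Ultrafilter Str} (h : G.FSt K B Ω P gg 𝔉)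
    {C : Set ℂ} (hC : C.Countable) (hCK : C ⊆ K)
    (h₀ : ∀ᵐ ω ∂P, ∀ x ∈ K, (∀ c ∈ C, connectedComponentIn K x ≠ connectedComponentIn K c) →
      GoodAt fk K (𝔉 ω : Filter Str) x) :
    IsKoebe (((fun z : ℂ => (z : OnePoint ℂ)) '' K)ᶜ) := by
  have := h.prob
  have h1 : ∀ᵐ ω ∂P, ∀ c ∈ C, GoodAt fk K (𝔉 ω : Filter Str) c :=
    (ae_ball_iff hC).2 fun c hc => h.good c (hCK hc)
  obtain ⟨ω, h2, h3⟩ := (h₀.and h1).exists
  refine isKoebe_of_good hK hf (h.fine ω) (h.conv ω) (h.nu ω) fun x hx => ?_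
  by_cases hxC : ∀ c ∈ C, connectedComponentIn K x ≠ connectedComponentIn K c
  · exact h2 x hx hxC
  · push Not at hxC
    obtain ⟨c, hc, hxc⟩ := hxC
    exact goodAt_congr hx (hCK hc) hxc (h3 c hc)

lemma holAt_id (p : OnePoint ℂ) : HolAt id p := by
  induction p using OnePoint.rec with
  | infty =>
    exact ⟨fun z : ℂ => recip (z : OnePoint ℂ), Or.inr rfl,
      fun z : ℂ => recip (z : OnePoint ℂ), Or.inr rfl, 0, fun z => z, recip_coe_zero,
      analyticAt_id, Eventually.of_forall fun z => rfl⟩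
  | coe z =>
    exact ⟨fun z : ℂ => (z : OnePoint ℂ), Or.inl rfl, fun z : ℂ => (z : OnePoint ℂ),
      Or.inl rfl, z, fun z => z, rfl, analyticAt_id, Eventually.of_forall fun z => rfl⟩

/-- **all domains of the sphere**, from the complements of full compact plane sets -/
theorem isKoebe_all (H : ∀ K : Set ℂ, IsCompact K → Full K → K.Nonempty →
      IsKoebe (((fun z : ℂ => (z : OnePoint ℂ)) '' K)ᶜ))
    (G : Set (OnePoint ℂ)) (hG : IsDom G) : IsKoebe G := by
  have hcore : ∀ G : Set (OnePoint ℂ), IsDom G → ∞ ∈ G → IsKoebe G := by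
    intro G hG hinf
    have hK : IsCompact (PBC.pl G) := PBC.isCompact_pl hG.1 hinf
    have hc : IsPreconnected (PBC.pl G)ᶜ := PBC.preconn_compl_pl hG.1 hG.2 hinf
    have hf : H906.Full (PBC.pl G) := H906.full_of_isPreconnected_compl hc hK.isBounded
    have hGe : ((fun z : ℂ => (z : OnePoint ℂ)) '' PBC.pl G)ᶜ = G := (PBC.eq_compl_pl hinf).symm
    rcases (PBC.pl G).eq_empty_or_nonempty with hemp | hne
    · rw [hemp, image_empty, compl_empty] at hGe
      refine ⟨G, ⟨hG, fun p hp => ?_⟩, id, bijOn_id G, fun p _ => holAt_id p⟩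
      exact absurd (hGe ▸ mem_univ p) hp
    · rw [← hGe]
      exact H _ hK hf hne
  by_cases hinf : ∞ ∈ G
  · exact hcore G hG hinf
  obtain ⟨m, hm, hmi⟩ := Slow.exists_conf hG
  have hG' : IsDom (m '' G) := ⟨m.isOpenMap _ hG.1, hG.2.image _ m.continuous.continuousOn⟩
  obtain ⟨H', hH', f, hf1, hf2⟩ := hcore (m '' G) hG' hmi
  exact ⟨H', hH', f ∘ m, hf1.comp (m.injective.injOn.bijOn_image),
    fun p hp => hm f p (hf2 (m p) ⟨p, hp, rfl⟩)⟩

end Vale.Agent.P116.KB
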