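import Vale.Agent.P116.KB.TopDef
import Vale.Agent.P116.KB.Z1
import Vale.Agent.P116.KB.Z3

/-!
# P116, block [Z]: a maximal family of pairwise compatible admissible pairs
-/

open Set Filter Topology Metric Bornology MeasureTheory

namespace Vale.Agent.P116.KB

open H906

variable {K : Set ℂ} {u u' : ℂ → ℝ}

lemma nd_eq_of_mem_cc {x y : ℂ} (hx : x ∈ K) (hy : y ∈ connectedComponentIn K x) (n : ℕ) :
    nd K n y = nd K n x :=
  nd_eq_of_cc (connectedComponentIn_subset _ _ hy) hx (connectedComponentIn_eq hy).symm n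

lemma ndC_eq_z {x : ℂ} (hx : x ∈ K) (n : ℕ) :
    (⋃ y ∈ connectedComponentIn K x, nd K n y) = nd K n x := by
  apply Subset.antisymm
  · intro z hz
    obtain ⟨y, hy, hz⟩ := mem_iUnion₂.1 hz
    rwa [nd_eq_of_mem_cc hx hy n] at hz
  · intro z hz
    exact mem_iUnion₂.2 ⟨x, mem_connectedComponentIn hx, hz⟩

/-- two values at an end differ by at most the oscillation -/
lemma EI_dist (hb : ∃ B, ∀ z ∈ lev K 0, z ∉ K → |u z| ≤ B) {x : ℂ} (hx : x ∈ K) {s s' : ℝ}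
    (hs : s ∈ EI K u x) (hs' : s' ∈ EI K u x) :
    s' - s ≤ oscC K u (connectedComponentIn K x) := by
  obtain ⟨B, hB⟩ := hb
  refine le_ciInf fun n => ?_
  rw [ndC_eq_z hx n, oscS]
  have hbd : ∀ z ∈ nd K n x \ K, |u z| ≤ B := fun z hz =>
    hB z (lev_anti (Nat.zero_le n) (nd_subset n x hz.1)) hz.2
  have hba : BddAbove (u '' (nd K n x \ K)) := by
    refine ⟨B, ?_⟩
    rintro _ ⟨z, hz, rfl⟩
    exact (abs_le.1 (hbd z hz)).2
  have hbb : BddBelow (u '' (nd K n x \ K)) := by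
    refine ⟨-B, ?_⟩
    rintro _ ⟨z, hz, rfl⟩
    exact (abs_le.1 (hbd z hz)).1
  have h1 : s' ≤ sSup (u '' (nd K n x \ K)) := by
    by_contra hcon
    rw [not_le] at hcon
    exact hs'.2 (Or.inr ⟨hx, n, -sSup (u '' (nd K n x \ K)), neg_lt_neg hcon, fun y hy hyK =>
      neg_le_neg (le_csSup hba ⟨y, ⟨hy, hyK⟩, rfl⟩)⟩)
  have h2 : sInf (u '' (nd K n x \ K)) ≤ s := by
    by_contra hcon
    rw [not_le] at hcon
    exact hs.1 (Or.inr ⟨hx, n, sInf (u '' (nd K n x \ K)), hcon, fun y hy hyK =>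
      csInf_le hbb ⟨y, ⟨hy, hyK⟩, rfl⟩⟩)
  linarith

/-- the end interval is a point where the oscillation is not positive -/
lemma EI_subsingleton (hb : ∃ B, ∀ z ∈ lev K 0, z ∉ K → |u z| ≤ B) {x : ℂ} (hx : x ∈ K)
    (h : oscC K u (connectedComponentIn K x) ≤ 0) : (EI K u x).Subsingleton := by
  intro s hs s' hs'
  have h1 := EI_dist hb hx hs hs'
  have h2 := EI_dist hb hx hs' hs
  linarith

lemma volume_diag : volume {q : ℝ × ℝ | q.1 = q.2} = 0 := by
  have hm : MeasurableSet {q : ℝ × ℝ | q.1 = q.2} := measurableSet_eq_fun measurable_fst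
    measurable_snd
  rw [Measure.volume_eq_prod, Measure.measure_prod_null hm]
  refine Eventually.of_forall fun x => ?_
  have : Prod.mk x ⁻¹' {q : ℝ × ℝ | q.1 = q.2} = {x} := by
    ext y
    simp [eq_comm]
  change volume (Prod.mk x ⁻¹' {q : ℝ × ℝ | q.1 = q.2}) = 0
  rw [this]
  exact Real.volume_singleton

/-- an admissible pair is compatible with itself -/
theorem Cmp_self {p : Pair} (hp : AdmP K p) : Cmp K p p := by
  obtain ⟨-, ⟨ρ, hρ⟩, -⟩ := hp
  refine measure_mono_null ?_ volume_diag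
  rintro q ⟨x, hx, -, hx2, h1, h2⟩
  have hx3 : oscC K p.2 (connectedComponentIn K x) ≤ 0 := by
    by_contra hcon
    rw [not_le] at hcon
    exact hx2 ⟨hcon, hcon⟩
  exact EI_subsingleton hρ.bdd hx hx3 h1 h2

lemma Zs_swap_z (A : Set ℂ) : Prod.swap ⁻¹' Zs K A u u' = Zs K A u' u := by
  ext q
  constructor
  · rintro ⟨x, h1, h2, h3, h4, h5⟩
    exact ⟨x, h1, h2, fun h => h3 ⟨h.2, h.1⟩, h5, h4⟩
  · rintro ⟨x, h1, h2, h3, h4, h5⟩
    exact ⟨x, h1, h2, fun h => h3 ⟨h.2, h.1⟩, h5, h4⟩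

/-- compatibility is symmetric -/
theorem Cmp_symm {p p' : Pair} (h : Cmp K p p') : Cmp K p' p := by
  have e : Zs K (p'.1 ∩ p.1) p'.2 p.2 = Prod.swap ⁻¹' Zs K (p.1 ∩ p'.1) p.2 p'.2 := by
    rw [Zs_swap_z, inter_comm]
  have hmp : MeasurePreserving (Prod.swap : ℝ × ℝ → ℝ × ℝ) volume volume :=
    Measure.measurePreserving_swap
  rw [Cmp, e]
  exact (hmp.measure_preimage_equiv (f := MeasurableEquiv.prodComm) _).trans h

/-- monotonicity in the set of ends -/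
lemma Zs_mono_z {A A' : Set ℂ} (h : A ⊆ A') : Zs K A u u' ⊆ Zs K A' u u' := by
  rintro q ⟨x, h1, h2, h3⟩
  exact ⟨x, h1, h h2, h3⟩

/-- pairs living on disjoint nodes are compatible -/
lemma Cmp_of_disjoint {p p' : Pair} (h : Disjoint p.1 p'.1) : Cmp K p p' := by
  have e : Zs K (p.1 ∩ p'.1) p.2 p'.2 = ∅ := by
    rw [h.inter_eq]
    ext q
    simp [Zs]
  rw [Cmp, e, measure_empty]

/-- **a maximal family** -/
theorem exists_maxU (K : Set ℂ) : ∃ U : Set Pair, (∀ p ∈ U, AdmP K p) ∧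
    (∀ p ∈ U, ∀ p' ∈ U, Cmp K p p') ∧ ∀ p, AdmP K p → (∀ p' ∈ U, Cmp K p p') → p ∈ U :=
  exists_max (AdmP K) (Cmp K) (fun _ _ => Cmp_symm) fun _ => Cmp_self

end Vale.Agent.P116.KB
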