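import Vale.Agent.P116.KB.Ad213
import Vale.Agent.P116.KB.V6
import Vale.Agent.P116.KB.H885.FairD
import Vale.Agent.P116.KB.Z2
import Vale.Agent.P116.KB.Z3
import Vale.Agent.P116.G.AR3

/-!
# Full Koebe: the master composition

`koebe_P`: from [7], [45], [FL] and END'. `koebe_E`: from [7], [45], [FL] and END.
-/

open Set Filter Topology Metric Bornology MeasureTheory
open scoped NNReal

namespace Vale.Agent.P116.KB

open H906 KF

lemma ad7_of (h : AD) : AD7 := by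
  intro K hK hf n x hx m u ρ h1 h2 h3 δ hδ
  exact h hK hf hx (ι := Fin m) (u := u) (fun i => ⟨ρ i, h1 i⟩) h2 h3 hδ

/-- every pairwise compatible family of admissible pairs has a fair law -/
theorem exists_law (hAD : AD) {K : Set ℂ} (hK : IsCompact K) (hf : Full K) (hne : K.Nonempty)
    {U : Set Pair} (hU : ∀ p ∈ U, AdmP K p) (hc : ∀ p ∈ U, ∀ p' ∈ U, Cmp K p p') :
    ∃ (Ω : Type) (_ : TopologicalSpace Ω) (_ : MeasurableSpace Ω) (P : Measure Ω)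
      (gg : Ω → ℂ → ℂ) (𝔊 : Ω → Ultrafilter Str), G.FSt K (BU K U) Ω P gg 𝔊 := by
  obtain ⟨R, ρ, h⟩ := G.exists_far hK hf
  have hU' : ∀ p ∈ U, APair K p := fun p hp => aPair_iff.2 (hU p hp)
  obtain ⟨Ω, i1, i2, P, gg, 𝔊, hF⟩ := OscD.exists_FSt (oD U hU') h hne (G.sysCnt_all h hne)
    (exists_deep (ad7_of hAD) hK hf U hU' fun p hp p' hp' _ => hc p hp p' hp')
  refine ⟨Ω, i1, i2, P, gg, 𝔊, FSt.mono hF fun t δ hδ => ⟨t, δ, hδ, ?_⟩⟩
  intro S _ hS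
  obtain ⟨h1, h2, h3⟩ := EU_root hS
  refine ⟨h1, fun x hx => ?_, h3⟩
  obtain ⟨A, hA, hxA⟩ := h2 x hx
  exact ⟨A, hA, hxA⟩

/-- a fair law which is adapted to the flattenings of its averages -/
theorem exists_adLaw (hAD : AD) (h45 : P45) (hF : FlatP) (hC : CmpFlatP) {K : Set ℂ}
    (hK : IsCompact K) (hf : Full K) (hne : K.Nonempty) :
    ∃ (U : Set Pair) (Ω : Type) (_ : TopologicalSpace Ω) (_ : MeasurableSpace Ω) (P : Measure Ω)
      (gg : Ω → ℂ → ℂ) (𝔊 : Ω → Ultrafilter Str), G.FSt K (BU K U) Ω P gg 𝔊 ∧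
        AdLaw K P gg 𝔊 := by
  obtain ⟨U, h1, h2, h3⟩ := exists_maxU K
  obtain ⟨Ω, i1, i2, P, gg, 𝔊, h⟩ := exists_law hAD hK hf hne h1 h2
  exact ⟨U, Ω, i1, i2, P, gg, 𝔊, h, adLaw_of h45 hF hC hK hf ⟨h1, h2, h3⟩ h⟩

/-- **the master composition with END'** -/
theorem koebe_P (hAD : AD) (h45 : P45) (hF : FlatP) (hC : CmpFlatP) (hE : EndP)
    (G : Set (OnePoint ℂ)) (hG : IsDom G) : IsKoebe G := by
  refine isKoebe_all (fun K hK hf hne => ?_) G hG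
  obtain ⟨U, Ω, _, _, P, gg, 𝔊, h, hA⟩ := exists_adLaw hAD h45 hF hC hK hf hne
  obtain ⟨ω, hω⟩ := hE hK hf hne h hA
  exact isKoebe_of_good hK hf (h.fine ω) (h.conv ω) (h.nu ω) hω

/-- **the master composition with END** -/
theorem koebe_E (hAD : AD) (h45 : P45) (hF : FlatP) (hC : CmpFlatP) (hE : EndE)
    (G : Set (OnePoint ℂ)) (hG : IsDom G) : IsKoebe G := by
  refine isKoebe_all (fun K hK hf hne => ?_) G hG
  obtain ⟨U, Ω, _, _, P, gg, 𝔊, h, hA⟩ := exists_adLaw hAD h45 hF hC hK hf hne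
  obtain ⟨g₀, hg₀⟩ := hE hAD hK hf hne h hA
  exact isKoebe_of_const hK hf h hg₀

end Vale.Agent.P116.KB
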