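import Mathlib
import Vale.Agent.P116.KB.Top
import Vale.Agent.P116.KF.FlatP
import Vale.Agent.P116.Cl.H779.P45
import Vale.Agent.P116.KB.EndE

/-!
# Full Koebe from the single remaining block [7]
-/

namespace Vale.Agent.P116.KB

open H906 KF

theorem koebe_P3 (hAD : AD) (h45 : P45) (hEnd : EndP) (G : Set (OnePoint ℂ)) (hG : IsDom G) :
    IsKoebe G :=
  koebe_P hAD h45 flatP cmpFlatP hEnd G hG

theorem koebe_E3 (hAD : AD) (h45 : P45) (hEnd : EndE) (G : Set (OnePoint ℂ)) (hG : IsDom G) :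
    IsKoebe G :=
  koebe_E hAD h45 flatP cmpFlatP hEnd G hG

/-- **full Koebe from [7]** -/
theorem koebe_of_AD (hAD : AD) (G : Set (OnePoint ℂ)) (hG : IsDom G) : IsKoebe G :=
  koebe_E hAD Cl.H779.p45 flatP cmpFlatP H221.endE G hG

end Vale.Agent.P116.KB
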