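import Mathlib
import Vale.Agent.P116.KB.Final213
import Vale.Agent.P116.AD.Final

/-!
# Full Koebe
-/

namespace Vale.Agent.P116.KB

open H906 KF

/-- **Koebe's Kreisnormierung**: every domain of the sphere is conformally equivalent to a circle
domain -/
theorem koebe_all (G : Set (OnePoint ℂ)) (hG : IsDom G) : IsKoebe G :=
  koebe_of_AD AD.ad G hG

end Vale.Agent.P116.KB
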