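import Mathlib
import Vale.Agent.P116.KF.Spec
import Vale.Agent.P116.KB.OscAPI
import Vale.Agent.P116.Cl.H555.Mix

/-!
# Full Koebe: a fair law of a maximal compatible family is adapted to the flattenings of its averages
-/

open Set Filter Topology Metric Bornology MeasureTheory
open scoped NNReal

namespace Vale.Agent.P116.KB

open H906 KF

variable {K : Set ℂ}

/-- the budget of finitely many pairs of `U` -/
def BU (K : Set ℂ) (U : Set Pair) (t : Finset ↥U × ℕ) (δ : ℝ) : Set (Set (Set ℂ)) :=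
  {S | (∀ P ∈ S, P ⊆ lev K t.2) ∧ K ⊆ ⋃₀ S ∧
    ∀ f ∈ t.1, ∑ᶠ P ∈ S, oP K f.1.1 f.1.2 P ≤ Eo K f.1.1 f.1.2 + δ}

/-- maximal families of pairwise compatible admissible pairs -/
structure MaxU (K : Set ℂ) (U : Set Pair) : Prop where
  adm : ∀ p ∈ U, AdmP K p
  cmp : ∀ p ∈ U, ∀ p' ∈ U, Cmp K p p'
  max : ∀ p, AdmP K p → (∀ p' ∈ U, Cmp K p p') → p ∈ U

lemma Zs_swap (A : Set ℂ) (u u' : ℂ → ℝ) : Zs K A u' u = Prod.swap ⁻¹' Zs K A u u' := by
  ext q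
  constructor
  · rintro ⟨x, h1, h2, h3, h4, h5⟩
    exact ⟨x, h1, h2, fun h => h3 ⟨h.2, h.1⟩, h5, h4⟩
  · rintro ⟨x, h1, h2, h3, h4, h5⟩
    exact ⟨x, h1, h2, fun h => h3 ⟨h.2, h.1⟩, h5, h4⟩

lemma Zs_null_symm {A : Set ℂ} {u u' : ℂ → ℝ} (h : volume (Zs K A u u') = 0) :
    volume (Zs K A u' u) = 0 := by
  rw [Zs_swap]
  exact (Measure.measurePreserving_swap (μ := (volume : Measure ℝ))
    (ν := (volume : Measure ℝ))).quasiMeasurePreserving.preimage_null h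

lemma Zs_null_mono {A A' : Set ℂ} (hA : A ⊆ A') {u u' : ℂ → ℝ}
    (h : volume (Zs K A' u u') = 0) : volume (Zs K A u u') = 0 :=
  measure_mono_null (fun q hq => by
    obtain ⟨x, h1, h2, h3⟩ := hq
    exact ⟨x, h1, hA h2, h3⟩) h

lemma Zs_empty (u u' : ℂ → ℝ) : Zs K ∅ u u' = ∅ := by
  rw [eq_empty_iff_forall_notMem]
  rintro q ⟨x, -, h, -⟩
  exact h

lemma MaxU.restrict (hK : IsCompact K) {U : Set Pair} (hU : MaxU K U) {p : Pair}
    (hp : p ∈ U) {n : ℕ} {x : ℂ} (hx : x ∈ K) (hw : nd K n x ⊆ p.1) :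
    ((nd K n x, p.2) : Pair) ∈ U := by
  obtain ⟨⟨m, y, hy, hpy⟩, ⟨ρ, hρ⟩, hm⟩ := hU.adm p hp
  refine hU.max _ ⟨⟨n, x, hx, rfl⟩, ⟨ρ, hρ.restrict hw⟩, ?_⟩ fun p' hp' => ?_
  · refine SMon_restrict hw ?_ ?_ hm
    · rw [hpy]
      exact isCompact_nd hK m y
    · exact (PBC.full_nd hK n x).isPreconnected_compl (isCompact_nd hK n x).isBounded
  · exact Zs_null_mono (inter_subset_inter_left _ hw) (hU.cmp p hp p' hp')

section law

variable {U : Set Pair} {Ω : Type} [TopologicalSpace Ω] [MeasurableSpace Ω] {P : Measure Ω}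
  {gg : Ω → ℂ → ℂ} {𝔊 : Ω → Ultrafilter Str}

lemma bud_of (h : G.FSt K (BU K U) Ω P gg 𝔊) {p : Pair} (hp : p ∈ U) (ω : Ω) (N : ℕ) {δ : ℝ}
    (hδ : 0 < δ) : ∀ᶠ S : Str in (𝔊 ω : Filter Str), G.NS K (lev K 0) S.1 ∧ K ⊆ ⋃₀ S.1 ∧
      (∀ A ∈ S.1, A ⊆ lev K N) ∧ ∑ᶠ A ∈ S.1, oP K p.1 p.2 A ≤ Eo K p.1 p.2 + δ := by
  filter_upwards [h.ns ω, h.bud ω ({⟨p, hp⟩}, N) δ hδ] with S h1 h2
  exact ⟨h1, h2.2.1, h2.1, h2.2.2 ⟨p, hp⟩ (Finset.mem_singleton_self _)⟩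

/-- the average is compatible with `(nd K n x, u)` -/
lemma avg_cmp (h45 : P45) (hK : IsCompact K) (hf : Full K) (hU : MaxU K U)
    (h : G.FSt K (BU K U) Ω P gg 𝔊) {n : ℕ} {x : ℂ} (hx : x ∈ K) {u : ℂ → ℝ}
    (hu : ((nd K n x, u) : Pair) ∈ U) {f ρ : ℂ → ℝ} (hfa : IsAvg K P gg f)
    (hfh : Hon K (nd K n x) f ρ) : volume (Zs K (nd K n x) u f) = 0 := by
  have := h.cpt
  have := h.borel
  have := h.prob
  obtain ⟨χ, L, p, hχ, hp, hpb, hfe⟩ := hfa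
  obtain ⟨N, w, S, q, h1, h2, h3, -, h4⟩ := Cl.exists_mix_seq P (G := Kᶜ) (Φ := gg) h.cont hp hpb hχ
    (F := kF fk) (𝔊 := fun ω => (𝔊 ω : Filter Str)) (fun ω => inferInstance) h.conv
    hK.isClosed.isOpen_compl
    (Q := fun j S => G.NS K (lev K 0) S.1 ∧ K ⊆ ⋃₀ S.1 ∧ (∀ A ∈ S.1, A ⊆ lev K j) ∧
      ∑ᶠ A ∈ S.1, oP K (nd K n x) u A ≤ Eo K (nd K n x) u + 1 / ((j:ℝ) + 1))
    (fun j ω => bud_of h hu ω j (by positivity))
  obtain ⟨-, ⟨ρu, hρu⟩, hmu⟩ := hU.adm _ hu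
  refine h45 hK hf hx hρu hmu hfh (N := N) (wt := w) (S := S) (h := fun j i z => χ (z - q j i))
    (L := L) h1 h2 (fun j i => ?_) (fun j i => (h3 j i).1) (fun j i => (h3 j i).2.1)
    (fun m => ?_) (fun δ hδ => ?_) ?_
  · refine LipschitzWith.of_dist_le_mul fun a b => ?_
    refine (hχ.dist_le_mul _ _).trans (le_of_eq ?_)
    rw [dist_sub_right]
  · filter_upwards [eventually_ge_atTop m] with j hj i A hA
    exact ((h3 j i).2.2.1 A hA).trans (lev_anti hj)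
  · obtain ⟨k, hk⟩ := exists_nat_one_div_lt hδ
    filter_upwards [eventually_ge_atTop k] with j hj i
    refine (h3 j i).2.2.2.trans ?_
    have : 1 / ((j:ℝ) + 1) ≤ 1 / ((k:ℝ) + 1) := by
      apply one_div_le_one_div_of_le (by positivity)
      have : (k:ℝ) ≤ j := by exact_mod_cast hj
      linarith
    linarith
  · refine h4.congr_right fun z hz => ?_
    exact (hfe z hz).symm

/-- the flattenings of the averages are in the maximal family -/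
theorem flat_mem (h45 : P45) (hF : FlatP) (hC : CmpFlatP) (hK : IsCompact K) (hf : Full K)
    (hU : MaxU K U) (h : G.FSt K (BU K U) Ω P gg 𝔊) {n : ℕ} {x : ℂ} (hx : x ∈ K) {f ρ : ℂ → ℝ}
    (hfa : IsAvg K P gg f) (hfh : Hon K (nd K n x) f ρ) :
    ∃ v, Hon K (nd K n x) v ρ ∧ SMon K (nd K n x) v ∧ FlatOf K (nd K n x) f v ∧
      ((nd K n x, v) : Pair) ∈ U := by
  obtain ⟨v, hv1, hv2, hv3⟩ := hF hK hf hx hfh
  refine ⟨v, hv1, hv2, hv3, hU.max _ ⟨⟨n, x, hx, rfl⟩, ⟨ρ, hv1⟩, hv2⟩ fun p' hp' => ?_⟩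
  obtain ⟨⟨m, y, hy, hpy⟩, ⟨ρ', hρ'⟩, -⟩ := hU.adm p' hp'
  -- the common node
  have key : ∀ {k : ℕ} {z : ℂ}, z ∈ K → nd K k z ⊆ nd K n x → nd K k z ⊆ p'.1 →
      volume (Zs K (nd K k z) v p'.2) = 0 := by
    intro k z hz h1 h2
    have h3 : ((nd K k z, p'.2) : Pair) ∈ U := hU.restrict hK hp' hz h2
    have h4 := avg_cmp h45 hK hf hU h hz h3 hfa (hfh.restrict h1)
    exact Zs_null_symm (hC hK hf hz (hfh.restrict h1) (hv1.restrict h1) hv3 (hρ'.restrict h2) h4)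
  change volume (Zs K (nd K n x ∩ p'.1) v p'.2) = 0
  rcases (nd K n x ∩ p'.1).eq_empty_or_nonempty with he | hne
  · rw [he, Zs_empty]
    exact measure_empty
  rw [hpy] at hne
  rcases le_total n m with hnm | hnm
  · -- `p'.1` is the smaller one
    have h1 : nd K m y ⊆ nd K n x := nd_nested hnm hne
    refine Zs_null_mono (A' := nd K m y) (by rw [hpy]; exact inter_subset_right) ?_
    exact key hy h1 hpy.symm.subset
  · have h1 : nd K n x ⊆ nd K m y := nd_nested hnm (by rwa [inter_comm])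
    refine Zs_null_mono inter_subset_left ?_
    exact key hx Subset.rfl (h1.trans hpy.symm.subset)

/-- **a fair law of a maximal family is adapted to the flattenings of its averages** -/
theorem adLaw_of (h45 : P45) (hF : FlatP) (hC : CmpFlatP) (hK : IsCompact K) (hf : Full K)
    (hU : MaxU K U) (h : G.FSt K (BU K U) Ω P gg 𝔊) : AdLaw K P gg 𝔊 where
  cov ω := by
    filter_upwards [h.bud ω (∅, 0) 1 one_pos] with S hS
    exact hS.2.1
  flat n x hx f ρ hfa hfh := by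
    obtain ⟨v, h1, h2, h3, h4⟩ := flat_mem h45 hF hC hK hf hU h hx hfa hfh
    refine ⟨v, h1, h2, h3, fun ω δ hδ => ?_⟩
    filter_upwards [bud_of h h4 ω 0 hδ] with S hS
    exact hS.2.2.2
  flat2 n x hx f ρ f' ρ' hfa hfh hfa' hfh' := by
    obtain ⟨v, h1, h2, h3, h4⟩ := flat_mem h45 hF hC hK hf hU h hx hfa hfh
    obtain ⟨v', h1', h2', h3', h4'⟩ := flat_mem h45 hF hC hK hf hU h hx hfa' hfh'
    refine ⟨v, v', h1, h2, h3, h1', h2', h3', ?_⟩
    have := hU.cmp _ h4 _ h4'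
    rw [Cmp, inter_self] at this
    exact this

end law

end Vale.Agent.P116.KB
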