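import Vale.Agent.P116.KB.End
import Vale.Agent.P116.Cl.CfEx

/-!
# Full Koebe, the end game: variance zero
-/

open Set Filter Topology Metric Bornology MeasureTheory

namespace Vale.Agent.P116.KB

open H906 PBC Cl

/-- the total cost of the ends which are not met by a well chosen finite set is small -/
lemma exists_finset_tail {K : Set ℂ} {τ : Set ℂ → ℝ} (h0 : ∀ c, 0 ≤ τ c)
    (hs : Summable fun c : comps K => τ c) {η : ℝ} (hη : 0 < η) :
    ∃ F : Finset ℂ, (∀ x ∈ F, x ∈ K) ∧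
      (∀ x ∈ F, ∀ y ∈ F, x ≠ y → connectedComponentIn K x ≠ connectedComponentIn K y) ∧
      ∑' c : comps K, (open Classical in if ∃ x ∈ F, x ∈ (c : Set ℂ) then 0 else τ c) ≤ η := by
  classical
  have hpt : ∀ c : comps K, ∃ x ∈ K, connectedComponentIn K x = c := by
    rintro ⟨c, x, hx, rfl⟩
    exact ⟨x, hx, rfl⟩
  choose pt hptK hpt using hpt
  have hmem : ∀ c : comps K, pt c ∈ (c : Set ℂ) := fun c => by
    have := mem_connectedComponentIn (hptK c)
    rwa [hpt c] at this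
  obtain ⟨T, hT⟩ := summable_iff_vanishing_norm.1 hs η hη
  refine ⟨T.image pt, ?_, ?_, ?_⟩
  · intro x hx
    obtain ⟨c, -, rfl⟩ := Finset.mem_image.1 hx
    exact hptK c
  · intro x hx y hy hxy
    obtain ⟨c, -, rfl⟩ := Finset.mem_image.1 hx
    obtain ⟨c', -, rfl⟩ := Finset.mem_image.1 hy
    rw [hpt c, hpt c']
    intro h
    exact hxy (congrArg pt (Subtype.ext h))
  · have hle : ∀ c : comps K, (if ∃ x ∈ T.image pt, x ∈ (c : Set ℂ) then 0 else τ c) ≤
        if c ∈ T then 0 else τ c := by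
      intro c
      by_cases hc : c ∈ T
      · rw [if_pos hc, if_pos ⟨pt c, Finset.mem_image_of_mem _ hc, hmem c⟩]
      · rw [if_neg hc]
        split_ifs
        · exact h0 c
        · exact le_rfl
    have hnn : ∀ c : comps K, 0 ≤ (if ∃ x ∈ T.image pt, x ∈ (c : Set ℂ) then 0 else τ c) := by
      intro c
      split_ifs
      · exact le_rfl
      · exact h0 c
    refine Real.tsum_le_of_sum_le hnn fun s => ?_
    calc ∑ c ∈ s, (if ∃ x ∈ T.image pt, x ∈ (c : Set ℂ) then 0 else τ c)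
        ≤ ∑ c ∈ s, (if c ∈ T then 0 else τ c) := Finset.sum_le_sum fun c _ => hle c
      _ = ∑ c ∈ s \ T, τ c := by
          rw [Finset.sum_ite]
          simp only [Finset.sum_const_zero, zero_add]
          congr 1
          ext c
          simp
      _ ≤ η := by
          have h1 := hT (s \ T) Finset.sdiff_disjoint
          rw [Real.norm_eq_abs] at h1
          exact (le_abs_self _).trans h1.le

/-- Jensen -/
lemma sq_integral_le {Ω : Type} [MeasurableSpace Ω] {P : Measure Ω} [IsProbabilityMeasure P]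
    {r : Ω → ℝ} (h1 : Integrable r P) (h2 : Integrable (fun ω => r ω ^ 2) P) :
    (∫ ω, r ω ∂P) ^ 2 ≤ ∫ ω, r ω ^ 2 ∂P := by
  set m := ∫ ω, r ω ∂P with hm
  have h3 : 0 ≤ ∫ ω, (r ω - m) ^ 2 ∂P := integral_nonneg fun ω => sq_nonneg _
  have e : (fun ω => (r ω - m) ^ 2) = fun ω => (r ω ^ 2 - 2 * m * r ω) + m ^ 2 := by
    funext ω
    ring
  have h4 : ∫ ω, (r ω - m) ^ 2 ∂P = (∫ ω, r ω ^ 2 ∂P) - 2 * m * m + m ^ 2 := by
    have e1 : ∫ ω, (r ω ^ 2 - 2 * m * r ω) + m ^ 2 ∂P =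
        (∫ ω, (r ω ^ 2 - 2 * m * r ω) ∂P) + ∫ _ω, m ^ 2 ∂P :=
      integral_add (h2.sub (h1.const_mul _)) (integrable_const _)
    have e2 : ∫ ω, (r ω ^ 2 - 2 * m * r ω) ∂P = (∫ ω, r ω ^ 2 ∂P) - ∫ ω, 2 * m * r ω ∂P :=
      integral_sub h2 (h1.const_mul _)
    rw [e, e1, e2, integral_const_mul, ← hm, integral_const]
    simp
  rw [h4] at h3
  nlinarith

/-- an analytic function on `Kᶜ` which tends to `0` at infinity and has derivative `0` near a point
vanishes -/
lemma eqOn_zero_of_deriv {K : Set ℂ} (hK : IsCompact K) (hf : Full K) {d : ℂ → ℂ}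
    (hd : DifferentiableOn ℂ d Kᶜ) (h0 : Tendsto d (cobounded ℂ) (𝓝 0)) {z₀ : ℂ} (hz₀ : z₀ ∈ Kᶜ)
    (h1 : deriv d =ᶠ[𝓝 z₀] 0) : EqOn d 0 Kᶜ := by
  have hO : IsOpen Kᶜ := hK.isClosed.isOpen_compl
  have hc : IsPreconnected Kᶜ := hf.isPreconnected_compl hK.isBounded
  have ha : AnalyticOnNhd ℂ (deriv d) Kᶜ := (hd.deriv hO).analyticOnNhd hO
  have h2 : EqOn (deriv d) 0 Kᶜ := ha.eqOn_zero_of_preconnected_of_eventuallyEq_zero hc hz₀ h1
  obtain ⟨a, ha⟩ := hO.exists_is_const_of_deriv_eq_zero hc hd h2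
  have h3 : ∀ᶠ z in cobounded ℂ, d z = a := by
    have h4 : Kᶜ ∈ cobounded ℂ := hK.isBounded
    filter_upwards [h4] with z hz using ha z hz
  have h5 : a = 0 := tendsto_nhds_unique (tendsto_const_nhds.congr' (h3.mono fun z hz => hz.symm)) h0
  intro z hz
  rw [ha z hz, h5]
  rfl

/-- **variance zero** -/
theorem var0 (hLB : LB) (hVAR : VAR) (hAR : AR) : VAR0 := by
  classical
  intro K Ω _ _ P g h a r hr hdj τ hτ0 hτs hTM
  have hprob := h.prob
  have hK := h.Kc
  have hf := h.full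
  obtain ⟨R₀, hR₀, hRK⟩ := lev_bdd hK 0
  have hKR : K ⊆ closedBall 0 R₀ := (subset_lev 0).trans hRK
  obtain ⟨χ, hχ⟩ := cfEx hR₀
  obtain ⟨v1, v2, v3, v4, v5, v6, v7, v8, v9⟩ := hVAR h hR₀ hKR hχ
  set f := avg P g with hfdef
  -- the variance is small
  have hsmall : ∀ η > 0, ∫ ω, enr Kᶜ χ (fun z => ‖deriv (g ω) z - deriv f z‖) ∂P ≤ 3 * η := by
    intro η hη
    obtain ⟨F, hFK, hFd, hFt⟩ := exists_finset_tail hτ0 hτs hη
    have h1 := hLB h hr v1 v2 hτ0 hτs hTM hR₀ hRK hχ v3 F hFK hFd hη hFt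
    -- the area inequality for almost all maps
    have hdisk : ∀ᵐ ω ∂P, ∀ x ∈ F, G.DiskAt K (g ω) x (a x ω) (r x ω) :=
      (ae_ball_iff F.countable_toSet).2 fun x hx => hr.disk x (hFK x hx)
    have hdj2 : ∀ᵐ ω ∂P, ∀ x ∈ F, ∀ y ∈ F, x ≠ y →
        Disjoint (closedBall (a x ω) (r x ω)) (closedBall (a y ω) (r y ω)) := by
      refine (ae_ball_iff F.countable_toSet).2 fun x hx => (ae_ball_iff F.countable_toSet).2
        fun y hy => ?_
      by_cases hxy : x = y
      · exact Eventually.of_forall fun ω hne => absurd hxy hne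
      · filter_upwards [hdj x (hFK x hx) y (hFK y hy) (hFd x hx y hy hxy)] with ω hω _ using hω
    have h2 : ∀ᵐ ω ∂P, enr Kᶜ χ (fun z => ‖deriv (g ω) z‖) + Real.pi * ∑ x ∈ F, r x ω ^ 2 ≤
        ar χ (g ω) (g ω) := by
      filter_upwards [hdisk, hdj2] with ω hω hω2
      set D : Set ℂ := ⋃ x ∈ F, closedBall (a x ω) (r x ω) with hD
      have hDm : MeasurableSet D := Finset.measurableSet_biUnion F fun x _ =>
        isClosed_closedBall.measurableSet
      have hDd : Disjoint D (g ω '' Kᶜ) := by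
        rw [disjoint_left]
        intro w hw hw2
        obtain ⟨x, hx, hwx⟩ := mem_iUnion₂.1 hw
        exact (hω x hx).compl hwx hw2
      have h3 := (hAR hK (h.nu ω) hDm hDd hR₀ hKR hχ).2
      have h4 : (volume D).toReal = Real.pi * ∑ x ∈ F, r x ω ^ 2 := by
        rw [hD, measure_biUnion_finset (fun x hx y hy hxy => hω2 x hx y hy hxy)
          (fun x _ => isClosed_closedBall.measurableSet)]
        rw [ENNReal.toReal_sum (fun x _ => (isCompact_closedBall _ _).measure_lt_top.ne),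
          Finset.mul_sum]
        refine Finset.sum_congr rfl fun x hx => ?_
        rw [Complex.volume_closedBall]
        have hrn := hr.nn x (hFK x hx) ω
        rw [ENNReal.toReal_mul, ENNReal.toReal_pow, ENNReal.toReal_ofReal hrn]
        simp [NNReal.coe_real_pi]
        ring
      rw [h4] at h3
      exact h3
    have hint : Integrable (fun ω => Real.pi * ∑ x ∈ F, r x ω ^ 2) P :=
      (integrable_finset_sum F fun x hx => hr.int2 x (hFK x hx)).const_mul _
    have h5 : (∫ ω, enr Kᶜ χ (fun z => ‖deriv (g ω) z‖) ∂P) +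
        Real.pi * ∑ x ∈ F, ∫ ω, r x ω ^ 2 ∂P ≤ ∫ ω, ar χ (g ω) (g ω) ∂P := by
      have h6 := integral_mono_ae (v6.add hint) v4 h2
      simp only [Pi.add_apply] at h6
      rw [integral_add v6 hint, integral_const_mul,
        integral_finset_sum F fun x hx => hr.int2 x (hFK x hx)] at h6
      exact h6
    have h6 : ∑ x ∈ F, (∫ ω, r x ω ∂P) ^ 2 ≤ ∑ x ∈ F, ∫ ω, r x ω ^ 2 ∂P :=
      Finset.sum_le_sum fun x hx => sq_integral_le (hr.int x (hFK x hx)) (hr.int2 x (hFK x hx))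
    have h7 := mul_le_mul_of_nonneg_left h6 Real.pi_pos.le
    linarith
  have hnn : ∀ ω, 0 ≤ enr Kᶜ χ (fun z => ‖deriv (g ω) z - deriv f z‖) := fun ω =>
    setIntegral_nonneg hK.isClosed.isOpen_compl.measurableSet fun z _ =>
      mul_nonneg (hχ.nn z) (sq_nonneg _)
  have hzero : ∫ ω, enr Kᶜ χ (fun z => ‖deriv (g ω) z - deriv f z‖) ∂P = 0 := by
    refine le_antisymm ?_ (integral_nonneg hnn)
    refine le_of_forall_pos_le_add fun ε hε => ?_
    have := hsmall (ε / 3) (by positivity)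
    linarith
  have hae := (integral_eq_zero_iff_of_nonneg hnn v7).1 hzero
  filter_upwards [hae] with ω hω
  -- the derivative vanishes near a point
  have hO : IsOpen Kᶜ := hK.isClosed.isOpen_compl
  have h8 := (setIntegral_eq_zero_iff_of_nonneg_ae (Eventually.of_forall fun z =>
    mul_nonneg (hχ.nn z) (sq_nonneg _)) (v8 ω)).1 hω
  have h9 : ∀ᵐ z, z ∈ Kᶜ → χ z * ‖deriv (g ω) z - deriv f z‖ ^ 2 = 0 :=
    (ae_restrict_iff' hO.measurableSet).1 h8
  set z₀ : ℂ := ((R₀ + 1 / 2 : ℝ) : ℂ) with hz₀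
  have hnz : ‖z₀‖ = R₀ + 1 / 2 := by
    rw [hz₀, Complex.norm_real, Real.norm_of_nonneg (by positivity)]
  have hball : ball z₀ (1 / 4) ⊆ Kᶜ ∩ closedBall 0 (R₀ + 1) := by
    intro z hz
    rw [mem_ball, dist_eq_norm] at hz
    have h10 : ‖z₀‖ ≤ ‖z‖ + ‖z - z₀‖ := by
      rw [norm_sub_rev]
      calc ‖z₀‖ = ‖z + (z₀ - z)‖ := by congr 1; ring
        _ ≤ _ := norm_add_le _ _
    have h11 : ‖z‖ ≤ ‖z₀‖ + ‖z - z₀‖ := by
      calc ‖z‖ = ‖z₀ + (z - z₀)‖ := by congr 1; ring
        _ ≤ _ := norm_add_le _ _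
    refine ⟨fun hzK => ?_, ?_⟩
    · have := hKR hzK
      rw [mem_closedBall, dist_zero_right] at this
      linarith
    · rw [mem_closedBall, dist_zero_right]
      linarith
  have hcont : ContinuousOn (fun z => ‖deriv (g ω) z - deriv f z‖) Kᶜ :=
    ((((h.nu ω).diff.deriv hO).continuousOn.sub (v1.deriv hO).continuousOn)).norm
  have h10 : ∀ z ∈ ball z₀ (1 / 4), deriv (g ω) z - deriv f z = 0 := by
    intro z hz
    by_contra hne
    have hpos : 0 < ‖deriv (g ω) z - deriv f z‖ := norm_pos_iff.2 hne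
    have hopen : ∀ᶠ y in 𝓝 z, 0 < ‖deriv (g ω) y - deriv f y‖ ∧ y ∈ ball z₀ (1 / 4) :=
      ((hcont.continuousAt (hO.mem_nhds (hball hz).1)).eventually (lt_mem_nhds hpos)).and
        (isOpen_ball.mem_nhds hz)
    obtain ⟨δ, hδ, hb⟩ := Metric.eventually_nhds_iff_ball.1 hopen
    have h11 : volume (ball z δ) = 0 := by
      refine measure_mono_null (fun y hy => ?_) (ae_iff.1 h9)
      have h12 := hb y hy
      intro hcon
      have h13 := hcon (hball h12.2).1
      rw [hχ.one y (hball h12.2).2, one_mul] at h13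
      exact h12.1.ne' (by simpa using h13)
    exact (measure_ball_pos volume z hδ).ne' h11
  have hdd : DifferentiableOn ℂ (fun z => g ω z - f z) Kᶜ := (h.nu ω).diff.sub v1
  have hd0 : Tendsto (fun z => g ω z - f z) (cobounded ℂ) (𝓝 0) := by
    have := (h.nu ω).norm.sub v2
    rw [sub_zero] at this
    refine this.congr fun z => by ring
  have hz₀K : z₀ ∈ Kᶜ := (hball (mem_ball_self (by norm_num))).1
  have h11 : deriv (fun z => g ω z - f z) =ᶠ[𝓝 z₀] 0 := by
    filter_upwards [isOpen_ball.mem_nhds (mem_ball_self (x := z₀) (by norm_num : (0:ℝ) < 1 / 4))]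
      with z hz
    have hzK := (hball hz).1
    rw [deriv_fun_sub ((h.nu ω).diff.differentiableAt (hO.mem_nhds hzK))
      (v1.differentiableAt (hO.mem_nhds hzK)), h10 z hz]
    rfl
  have h12 := eqOn_zero_of_deriv hK hf hdd hd0 hz₀K h11
  intro z hz
  exact sub_eq_zero.1 (h12 hz)

end Vale.Agent.P116.KB
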