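import Vale.Agent.P116.KB.EndAsm

/-!
# Full Koebe, the end game: the join
-/

open Set Filter Topology Metric Bornology MeasureTheory

namespace Vale.Agent.P116.KB

open H906 PBC Cl

/-- the law part of a fair law -/
theorem avH_of_fst {K : Set ℂ} (hK : IsCompact K) (hf : Full K) {Par : Type}
    {B : Par → ℝ → Set (Set (Set ℂ))} {Ω : Type} [TopologicalSpace Ω] [MeasurableSpace Ω]
    {P : Measure Ω} {g : Ω → ℂ → ℂ} {𝔊 : Ω → Ultrafilter Str} (h : G.FSt K B Ω P g 𝔊) :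
    AvH K Ω P g :=
  ⟨hK, hf, h.cpt, h.metr, h.borel, h.prob, h.cont, h.nu⟩

/-- **the end**: a fair law with test maps gives a circle domain -/
theorem end_koebe (hV : VAR0) {K : Set ℂ} (hK : IsCompact K) (hf : Full K) {Par : Type}
    {B : Par → ℝ → Set (Set (Set ℂ))} {Ω : Type} [TopologicalSpace Ω] [MeasurableSpace Ω]
    {P : Measure Ω} {g : Ω → ℂ → ℂ} {𝔊 : Ω → Ultrafilter Str} (h : G.FSt K B Ω P g 𝔊)
    {a : ℂ → Ω → ℂ} {r : ℂ → Ω → ℝ} (hr : Rad K P g a r) {τ : Set ℂ → ℝ} (hτ0 : ∀ c, 0 ≤ τ c)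
    (hτs : Summable fun c : comps K => τ c) (hTM : TM K (avg P g) τ) :
    ∃ g₀ : ℂ → ℂ, NU Kᶜ g₀ ∧ ∀ w ∉ g₀ '' Kᶜ, ∃ (c : ℂ) (r : ℝ), 0 ≤ r ∧
      connectedComponentIn (g₀ '' Kᶜ)ᶜ w = closedBall c r := by
  refine ⟨avg P g, G.koebe_of_const hK hf h (hV (avH_of_fst hK hf h) hr ?_ hτ0 hτs hTM)⟩
  intro x hx y hy hxy
  filter_upwards [h.good x hx, h.good y hy, hr.disk x hx, hr.disk y hy] with ω h1 h2 h3 h4
  exact G.disk_disj hK hf (h.fine ω) (h.conv ω) hx hy hxy h1 h2 h3 h4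

end Vale.Agent.P116.KB
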