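import Vale.Agent.P116.KB.End
import Vale.Agent.P116.KB.TopDef
import Vale.Agent.P116.Cl.H521.Av
import Vale.Agent.P116.KB.AV2

/-!
# The real and imaginary part of the average are honest on every node
-/

open Set Filter Topology Metric Bornology MeasureTheory

namespace Vale.Agent.P116.KB

open H906

section

variable {K : Set ℂ} {Ω : Type} [TopologicalSpace Ω] [MeasurableSpace Ω] {P : Measure Ω}
  {g : Ω → ℂ → ℂ}

lemma avg_eq_av : avg P g = H521.av P g := rfl

lemma AvH.diff (h : AvH K Ω P g) : DifferentiableOn ℂ (avg P g) Kᶜ := by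
  have := h.cpt
  have := h.borel
  have := h.prob
  exact H521.av_diff h.Kc h.cont h.nu

lemma AvH.deriv_cont (h : AvH K Ω P g) : ContinuousOn (deriv (avg P g)) Kᶜ :=
  (h.diff.deriv h.Kc.isClosed.isOpen_compl).continuousOn

/-- the average is bounded on bounded sets -/
lemma AvH.bdd (h : AvH K Ω P g) {A : Set ℂ} (hA : IsBounded A) :
    ∃ B, ∀ z ∈ A, z ∉ K → ‖avg P g z‖ ≤ B := by
  have := h.cpt
  have := h.borel
  have := h.prob
  obtain ⟨R, hR⟩ := (hA.union h.Kc.isBounded).subset_closedBall 0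
  refine ⟨5 * max R 1, fun z hz hzK => ?_⟩
  refine H521.av_bound h.nu (lt_max_of_lt_right one_pos) ?_ hzK ?_
  · exact (subset_union_right.trans hR).trans (closedBall_subset_closedBall (le_max_left _ _))
  · have h1 := hR (Or.inl hz)
    rw [mem_closedBall, dist_zero_right] at h1
    exact h1.trans (le_max_left _ _)

/-- the energy of the average is finite on bounded sets -/
lemma AvH.en (h : AvH K Ω P g) {A : Set ℂ} (hA : IsBounded A) :
    ∫⁻ z in A \ K, ENNReal.ofReal (‖deriv (avg P g) z‖ ^ 2) < ⊤ := by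
  have := h.cpt
  have := h.borel
  have := h.prob
  obtain ⟨R₁, hR₁⟩ := (hA.union h.Kc.isBounded).subset_closedBall 0
  set R : ℝ := max R₁ 0 + 1 with hRdef
  have hR : 0 < R := by positivity
  have hball : closedBall (0:ℂ) R₁ ⊆ ball 0 R := by
    refine closedBall_subset_ball ?_
    have := le_max_left R₁ 0
    linarith
  have hKR : K ⊆ ball 0 R := (subset_union_right.trans hR₁).trans hball
  have hAR : A ⊆ ball 0 R := (subset_union_left.trans hR₁).trans hball
  have hm : MeasurableSet (ball (0:ℂ) R \ K) := measurableSet_ball.diff h.Kc.measurableSet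
  refine (lintegral_mono_set (show A \ K ⊆ ball 0 R \ K from
    diff_subset_diff_left hAR)).trans_lt ?_
  have h1 := H521.av_var (P := P) h.Kc h.cont h.nu (A := ball (0:ℂ) R \ K)
    (fun z hz => hz.2) hm
  have h2 : ∫⁻ z in ball (0:ℂ) R \ K, ENNReal.ofReal (‖deriv (avg P g) z‖ ^ 2) ≤
      ∫⁻ ω, ∫⁻ z in ball (0:ℂ) R \ K, ENNReal.ofReal (‖deriv (g ω) z‖ ^ 2) ∂volume ∂P := by
    rw [← h1]
    exact le_self_add
  refine h2.trans_lt ?_
  have h3 : ∀ ω, ∫⁻ z in ball (0:ℂ) R \ K, ENNReal.ofReal (‖deriv (g ω) z‖ ^ 2) ≤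
      ENNReal.ofReal (Real.pi * R ^ 2) := by
    intro ω
    have h4 := area_disks h.Kc (h.nu ω) hR hKR (∅ : Finset ℕ) (fun _ => 0) (fun _ => 0)
      (by simp) (by simp) (by simp)
    simpa using h4
  calc ∫⁻ ω, ∫⁻ z in ball (0:ℂ) R \ K, ENNReal.ofReal (‖deriv (g ω) z‖ ^ 2) ∂volume ∂P
      ≤ ∫⁻ _, ENNReal.ofReal (Real.pi * R ^ 2) ∂P := lintegral_mono fun ω => h3 ω
    _ = ENNReal.ofReal (Real.pi * R ^ 2) := by simp
    _ < ⊤ := ENNReal.ofReal_lt_top

/-- upper gradients of real Lipschitz functions of an analytic function -/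
lemma ugr_of_diff {G : Set ℂ} (hG : IsOpen G) {f : ℂ → ℂ} (hf : DifferentiableOn ℂ f G)
    {q : ℂ → ℝ} (hq : ∀ x y, |q x - q y| ≤ ‖x - y‖) :
    KF.UGr G (fun z => q (f z)) (fun z => ‖deriv f z‖) := by
  intro x y hxy M hM
  have h1 := (convex_segment x y).norm_image_sub_le_of_norm_deriv_le (f := f)
    (fun z hz => hf.differentiableAt (hG.mem_nhds (hxy hz))) (fun z hz => hM z hz)
    (right_mem_segment ℝ x y) (left_mem_segment ℝ x y)
  exact (hq _ _).trans h1

/-- **honest averages**: real parts, imaginary parts, and all `1`-Lipschitz functions of the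
average -/
theorem AvH.hon (h : AvH K Ω P g) {w : Set ℂ} (hw : IsBounded w) {q : ℂ → ℝ}
    (hq : ∀ x y, |q x - q y| ≤ ‖x - y‖)
    (hs : Summable fun c : comps K => oc K w (fun z => q (avg P g z)) c) :
    Hon K w (fun z => q (avg P g z)) (fun z => ‖deriv (avg P g) z‖) where
  cont := by
    have hqc : Continuous q := by
      refine (LipschitzWith.of_dist_le_mul (K := 1) fun x y => ?_).continuous
      rw [Real.dist_eq, NNReal.coe_one, one_mul, dist_eq_norm]
      exact hq x y
    exact hqc.comp_continuousOn h.diff.continuousOn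
  bdd := by
    obtain ⟨B, hB⟩ := h.bdd (isCompact_lev h.Kc 0).isBounded
    refine ⟨|q 0| + B, fun z hz hzK => ?_⟩
    have h1 := hq (avg P g z) 0
    rw [sub_zero] at h1
    have h2 := hB z hz hzK
    have h3 := abs_add_le (q (avg P g z) - q 0) (q 0)
    rw [sub_add_cancel] at h3
    linarith
  rc := h.deriv_cont.norm
  rnn _ _ := norm_nonneg _
  maj := ugr_of_diff h.Kc.isClosed.isOpen_compl h.diff hq
  en := h.en hw
  sum := hs

lemma re_lip (x y : ℂ) : |x.re - y.re| ≤ ‖x - y‖ := by
  rw [← Complex.sub_re]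
  exact Complex.abs_re_le_norm _

lemma im_lip (x y : ℂ) : |x.im - y.im| ≤ ‖x - y‖ := by
  rw [← Complex.sub_im]
  exact Complex.abs_im_le_norm _

theorem AvH.hon_re (h : AvH K Ω P g) {w : Set ℂ} (hw : IsBounded w)
    (hs : Summable fun c : comps K => oc K w (fun z => (avg P g z).re) c) :
    Hon K w (fun z => (avg P g z).re) (fun z => ‖deriv (avg P g) z‖) :=
  h.hon hw (q := Complex.re) re_lip hs

theorem AvH.hon_im (h : AvH K Ω P g) {w : Set ℂ} (hw : IsBounded w)
    (hs : Summable fun c : comps K => oc K w (fun z => (avg P g z).im) c) :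
    Hon K w (fun z => (avg P g z).im) (fun z => ‖deriv (avg P g) z‖) :=
  h.hon hw (q := Complex.im) im_lip hs

end

end Vale.Agent.P116.KB
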