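import Vale.Agent.P116.KB.TM906
import Vale.Agent.P116.KB.EndSum
import Vale.Agent.P116.KB.HonAvg
import Vale.Agent.P116.KB.EndJoin
import Vale.Agent.P116.KB.EndRad
import Vale.Agent.P116.KF.Spec

/-!
# Full Koebe: the end game (E3), join

`endE_of`: VAR0 gives END.
-/

open Set Filter Topology Metric Bornology MeasureTheory
open scoped NNReal

namespace Vale.Agent.P116.KB.T906

open H906 PBC Slow KF Cl

variable {K : Set ℂ} {Ω : Type} [TopologicalSpace Ω] [MeasurableSpace Ω] {P : Measure Ω}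
  {g : Ω → ℂ → ℂ}

omit [TopologicalSpace Ω] in
lemma isAvg_re (hi : ∀ z ∉ K, Integrable (fun ω => g ω z) P) :
    IsAvg K P g (fun z => (avg P g z).re) := by
  refine ⟨Complex.re, 1, fun _ => 0, ?_, measurable_const, ?_, fun z hz => ?_⟩
  · refine LipschitzWith.of_dist_le_mul fun x y => ?_
    rw [NNReal.coe_one, one_mul, Real.dist_eq, dist_eq_norm, ← Complex.sub_re]
    exact Complex.abs_re_le_norm _
  · exact (Set.finite_range_const (c := (0:ℂ))).isBounded
  · simp only [sub_zero]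
    exact (Complex.reCLM.integral_comp_comm (hi z hz)).symm

omit [TopologicalSpace Ω] in
lemma isAvg_im (hi : ∀ z ∉ K, Integrable (fun ω => g ω z) P) :
    IsAvg K P g (fun z => (avg P g z).im) := by
  refine ⟨Complex.im, 1, fun _ => 0, ?_, measurable_const, ?_, fun z hz => ?_⟩
  · refine LipschitzWith.of_dist_le_mul fun x y => ?_
    rw [NNReal.coe_one, one_mul, Real.dist_eq, dist_eq_norm, ← Complex.sub_im]
    exact Complex.abs_im_le_norm _
  · exact (Set.finite_range_const (c := (0:ℂ))).isBounded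
  · simp only [sub_zero]
    exact (Complex.imCLM.integral_comp_comm (hi z hz)).symm

/-- a fair law which is adapted to the flattenings of its averages has test maps -/
theorem tm_of_adLaw (hAD : AD) (hA : AvH K Ω P g) {a : ℂ → Ω → ℂ} {r : ℂ → Ω → ℝ}
    (hR : Rad K P g a r)
    (hd : ∀ x ∈ K, ∀ y ∈ K, connectedComponentIn K x ≠ connectedComponentIn K y → ∀ᵐ ω ∂P,
      Disjoint (closedBall (a x ω) (r x ω)) (closedBall (a y ω) (r y ω)))
    {𝔊 : Ω → Ultrafilter Str} (hL : AdLaw K P g 𝔊) :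
    ∃ τ : Set ℂ → ℝ, (∀ c, 0 ≤ τ c) ∧ (Summable fun c : comps K => τ c) ∧
      TM K (avg P g) τ := by
  classical
  have := hA.cpt
  have := hA.borel
  have := hA.prob
  have hi : ∀ z ∉ K, Integrable (fun ω => g ω z) P := fun z hz =>
    H521.int_of_cont (H521.cont_at hA.cont hz)
  have hbd : ∀ n x, IsBounded (nd K n x) := fun n x => (isCompact_nd hA.Kc n x).isBounded
  have hre : ∀ n x, Hon K (nd K n x) (fun z => (avg P g z).re) (fun z => ‖deriv (avg P g) z‖) :=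
    fun n x => hon_re hA hR hd (hbd n x)
  have him : ∀ n x, Hon K (nd K n x) (fun z => (avg P g z).im) (fun z => ‖deriv (avg P g) z‖) :=
    fun n x => hon_im hA hR hd (hbd n x)
  set τ : Set ℂ → ℝ := fun c => if h : c ∈ comps K then (2 * ∫ ω, r (rp ⟨c, h⟩) ω ∂P) ^ 2 else 0
    with hτdef
  have hτ : ∀ c : comps K, τ c = (2 * ∫ ω, r (rp c) ω ∂P) ^ 2 := fun c => by
    simp only [hτdef, Subtype.coe_prop, dif_pos, Subtype.coe_eta]
  have hτ0 : ∀ c, 0 ≤ τ c := by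
    intro c
    simp only [hτdef]
    split_ifs
    · positivity
    · exact le_rfl
  have hτs : Summable fun c : comps K => τ c := by
    simp only [hτ]
    exact summable_rad hA hR hd
  -- flattenings
  have hflat : ∀ {n : ℕ} {x : ℂ} {f v : ℂ → ℝ}, Hon K (nd K n x) v (fun z => ‖deriv (avg P g) z‖) →
      FlatOf K (nd K n x) f v →
      (∀ y ∈ K, oscC K f (connectedComponentIn K y) ≤ 2 * ∫ ω, r y ω ∂P) →
      ∀ c ∈ comps K, c ⊆ nd K n x → oscC K v c ^ 2 ≤ τ c := by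
    intro n x f v hv hF ho c hc _
    have h1 : oscC K v c ≤ 2 * ∫ ω, r (rp ⟨c, hc⟩) ω ∂P := by
      refine (hF.oscC c hc).trans ?_
      have h2 := ho _ (rp_mem ⟨c, hc⟩)
      rwa [rp_comp ⟨c, hc⟩] at h2
    have h3 : τ c = (2 * ∫ ω, r (rp ⟨c, hc⟩) ω ∂P) ^ 2 := hτ ⟨c, hc⟩
    rw [h3]
    exact pow_le_pow_left₀ (oscC_nonneg hv.bdK hc) h1 2
  have hKo : IsOpen Kᶜ := hA.Kc.isClosed.isOpen_compl
  refine ⟨τ, hτ0, hτs, ?_⟩
  by_cases hne : K.Nonempty
  · obtain ⟨x₀, hx₀⟩ := hne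
    refine tm_of hA.Kc hA.full ?_ ?_ hτ0 hτs (fun n x hx => ?_) ?_
    · exact ugr_maj hKo (hre 0 x₀).maj (hre 0 x₀).rc (hre 0 x₀).rnn
    · exact ugr_maj hKo (him 0 x₀).maj (him 0 x₀).rc (him 0 x₀).rnn
    · obtain ⟨v, v', h1, h2, h3, h4, h5, h6, h7⟩ := hL.flat2 n x hx _ _ _ _ (isAvg_re hi) (hre n x)
        (isAvg_im hi) (him n x)
      exact ⟨v, v', h1, h4, h2, h5, h3.off, h6.off, h7,
        hflat h1 h3 fun y hy => oscC_re_le hA hR hy, hflat h4 h6 fun y hy => oscC_im_le hA hR hy⟩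
    · intro K hK hf n x hx m u ρ h1 h2 h3 δ hδ
      exact hAD hK hf hx (ι := Fin m) (u := u) (fun i => ⟨ρ i, h1 i⟩) h2 h3 hδ
  · rw [not_nonempty_iff_eq_empty] at hne
    refine tm_of hA.Kc hA.full ?_ ?_ hτ0 hτs (fun n x hx => ?_) ?_
    · have h := hon_re hA hR hd (w := ∅) isBounded_empty
      exact ugr_maj hKo h.maj h.rc h.rnn
    · have h := hon_im hA hR hd (w := ∅) isBounded_empty
      exact ugr_maj hKo h.maj h.rc h.rnn
    · rw [hne] at hx
      exact hx.elim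
    · intro K hK hf n x hx m u ρ h1 h2 h3 δ hδ
      exact hAD hK hf hx (ι := Fin m) (u := u) (fun i => ⟨ρ i, h1 i⟩) h2 h3 hδ

/-- **END** from VAR0 -/
theorem endE_of (hV : VAR0) : EndE := by
  intro hAD K hK hf hne Par B Ω _ _ P gg 𝔊 h hL
  have hA := avH_of_fst hK hf h
  obtain ⟨a, r, hR, hd⟩ := exists_rad hK hf h
  obtain ⟨τ, hτ0, hτs, hTM⟩ := tm_of_adLaw hAD hA hR hd hL
  exact ⟨avg P gg, hV hA hR hd hτ0 hτs hTM⟩

end Vale.Agent.P116.KB.T906
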