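import Vale.Agent.P116.KB.EndE906
import Vale.Agent.P116.KB.EndLB
import Vale.Agent.P116.KB.EndVar
import Vale.Agent.P116.Cl.E0
import Vale.Agent.P116.Cl.AR

/-!
# Full Koebe: the end game (E3), closed
-/

namespace Vale.Agent.P116.KB.T906

open Cl KF

/-- VAR0 -/
theorem var0_all : VAR0 := var0 (lb e0) (var e0d ar_proof) ar_proof

/-- **END** -/
theorem endE : EndE := endE_of var0_all

end Vale.Agent.P116.KB.T906
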