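import Vale.Agent.P116.KB.End
import Vale.Agent.P116.KB.OscAPI
import Vale.Agent.P116.KB.Z2
import Vale.Agent.P116.KF.Spec
import Vale.Agent.P116.KF.FL2
import Vale.Agent.P116.Cl.H521.Av

/-!
# Full Koebe, the end game: test maps from the adapted law

The flattenings of the real and of the imaginary part of the average map in the nodes of level `k`
are glued; [7] gives the adapted structures in the nodes.
-/

open Set Filter Topology Metric Bornology MeasureTheory

namespace Vale.Agent.P116.KB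

open H906 PBC Slow

section avgfun

variable {K : Set ℂ} {Ω : Type} [TopologicalSpace Ω] [MeasurableSpace Ω] {P : Measure Ω}
  {g : Ω → ℂ → ℂ}

lemma isAvg_re (hA : AvH K Ω P g) : KF.IsAvg K P g (fun z => (avg P g z).re) := by
  have := hA.prob
  have := hA.cpt
  have := hA.borel
  refine ⟨Complex.re, 1, fun _ => 0, ?_, measurable_const, ?_, fun z hz => ?_⟩
  · refine LipschitzWith.of_dist_le_mul fun x y => ?_
    rw [Real.dist_eq, ← Complex.sub_re, dist_eq_norm, NNReal.coe_one, one_mul]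
    exact Complex.abs_re_le_norm _
  · refine (isBounded_singleton (x := (0:ℂ))).subset ?_
    rintro _ ⟨ω, rfl⟩
    rfl
  · simp only [sub_zero]
    exact (Complex.reCLM.integral_comp_comm
      (H521.int_of_cont (P := P) (H521.cont_at hA.cont hz))).symm

lemma isAvg_im (hA : AvH K Ω P g) : KF.IsAvg K P g (fun z => (avg P g z).im) := by
  have := hA.prob
  have := hA.cpt
  have := hA.borel
  refine ⟨Complex.im, 1, fun _ => 0, ?_, measurable_const, ?_, fun z hz => ?_⟩
  · refine LipschitzWith.of_dist_le_mul fun x y => ?_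
    rw [Real.dist_eq, ← Complex.sub_im, dist_eq_norm, NNReal.coe_one, one_mul]
    exact Complex.abs_im_le_norm _
  · refine (isBounded_singleton (x := (0:ℂ))).subset ?_
    rintro _ ⟨ω, rfl⟩
    rfl
  · simp only [sub_zero]
    exact (Complex.imCLM.integral_comp_comm
      (H521.int_of_cont (P := P) (H521.cont_at hA.cont hz))).symm

end avgfun

/-! ### gluing over the nodes -/

open Classical in
/-- gluing of the functions `V w` over the nodes `w` of level `k` -/
noncomputable def gl (K : Set ℂ) (k : ℕ) (f : ℂ → ℝ) (V : Set ℂ → ℂ → ℝ) (z : ℂ) : ℝ :=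
  if z ∈ lev K k then V (nd K k z) z else f z

section glue

variable {K : Set ℂ} {k : ℕ} {f : ℂ → ℝ} {V : Set ℂ → ℂ → ℝ}

lemma gl_off {z : ℂ} (hz : z ∉ lev K k) : gl K k f V z = f z := if_neg hz

lemma gl_on {w : Set ℂ} (hw : w ∈ nodes K k) {z : ℂ} (hz : z ∈ w) : gl K k f V z = V w z := by
  obtain ⟨x, hx, rfl⟩ := hw
  rw [gl, if_pos (nd_subset k x hz), nd_eq hz]

lemma gl_near (hK : IsCompact K) (hoff : ∀ w ∈ nodes K k, ∀ z ∉ w, V w z = f z) (a : ℂ) :
    ∃ h : ℂ → ℝ, (h = f ∨ ∃ w ∈ nodes K k, h = V w) ∧ ∀ᶠ z in 𝓝 a, gl K k f V z = h z := by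
  by_cases ha : a ∈ lev K k
  · obtain ⟨x, hx, hax⟩ := exists_node hK ha
    refine ⟨V (nd K k x), Or.inr ⟨_, ⟨x, hx, rfl⟩, rfl⟩, ?_⟩
    have hc : IsClosed (⋃ w ∈ nodes K k \ {nd K k x}, w) := by
      refine ((finite_nodes hK k).subset sdiff_subset).isClosed_biUnion ?_
      rintro _ ⟨⟨y, hy, rfl⟩, -⟩
      exact (isCompact_nd hK k y).isClosed
    have hn : a ∉ ⋃ w ∈ nodes K k \ {nd K k x}, w := by
      intro h
      obtain ⟨w, ⟨⟨y, hy, rfl⟩, hne⟩, haw⟩ := mem_iUnion₂.1 h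
      exact hne (mem_singleton_iff.2 ((nd_eq haw).symm.trans (nd_eq hax)))
    filter_upwards [hc.isOpen_compl.mem_nhds hn] with z hz
    by_cases hzl : z ∈ lev K k
    · obtain ⟨y, hy, hzy⟩ := exists_node hK hzl
      have e : nd K k y = nd K k x := by
        by_contra hcon
        exact hz (mem_iUnion₂.2 ⟨nd K k y, ⟨⟨y, hy, rfl⟩, hcon⟩, hzy⟩)
      rw [gl_on ⟨y, hy, rfl⟩ hzy, e]
    · rw [gl_off hzl, hoff _ ⟨x, hx, rfl⟩ z (fun h => hzl (nd_subset k x h))]
  · refine ⟨f, Or.inl rfl, ?_⟩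
    filter_upwards [(isClosed_lev k).isOpen_compl.mem_nhds ha] with z hz
    exact gl_off hz

lemma gl_maj (hK : IsCompact K) (hoff : ∀ w ∈ nodes K k, ∀ z ∉ w, V w z = f z) {ρ : ℂ → ℝ}
    (hf : Cl.Maj Kᶜ f ρ) (hV : ∀ w ∈ nodes K k, Cl.Maj Kᶜ (V w) ρ) :
    Cl.Maj Kᶜ (gl K k f V) ρ where
  cont := hf.cont
  nn := hf.nn
  lip a ha ε hε := by
    obtain ⟨h, hh, hev⟩ := gl_near hK hoff a
    have hm : Cl.Maj Kᶜ h ρ := by
      rcases hh with rfl | ⟨w, hw, rfl⟩
      · exact hf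
      · exact hV w hw
    obtain ⟨δ, hδ, h1⟩ := hm.lip a ha ε hε
    obtain ⟨δ', hδ', h2⟩ := Metric.eventually_nhds_iff_ball.1 hev
    refine ⟨min δ δ', lt_min hδ hδ', fun x hx y hy => ?_⟩
    rw [h2 x (ball_subset_ball (min_le_right _ _) hx), h2 y (ball_subset_ball (min_le_right _ _) hy)]
    exact h1 x (ball_subset_ball (min_le_left _ _) hx) y (ball_subset_ball (min_le_left _ _) hy)

end glue

/-- the cost of the ends -/
noncomputable def tau (K : Set ℂ) (f : ℂ → ℂ) (c : Set ℂ) : ℝ :=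
  oscC K (fun z => (f z).re) c ^ 2 + oscC K (fun z => (f z).im) c ^ 2

lemma tau_nonneg (K : Set ℂ) (f : ℂ → ℂ) (c : Set ℂ) : 0 ≤ tau K f c := by
  unfold tau
  positivity

lemma Hon.summable_all {K : Set ℂ} {u ρ : ℂ → ℝ} (h : Hon K (lev K 0) u ρ) :
    Summable fun c : comps K => oscC K u c ^ 2 := by
  classical
  refine h.sum.congr fun c => ?_
  rw [if_pos ((comps_subset c.2).trans (subset_lev 0))]

lemma tau_summable {K : Set ℂ} {f : ℂ → ℂ} {ρ ρ' : ℂ → ℝ}
    (hre : Hon K (lev K 0) (fun z => (f z).re) ρ) (him : Hon K (lev K 0) (fun z => (f z).im) ρ') :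
    Summable fun c : comps K => tau K f c :=
  hre.summable_all.add him.summable_all

/-- majorants of honest functions -/
lemma Hon.maj' {K w : Set ℂ} (hK : IsCompact K) {u ρ : ℂ → ℝ} (h : Hon K w u ρ) :
    Cl.Maj Kᶜ u ρ :=
  KF.ugr_maj hK.isClosed.isOpen_compl h.maj h.rc fun z hz => h.rnn z hz

/-- the total square oscillation of a flattening -/
lemma Eo_le {K w : Set ℂ} {f v ρ ρ' : ℂ → ℝ} {τ : Set ℂ → ℝ}
    (hv : Hon K w v ρ) (hfl : KF.FlatOf K w f v) (hf : Hon K (lev K 0) f ρ')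
    (hτ : ∀ c ∈ comps K, oscC K f c ^ 2 ≤ τ c) (hτs : Summable fun c : comps K => τ c) :
    Eo K w v ≤ ∑' c : comps K, (open Classical in if (c : Set ℂ) ⊆ w then τ c else 0) := by
  classical
  have h0 : ∀ c : comps K, oc K w v c ≤ (open Classical in if (c : Set ℂ) ⊆ w then τ c else 0) := by
    intro c
    by_cases h : (c : Set ℂ) ⊆ w
    · rw [oc_of_sub h, if_pos h]
      refine le_trans ?_ (hτ c c.2)
      have h1 := hfl.oscC c c.2
      have h2 := oscC_nonneg hv.bdK c.2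
      gcongr
    · rw [oc_of_not_sub h, if_neg h]
  refine Summable.tsum_le_tsum h0 hv.sum ?_
  refine Summable.of_nonneg_of_le (fun c => ?_) (fun c => ?_) hτs
  · exact (oc_nonneg _ _ _ _).trans (h0 c)
  · split_ifs
    · exact le_rfl
    · exact (sq_nonneg _).trans (hτ c c.2)

theorem tm_of_adLaw (hAD : KF.AD) {K : Set ℂ} {Ω : Type} [TopologicalSpace Ω]
    [MeasurableSpace Ω] {P : Measure Ω} {g : Ω → ℂ → ℂ} (hA : AvH K Ω P g)
    {𝔊 : Ω → Ultrafilter Str} (hL : KF.AdLaw K P g 𝔊)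
    (hre : Hon K (lev K 0) (fun z => (avg P g z).re) (fun z => ‖deriv (avg P g) z‖))
    (him : Hon K (lev K 0) (fun z => (avg P g z).im) (fun z => ‖deriv (avg P g) z‖)) :
    TM K (avg P g) (tau K (avg P g)) := by
  classical
  have hK := hA.Kc
  have hf := hA.full
  intro k
  have key : ∀ w ∈ nodes K k, ∃ v v' : ℂ → ℝ, Hon K w v (fun z => ‖deriv (avg P g) z‖) ∧
      KF.SMon K w v ∧ KF.FlatOf K w (fun z => (avg P g z).re) v ∧
      Hon K w v' (fun z => ‖deriv (avg P g) z‖) ∧ KF.SMon K w v' ∧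
      KF.FlatOf K w (fun z => (avg P g z).im) v' ∧ volume (Zs K w v v') = 0 := by
    rintro _ ⟨x, hx, rfl⟩
    exact hL.flat2 k x hx _ _ _ _ (isAvg_re hA) (hre.restrict (G.nd_sub_lev0 k x)) (isAvg_im hA)
      (him.restrict (G.nd_sub_lev0 k x))
  choose! v v' h1 h2 h3 h4 h5 h6 h7 using key
  have hoff : ∀ w ∈ nodes K k, ∀ z ∉ w, v w z = (avg P g z).re := fun w hw => (h3 w hw).off
  have hoff' : ∀ w ∈ nodes K k, ∀ z ∉ w, v' w z = (avg P g z).im := fun w hw => (h6 w hw).off
  have hm := gl_maj hK hoff (hre.maj' hK) fun w hw => (h1 w hw).maj' hK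
  have hm' := gl_maj hK hoff' (him.maj' hK) fun w hw => (h4 w hw).maj' hK
  have hc := KF.maj_continuousOn hm
  have hc' := KF.maj_continuousOn hm'
  have er : (fun z => (((gl K k (fun z => (avg P g z).re) v z : ℝ) : ℂ) +
      ((gl K k (fun z => (avg P g z).im) v' z : ℝ) : ℂ) * Complex.I).re) =
      gl K k (fun z => (avg P g z).re) v := by
    funext z
    simp
  have ei : (fun z => (((gl K k (fun z => (avg P g z).re) v z : ℝ) : ℂ) +
      ((gl K k (fun z => (avg P g z).im) v' z : ℝ) : ℂ) * Complex.I).im) =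
      gl K k (fun z => (avg P g z).im) v' := by
    funext z
    simp
  refine ⟨fun z => ((gl K k (fun z => (avg P g z).re) v z : ℝ) : ℂ) +
      ((gl K k (fun z => (avg P g z).im) v' z : ℝ) : ℂ) * Complex.I, ?_, ?_, ?_, ?_, ?_⟩
  · exact (Complex.continuous_ofReal.comp_continuousOn hc).add
      ((Complex.continuous_ofReal.comp_continuousOn hc').mul continuousOn_const)
  · intro z hz
    dsimp only
    rw [gl_off hz, gl_off hz, Complex.re_add_im]
  · rw [er]
    exact hm
  · rw [ei]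
    exact hm'
  · intro w hw δ hδ
    rw [er, ei]
    obtain ⟨x, hx, hwx⟩ := hw
    have hw : w ∈ nodes K k := ⟨x, hx, hwx⟩
    have hw0 : w ⊆ lev K 0 := by
      rw [← hwx]
      exact G.nd_sub_lev0 k x
    have hsym : volume (Zs K w (v' w) (v w)) = 0 := by
      have h := Cmp_symm (K := K) (p := (w, v w)) (p' := (w, v' w)) (by
        rw [Cmp]
        simpa using h7 w hw)
      rw [Cmp] at h
      simpa using h
    obtain ⟨S, hS, hcov, hsum⟩ := hAD hK hf (n := k) (x := x) hx (ι := Bool)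
      (u := fun b => cond b (v w) (v' w)) (by
        rintro (_ | _)
        · exact ⟨_, by rw [hwx]; exact h4 w hw⟩
        · exact ⟨_, by rw [hwx]; exact h1 w hw⟩) (by
        rintro (_ | _)
        · rw [hwx]
          exact h5 w hw
        · rw [hwx]
          exact h2 w hw) (by
        rintro (_ | _) (_ | _) hij
        · exact absurd rfl hij
        · rw [hwx]
          exact hsym
        · rw [hwx]
          exact h7 w hw
        · exact absurd rfl hij) hδ
    rw [hwx] at hS hcov hsum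
    have hPw : ∀ P ∈ S, P ⊆ w := hS.sub
    have im1 : ∀ Q ∈ S, gl K k (fun z => (avg P g z).re) v '' (Q \ K) = v w '' (Q \ K) :=
      fun Q hQ => image_congr fun z hz => gl_on hw (hPw Q hQ hz.1)
    have im2 : ∀ Q ∈ S, gl K k (fun z => (avg P g z).im) v' '' (Q \ K) = v' w '' (Q \ K) :=
      fun Q hQ => image_congr fun z hz => gl_on hw (hPw Q hQ hz.1)
    refine ⟨S, hS, hcov, fun Q hQ => ?_, ?_, ?_⟩
    · rw [im1 Q hQ, im2 Q hQ]
      have b1 : BdA K Q (v w) := (h1 w hw).bdK.bdA ((hPw Q hQ).trans hw0)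
      have b2 : BdA K Q (v' w) := (h4 w hw).bdK.bdA ((hPw Q hQ).trans hw0)
      exact ⟨b1.above, b1.below, b2.above, b2.below⟩
    · have e1 : ∑ᶠ Q ∈ S, oscE K (gl K k (fun z => (avg P g z).re) v) Q ^ 2 =
          ∑ᶠ Q ∈ S, oscS K (v w) Q ^ 2 :=
        finsum_mem_congr rfl fun Q hQ => by rw [oscE, oscS, im1 Q hQ]
      rw [e1]
      refine (hsum true).trans (add_le_add_left ?_ δ)
      exact Eo_le (h1 w hw) (h3 w hw) hre (fun c _ => le_add_of_nonneg_right (sq_nonneg _))
        (tau_summable hre him)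
    · have e1 : ∑ᶠ Q ∈ S, oscE K (gl K k (fun z => (avg P g z).im) v') Q ^ 2 =
          ∑ᶠ Q ∈ S, oscS K (v' w) Q ^ 2 :=
        finsum_mem_congr rfl fun Q hQ => by rw [oscE, oscS, im2 Q hQ]
      rw [e1]
      refine (hsum false).trans (add_le_add_left ?_ δ)
      exact Eo_le (h4 w hw) (h6 w hw) him (fun c _ => le_add_of_nonneg_left (sq_nonneg _))
        (tau_summable hre him)

end Vale.Agent.P116.KB
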