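import Mathlib
import Vale.Agent.P116.KF.Spec
import Vale.Agent.P116.KB.OscAPI

/-!
# Subnode excess

A structure which covers `K`, is fine and has small excess in a node has small excess in each
subnode. (The finitely many massive components outside the subnode lie in different pieces.)
-/

open Set Filter Topology Metric Bornology MeasureTheory

namespace Vale.Agent.P116.KB.G678

open H906 PBC Slow KB

variable {K : Set ℂ} {u ρ : ℂ → ℝ}

/-- a component of `K` which meets a piece is inside the piece -/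
lemma comp_sub_pc {P : Set ℂ} (hP : Disjoint (frontier P) K) {x : ℂ} (hx : x ∈ K) (hxP : x ∈ P) :
    connectedComponentIn K x ⊆ P := by
  by_contra h
  obtain ⟨y, hy, hy'⟩ := frontier_inter_of_connected isPreconnected_connectedComponentIn
    ⟨x, mem_connectedComponentIn hx, hxP⟩ h
  exact disjoint_left.1 hP hy' (connectedComponentIn_subset _ _ hy)

/-- a piece contains a node around each of its points of `K` -/
lemma exists_nd_sub_pc (hK : IsCompact K) (hf : Full K) {P : Set ℂ}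
    (hP : Disjoint (frontier P) K) {x : ℂ} (hx : x ∈ K) (hxP : x ∈ P) :
    ∃ n, nd K n x ⊆ P := by
  obtain ⟨n, hn⟩ := exists_nd_subset hK hf hx (W := interior P) isOpen_interior (by
    intro y hy
    have h1 := comp_sub_pc hP hx hxP hy
    by_contra h2
    refine disjoint_left.1 hP ⟨subset_closure h1, h2⟩ (connectedComponentIn_subset _ _ hy))
  exact ⟨n, hn.trans interior_subset⟩

/-- the oscillation of a piece is at least that of its ends -/
lemma oscC_le_pc (hK : IsCompact K) (hf : Full K) (h : BdK K u) {P : Set ℂ}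
    (hP : Disjoint (frontier P) K) (hPl : P ⊆ lev K 0) {x : ℂ} (hx : x ∈ K) (hxP : x ∈ P) :
    oscC K u (connectedComponentIn K x) ≤ oscS K u P := by
  obtain ⟨n, hn⟩ := exists_nd_sub_pc hK hf hP hx hxP
  exact (oscC_le_nd h hx n).trans (oscS_mono (h.bdA hPl) hn)

lemma oP_mono {w w' : Set ℂ} (hw : w' ⊆ w) (P : Set ℂ) : oP K w' u P ≤ oP K w u P := by
  by_cases h : P ⊆ w'
  · rw [oP_of_sub h, oP_of_sub (h.trans hw)]
  · rw [oP_of_not_sub h]
    exact oP_nonneg _ _ _ _

/-- finitely many different components lie in different nodes -/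
lemma exists_sep (hK : IsCompact K) (hf : Full K) (F : Finset (comps K)) (m₀ : ℕ) :
    ∃ m ≥ m₀, ∀ c ∈ F, ∀ c' ∈ F, c ≠ c' → ∀ x ∈ (c : Set ℂ), ∀ x' ∈ (c' : Set ℂ),
      nd K m x ≠ nd K m x' := by
  classical
  have h1 : ∀ p : comps K × comps K, ∃ m, p.1 ≠ p.2 → ∀ x ∈ (p.1 : Set ℂ),
      ∀ x' ∈ (p.2 : Set ℂ), nd K m x ≠ nd K m x' := by
    rintro ⟨⟨c, x, hx, rfl⟩, ⟨c', x', hx', rfl⟩⟩
    by_cases hne : connectedComponentIn K x = connectedComponentIn K x'
    · exact ⟨0, fun h => absurd (Subtype.ext hne) h⟩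
    · have h2 : ∃ m, nd K m x ≠ nd K m x' := by
        by_contra hcon
        push Not at hcon
        apply hne
        rw [← iInter_nd hK hf hx, ← iInter_nd hK hf hx']
        exact iInter_congr hcon
      obtain ⟨m, hm⟩ := h2
      refine ⟨m, fun _ y hy y' hy' h3 => hm ?_⟩
      have e1 : nd K m y = nd K m x :=
        nd_eq (comp_subset_nd ⟨x, hx, rfl⟩ (mem_connectedComponentIn hx) m hy)
      have e2 : nd K m y' = nd K m x' :=
        nd_eq (comp_subset_nd ⟨x', hx', rfl⟩ (mem_connectedComponentIn hx') m hy')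
      rw [← e1, ← e2, h3]
  choose M hM using h1
  refine ⟨max m₀ ((F ×ˢ F).sup M), le_max_left _ _, fun c hc c' hc' hne x hx x' hx' h3 => ?_⟩
  refine hM (c, c') hne x hx x' hx' ?_
  have hle : M (c, c') ≤ max m₀ ((F ×ˢ F).sup M) :=
    (Finset.le_sup (f := M) (Finset.mk_mem_product hc hc')).trans (le_max_right _ _)
  have hx'K : x' ∈ K := comps_subset c'.2 hx'
  have h4 : x' ∈ nd K (max m₀ ((F ×ˢ F).sup M)) x := by
    rw [h3]
    exact mem_nd hx'K _
  exact (nd_eq (nd_anti hle h4)).symm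

/-- **subnode excess**, for one structure -/
theorem sub_budget (hK : IsCompact K) (hf : Full K) {n₀ : ℕ} {x₀ : ℂ}
    (hu : Hon K (nd K n₀ x₀) u ρ) {w' : Set ℂ} (hsub : w' ⊆ nd K n₀ x₀) {δ : ℝ} (hδ : 0 < δ) :
    ∃ m, ∀ S : Set (Set ℂ), G.NS K (lev K 0) S → K ⊆ ⋃₀ S → (∀ P ∈ S, P ⊆ lev K m) →
      ∀ δ' : ℝ, ∑ᶠ P ∈ S, oP K (nd K n₀ x₀) u P ≤ Eo K (nd K n₀ x₀) u + δ' →
        ∑ᶠ P ∈ S, oP K w' u P ≤ Eo K w' u + (δ' + δ) := by
  classical
  set w := nd K n₀ x₀ with hw
  have hs : Summable fun c : comps K => oc K w u c := hu.sum'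
  have hs' : Summable fun c : comps K => oc K w' u c := (hu.restrict hsub).sum'
  have hD : HasSum (fun c : comps K => oc K w u c - oc K w' u c) (Eo K w u - Eo K w' u) :=
    hs.hasSum.sub hs'.hasSum
  obtain ⟨F, hF⟩ := (hD.eventually (lt_mem_nhds
    (show Eo K w u - Eo K w' u - δ < Eo K w u - Eo K w' u by linarith))).exists
  set F₁ : Finset (comps K) := F.filter fun c => (c : Set ℂ) ⊆ w ∧ ¬ (c : Set ℂ) ⊆ w' with hF₁
  have hF1 : ∑ c ∈ F, (oc K w u c - oc K w' u c) = ∑ c ∈ F₁, oscC K u c ^ 2 := by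
    rw [hF₁, Finset.sum_filter]
    refine Finset.sum_congr rfl fun c _ => ?_
    by_cases h1 : (c : Set ℂ) ⊆ w
    · by_cases h2 : (c : Set ℂ) ⊆ w'
      · rw [if_neg (fun h => h.2 h2), oc_of_sub h1, oc_of_sub h2, sub_self]
      · rw [if_pos ⟨h1, h2⟩, oc_of_sub h1, oc_of_not_sub h2, sub_zero]
    · rw [if_neg (fun h => h1 h.1), oc_of_not_sub h1, oc_of_not_sub (fun h => h1 (h.trans hsub)),
        sub_self]
  obtain ⟨m, hm₀, hm⟩ := exists_sep hK hf F₁ n₀
  refine ⟨m, fun S hS hcov hSm δ' hSb => ?_⟩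
  -- the pieces of the components of `F₁`
  have h1 : ∀ c : comps K, ∃ P ∈ S, (c : Set ℂ) ⊆ P := by
    rintro ⟨c, x, hx, rfl⟩
    obtain ⟨P, hP, hxP⟩ := hcov hx
    exact ⟨P, hP, comp_sub_pc (hS.pc P hP).fr hx hxP⟩
  choose Q hQS hcQ using h1
  have hQnd : ∀ c : comps K, ∀ x ∈ (c : Set ℂ), Q c ⊆ nd K m x := fun c x hx =>
    (hS.pc _ (hQS c)).conn.isPreconnected.subset_connectedComponentIn (hcQ c hx) (hSm _ (hQS c))
  have hne : ∀ c : comps K, (c : Set ℂ).Nonempty := by
    rintro ⟨c, x, hx, rfl⟩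
    exact ⟨x, mem_connectedComponentIn hx⟩
  have hinj : Set.InjOn Q (F₁ : Set (comps K)) := by
    intro c hc c' hc' h2
    by_contra hcc
    obtain ⟨x, hx⟩ := hne c
    obtain ⟨x', hx'⟩ := hne c'
    refine hm c hc c' hc' hcc x hx x' hx' ?_
    have h3 : x' ∈ nd K m x := hQnd c x hx (by rw [h2]; exact hcQ c' hx')
    exact (nd_eq h3).symm
  have hfin : ∀ f : Set ℂ → ℝ, ∑ᶠ P ∈ S, f P = ∑ P ∈ hS.fin.toFinset, f P := fun f =>
    finsum_mem_eq_finite_toFinset_sum f hS.fin
  have h4 : ∑ c ∈ F₁, oscC K u c ^ 2 ≤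
      ∑ P ∈ hS.fin.toFinset, (oP K w u P - oP K w' u P) := by
    calc ∑ c ∈ F₁, oscC K u c ^ 2 ≤ ∑ c ∈ F₁, (oP K w u (Q c) - oP K w' u (Q c)) := by
          refine Finset.sum_le_sum fun c hc => ?_
          obtain ⟨hcw, hcw'⟩ := (Finset.mem_filter.1 hc).2
          obtain ⟨x, hx⟩ := hne c
          have hxK : x ∈ K := comps_subset c.2 hx
          have hce : connectedComponentIn K x = c := by
            obtain ⟨y, _, hyc⟩ := c.2
            have hx' : x ∈ connectedComponentIn K y := by rw [hyc]; exact hx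
            exact (connectedComponentIn_eq hx').symm.trans hyc
          have h5 : Q c ⊆ w := by
            refine (hQnd c x hx).trans ((nd_anti hm₀).trans ?_)
            rw [nd_eq (hcw hx)]
          have h6 : ¬ Q c ⊆ w' := fun h => hcw' ((hcQ c).trans h)
          rw [oP_of_sub h5, oP_of_not_sub h6, sub_zero]
          have h7 := oscC_le_pc hK hf hu.bdK (hS.pc _ (hQS c)).fr (hS.sub _ (hQS c)) hxK
            (hcQ c hx)
          rw [hce] at h7
          exact pow_le_pow_left₀ (oscC_nonneg hu.bdK c.2) h7 2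
      _ = ∑ P ∈ F₁.image Q, (oP K w u P - oP K w' u P) :=
          (Finset.sum_image (f := fun P => oP K w u P - oP K w' u P) hinj).symm
      _ ≤ _ := by
          refine Finset.sum_le_sum_of_subset_of_nonneg ?_ fun P _ _ => ?_
          · intro P hP
            obtain ⟨c, _, rfl⟩ := Finset.mem_image.1 hP
            exact hS.fin.mem_toFinset.2 (hQS c)
          · have := oP_mono (K := K) (u := u) hsub P
            linarith
  rw [Finset.sum_sub_distrib] at h4
  rw [hfin] at hSb ⊢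
  rw [hF1] at hF
  linarith

/-- **subnode excess**, along a filter -/
theorem Adp_restrict (hK : IsCompact K) (hf : Full K) {n₀ : ℕ} {x₀ : ℂ}
    (hu : Hon K (nd K n₀ x₀) u ρ) {w' : Set ℂ} (hsub : w' ⊆ nd K n₀ x₀) {𝔊 : Filter Str}
    (hfine : Fine K 𝔊) (hNS : ∀ᶠ S : Str in 𝔊, G.NS K (lev K 0) S.1)
    (hcov : ∀ᶠ S : Str in 𝔊, K ⊆ ⋃₀ S.1) (h : KF.Adp K (nd K n₀ x₀) 𝔊 u) : KF.Adp K w' 𝔊 u := by
  intro δ hδ
  obtain ⟨m, hm⟩ := sub_budget hK hf hu hsub (δ := δ / 2) (by positivity)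
  filter_upwards [hfine m, hNS, hcov, h (δ / 2) (by positivity)] with S h1 h2 h3 h4
  have h5 := hm S.1 h2 h3 h1 (δ / 2) h4
  linarith

end Vale.Agent.P116.KB.G678
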