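import Vale.Agent.P116.PBC.N

/-!
P116, block [7], geometric core: finitely many disjoint full continua in a connected open set of
the plane are contained in one full continuum in it.
-/

open Set Filter Topology Metric Bornology

namespace Vale.Agent.P116.KB720

open H906

/-- the union of two compact full sets with (pre)connected intersection is full -/
lemma full_union {A B : Set ℂ} (hA : IsCompact A) (hB : IsCompact B) (hAf : Full A) (hBf : Full B)
    (hd : IsPreconnected (A ∩ B)) : Full (A ∪ B) := by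
  intro z hz
  obtain ⟨R, hR⟩ := (hA.union hB).isBounded.subset_closedBall (0 : ℂ)
  obtain ⟨w, hw, -⟩ := inter_compl_ball_nonempty
    (not_isBounded_compl_closedBall (0 : ℂ) (max R 0)) 0 0
  have hAB : A ∪ B ⊆ closedBall (0 : ℂ) (max R 0) :=
    hR.trans (closedBall_subset_closedBall (le_max_left _ _))
  have hwAB : w ∉ A ∪ B := fun h => hw (hAB h)
  have join : ∀ {C : Set ℂ}, IsCompact C → Full C → z ∉ C → w ∉ C → JoinedIn Cᶜ z w := by
    intro C hC hCf hzC hwC
    have h1 : IsPathConnected Cᶜ := by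
      rw [← (hC.isClosed.isOpen_compl).isConnected_iff_isPathConnected]
      exact ⟨⟨z, hzC⟩, hCf.isPreconnected_compl hC.isBounded⟩
    exact h1.joinedIn z hzC w hwC
  have h1 : JoinedIn (A ∪ B)ᶜ z w :=
    P153.TOP.janiszewski hA hB hd (join hA hAf (fun h => hz (Or.inl h))
      (fun h => hwAB (Or.inl h))) (join hB hBf (fun h => hz (Or.inr h)) (fun h => hwAB (Or.inr h)))
  obtain ⟨γ, hγ⟩ := h1
  refine ⟨range γ ∪ (closedBall (0 : ℂ) (max R 0))ᶜ, ?_, Or.inl ⟨0, γ.source⟩, ?_, ?_⟩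
  · exact IsPreconnected.union w ⟨1, γ.target⟩ hw (isPreconnected_range γ.continuous)
      (isPreconnected_compl_closedBall 0 (le_max_right _ _))
  · refine Disjoint.union_left ?_ (disjoint_compl_left.mono_right hAB)
    rw [disjoint_left]
    rintro _ ⟨t, rfl⟩ h
    exact hγ t h
  · exact fun h => not_isBounded_compl_closedBall (0 : ℂ) (max R 0) (h.subset subset_union_right)

/-- removing a full compact set from a connected open set leaves it connected -/
lemma isPreconnected_diff {U Q : Set ℂ} (hU : IsOpen U) (hc : IsPreconnected U)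
    (hQ : IsCompact Q) (hQf : Full Q) (hQU : Q ⊆ U) : IsPreconnected (U \ Q) := by
  rcases (U \ Q).eq_empty_or_nonempty with he | ⟨p, hp⟩
  · rw [he]; exact isPreconnected_empty
  have hUp : IsPathConnected U := by
    rw [← hU.isConnected_iff_isPathConnected]
    exact ⟨⟨p, hp.1⟩, hc⟩
  have hQp : IsPathConnected Qᶜ := by
    rw [← (hQ.isClosed.isOpen_compl).isConnected_iff_isPathConnected]
    exact ⟨⟨p, hp.2⟩, hQf.isPreconnected_compl hQ.isBounded⟩
  have h2 : (Q ∪ Uᶜ)ᶜ = U \ Q := by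
    rw [compl_union, compl_compl, sdiff_eq, inter_comm]
  have h3 : IsPathConnected (U \ Q) := by
    refine ⟨p, hp, fun {q} hq => ?_⟩
    have h4 := P153.TOP.janiszewski_closed hQ hU.isClosed_compl (B := Uᶜ) (p := p) (q := q) (by
      rw [(disjoint_compl_right_iff_subset.2 hQU).inter_eq]
      exact isPreconnected_empty) (hQp.joinedIn p hp.2 q hq.2) (by
      rw [compl_compl]
      exact hUp.joinedIn p hp.1 q hq.1)
    rwa [h2] at h4
  exact h3.isConnected.isPreconnected

/-- convex sets are full -/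
lemma full_of_convex {C : Set ℂ} (hC : Convex ℝ C) (hne : C.Nonempty) : Full C := by
  intro z hz
  obtain ⟨c, hc⟩ := hne
  have hzc : z ≠ c := fun h => hz (h ▸ hc)
  refine ⟨(fun t : ℝ => z + t • (z - c)) '' Ici 0, ?_, ⟨0, mem_Ici.2 le_rfl, by simp⟩, ?_, ?_⟩
  · refine (isPreconnected_Ici).image _ ?_
    fun_prop
  · rw [disjoint_left]
    rintro _ ⟨t, ht, rfl⟩ h
    have ht0 : (0:ℝ) ≤ t := ht
    apply hz
    have h1 : (0:ℝ) < 1 + t := by positivity
    have h2 := hC hc h (a := t / (1 + t)) (b := 1 / (1 + t)) (by positivity) (by positivity)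
      (by field_simp; ring)
    have h3 : (t / (1 + t)) • c + (1 / (1 + t)) • (z + t • (z - c)) = z := by
      have h4 : ((1 + t : ℝ) : ℂ) ≠ 0 := by exact_mod_cast h1.ne'
      simp only [Complex.real_smul]
      push_cast at h4 ⊢
      field_simp
      ring
    rwa [h3] at h2
  · intro hb
    obtain ⟨R, hR⟩ := hb.subset_closedBall 0
    have hpos : 0 < ‖z - c‖ := norm_pos_iff.2 (sub_ne_zero.2 hzc)
    set t : ℝ := (|R| + ‖z‖ + 1) / ‖z - c‖ with ht
    have ht0 : 0 ≤ t := by positivity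
    have h1 := hR ⟨t, ht0, rfl⟩
    rw [mem_closedBall, dist_zero_right] at h1
    have h2 : ‖t • (z - c)‖ = |R| + ‖z‖ + 1 := by
      rw [norm_smul, Real.norm_of_nonneg ht0, ht]
      field_simp
    have h3 : ‖t • (z - c)‖ ≤ ‖z + t • (z - c)‖ + ‖z‖ := by
      calc ‖t • (z - c)‖ = ‖(z + t • (z - c)) - z‖ := by ring_nf
        _ ≤ _ := norm_sub_le _ _
    have h4 := le_abs_self R
    linarith

/-- last exit: a point `a'` of `P` on the segment `[a, b]` with `[a', b] ∩ P = {a'}` -/
lemma exists_last {P : Set ℂ} (hP : IsCompact P) {a b : ℂ} (ha : a ∈ P) :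
    ∃ a' ∈ P, segment ℝ a' b ⊆ segment ℝ a b ∧ P ∩ segment ℝ a' b = {a'} := by
  have hcont : Continuous (fun t : ℝ => AffineMap.lineMap (k := ℝ) a b t) :=
    AffineMap.lineMap_continuous
  have hS : IsCompact (Icc (0:ℝ) 1 ∩ (fun t : ℝ => AffineMap.lineMap (k := ℝ) a b t) ⁻¹' P) :=
    isCompact_Icc.inter_right (hP.isClosed.preimage hcont)
  obtain ⟨t, ⟨⟨ht0, ht1⟩, htP⟩, hmax⟩ := hS.exists_isMaxOn ⟨0, ⟨le_rfl, zero_le_one⟩, by
    simpa using ha⟩ continuousOn_id
  refine ⟨AffineMap.lineMap a b t, htP, ?_, ?_⟩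
  · refine (convex_segment a b).segment_subset ?_ (right_mem_segment ℝ a b)
    rw [segment_eq_image_lineMap]
    exact ⟨t, ⟨ht0, ht1⟩, rfl⟩
  · apply Subset.antisymm
    · rintro x ⟨hxP, hx⟩
      rw [segment_eq_image_lineMap] at hx
      obtain ⟨s, ⟨hs0, hs1⟩, rfl⟩ := hx
      have h1 : AffineMap.lineMap (k := ℝ) (AffineMap.lineMap (k := ℝ) a b t) b s =
          AffineMap.lineMap (k := ℝ) a b (t + s * (1 - t)) := by
        simp only [AffineMap.lineMap_apply_module]
        module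
      rw [h1] at hxP
      have h2 : t + s * (1 - t) ≤ t := by
        refine hmax ⟨⟨?_, ?_⟩, hxP⟩
        · nlinarith
        · nlinarith
      have h3 : s * (1 - t) = 0 := le_antisymm (by linarith) (mul_nonneg hs0 (by linarith))
      rw [mem_singleton_iff, h1, h3, add_zero]
    · rintro _ rfl
      exact ⟨htP, left_mem_segment ℝ _ _⟩

lemma isCompact_segment (a b : ℂ) : IsCompact (segment ℝ a b) := by
  rw [segment_eq_image_lineMap]
  exact isCompact_Icc.image AffineMap.lineMap_continuous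

lemma full_segment (a b : ℂ) : Full (segment ℝ a b) :=
  full_of_convex (convex_segment a b) ⟨a, left_mem_segment ℝ a b⟩

/-- compact, connected, full -/
structure FC (P : Set ℂ) : Prop where
  cpt : IsCompact P
  conn : IsConnected P
  full : Full P

lemma fc_segment (a b : ℂ) : FC (segment ℝ a b) :=
  ⟨isCompact_segment a b, ⟨⟨a, left_mem_segment ℝ a b⟩, (convex_segment a b).isPreconnected⟩,
    full_segment a b⟩

lemma FC.union {A B : Set ℂ} (hA : FC A) (hB : FC B) (h : IsConnected (A ∩ B)) : FC (A ∪ B) where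
  cpt := hA.cpt.union hB.cpt
  conn := hA.conn.union h.nonempty hB.conn
  full := full_union hA.cpt hB.cpt hA.full hB.full h.isPreconnected

/-- growing a full continuum along a segment -/
lemma FC.extend {P : Set ℂ} (hP : FC P) {a : ℂ} (ha : a ∈ P) (b : ℂ) :
    ∃ P', FC P' ∧ P ⊆ P' ∧ b ∈ P' ∧ P' ⊆ P ∪ segment ℝ a b := by
  obtain ⟨a', ha', h1, h2⟩ := exists_last hP.cpt (b := b) ha
  refine ⟨P ∪ segment ℝ a' b, hP.union (fc_segment a' b) (by rw [h2]; exact isConnected_singleton),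
    subset_union_left, Or.inr (right_mem_segment ℝ a' b), union_subset_union_right P h1⟩

/-- joining two disjoint full continua along a segment -/
lemma FC.join {P Q : Set ℂ} (hP : FC P) (hQ : FC Q) (hd : Disjoint P Q) {a b : ℂ} (ha : a ∈ P)
    (hb : b ∈ Q) : ∃ P', FC P' ∧ P ⊆ P' ∧ Q ⊆ P' ∧ P' ⊆ P ∪ Q ∪ segment ℝ a b := by
  obtain ⟨a', ha', h1, h2⟩ := exists_last hP.cpt (b := b) ha
  obtain ⟨b', hb', h3, h4⟩ := exists_last hQ.cpt (b := a') hb
  have h5 : segment ℝ b' a' ⊆ segment ℝ a' b := by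
    rw [segment_symm ℝ a' b]; exact h3
  have h6 : P ∩ segment ℝ b' a' = {a'} := by
    apply Subset.antisymm
    · rw [← h2]; exact inter_subset_inter_right P h5
    · rintro _ rfl
      exact ⟨ha', right_mem_segment ℝ _ _⟩
  have h7 : FC (P ∪ segment ℝ b' a') :=
    hP.union (fc_segment _ _) (by rw [h6]; exact isConnected_singleton)
  have h8 : (P ∪ segment ℝ b' a') ∩ Q = {b'} := by
    rw [union_inter_distrib_right, hd.inter_eq, empty_union, inter_comm, h4]
  refine ⟨(P ∪ segment ℝ b' a') ∪ Q, h7.union hQ (by rw [h8]; exact isConnected_singleton),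
    ?_, subset_union_right, ?_⟩
  · exact subset_union_left.trans subset_union_left
  · refine union_subset (union_subset ?_ ?_) ?_
    · exact subset_union_left.trans subset_union_left
    · exact (h5.trans h1).trans subset_union_right
    · exact subset_union_right.trans subset_union_left

/-- polygonal chains in an open path connected set -/
lemma exists_chain {U : Set ℂ} (hU : IsOpen U) {p q : ℂ} (h : JoinedIn U p q) :
    ∃ (N : ℕ) (x : ℕ → ℂ), x 0 = p ∧ x N = q ∧ ∀ i < N, segment ℝ (x i) (x (i + 1)) ⊆ U := by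
  obtain ⟨γ, hγ⟩ := h
  have hcomp : IsCompact (range γ) := isCompact_range γ.continuous
  have hsub : range γ ⊆ U := by rintro _ ⟨t, rfl⟩; exact hγ t
  obtain ⟨δ, hδ, hδU⟩ := hcomp.exists_thickening_subset_open hU hsub
  have huc : UniformContinuous γ := CompactSpace.uniformContinuous_of_continuous γ.continuous
  obtain ⟨η, hη, hη2⟩ := Metric.uniformContinuous_iff.1 huc δ hδ
  obtain ⟨N, hN⟩ := exists_nat_one_div_lt hη
  set x : ℕ → ℂ := fun i => γ.extend ((i:ℝ) / ((N:ℝ) + 1)) with hx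
  have hN1 : (0:ℝ) < (N:ℝ) + 1 := by positivity
  refine ⟨N + 1, x, ?_, ?_, ?_⟩
  · simp [hx]
  · have : (((N + 1 : ℕ) : ℝ) / ((N:ℝ) + 1)) = 1 := by
      push_cast
      field_simp
    simp only [hx, this]
    simp
  · intro i hi
    have hi1 : (i:ℝ) + 1 ≤ (N:ℝ) + 1 := by
      have : i + 1 ≤ N + 1 := hi
      exact_mod_cast this
    have hmem0 : (i:ℝ) / ((N:ℝ) + 1) ∈ Icc (0:ℝ) 1 :=
      ⟨by positivity, (div_le_one hN1).2 (by linarith)⟩
    have hmem1 : ((i + 1 : ℕ):ℝ) / ((N:ℝ) + 1) ∈ Icc (0:ℝ) 1 :=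
      ⟨by positivity, (div_le_one hN1).2 (by push_cast; linarith)⟩
    have e0 : x i = γ ⟨_, hmem0⟩ := Path.extend_apply γ hmem0
    have e1 : x (i + 1) = γ ⟨_, hmem1⟩ := Path.extend_apply γ hmem1
    have hd : dist (x (i + 1)) (x i) < δ := by
      rw [e0, e1]
      refine hη2 ?_
      rw [Subtype.dist_eq, Real.dist_eq]
      have : (((i + 1 : ℕ):ℝ) / ((N:ℝ) + 1) - (i:ℝ) / ((N:ℝ) + 1)) = 1 / ((N:ℝ) + 1) := by
        push_cast
        ring
      rw [this, abs_of_pos (by positivity)]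
      exact hN
    have hball : segment ℝ (x i) (x (i + 1)) ⊆ ball (x i) δ :=
      (convex_ball _ _).segment_subset (mem_ball_self hδ) hd
    refine hball.trans (Subset.trans ?_ hδU)
    exact ball_subset_thickening (by rw [e0]; exact mem_range_self _) δ

/-- joining two disjoint full continua inside a connected open set -/
lemma FC.connect {U P Q : Set ℂ} (hU : IsOpen U) (hc : IsPreconnected U) (hP : FC P) (hQ : FC Q)
    (hd : Disjoint P Q) (hPU : P ⊆ U) (hQU : Q ⊆ U) :
    ∃ P', FC P' ∧ P ⊆ P' ∧ Q ⊆ P' ∧ P' ⊆ U := by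
  obtain ⟨p, hp⟩ := hP.conn.nonempty
  obtain ⟨q, hq⟩ := hQ.conn.nonempty
  have hUp : IsPathConnected U := by
    rw [← hU.isConnected_iff_isPathConnected]
    exact ⟨⟨p, hPU hp⟩, hc⟩
  obtain ⟨N, x, h0, hN, hseg⟩ := exists_chain hU (hUp.joinedIn p (hPU hp) q (hQU hq))
  have key : ∀ i ≤ N, ∃ P', FC P' ∧ P ⊆ P' ∧ P' ⊆ U ∧ x i ∈ P' ∧ (Disjoint P' Q ∨ Q ⊆ P') := by
    intro i
    induction i with
    | zero => exact fun _ => ⟨P, hP, Subset.rfl, hPU, h0 ▸ hp, Or.inl hd⟩
    | succ i ih =>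
      intro hi
      obtain ⟨P', h1, h2, h3, h4, h5⟩ := ih (Nat.le_of_succ_le hi)
      have hs := hseg i hi
      rcases h5 with h5 | h5
      · rcases (segment ℝ (x i) (x (i + 1)) ∩ Q).eq_empty_or_nonempty with he | ⟨b, hb, hbQ⟩
        · obtain ⟨P'', g1, g2, g3, g4⟩ := h1.extend h4 (x (i + 1))
          refine ⟨P'', g1, h2.trans g2, g4.trans (union_subset h3 hs), g3, Or.inl ?_⟩
          refine Disjoint.mono_left g4 (Disjoint.union_left h5 ?_)
          exact disjoint_iff_inter_eq_empty.2 he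
        · obtain ⟨P'', g1, g2, g3, g4⟩ := h1.join hQ h5 h4 hbQ
          have hsb : segment ℝ (x i) b ⊆ segment ℝ (x i) (x (i + 1)) :=
            (convex_segment _ _).segment_subset (left_mem_segment ℝ _ _) hb
          have hsb' : segment ℝ b (x (i + 1)) ⊆ segment ℝ (x i) (x (i + 1)) :=
            (convex_segment _ _).segment_subset hb (right_mem_segment ℝ _ _)
          have hP''U : P'' ⊆ U := g4.trans (union_subset (union_subset h3 hQU) (hsb.trans hs))
          obtain ⟨P₃, k1, k2, k3, k4⟩ := g1.extend (g3 hbQ) (x (i + 1))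
          exact ⟨P₃, k1, (h2.trans g2).trans k2, k4.trans (union_subset hP''U (hsb'.trans hs)), k3,
            Or.inr (g3.trans k2)⟩
      · obtain ⟨P'', g1, g2, g3, g4⟩ := h1.extend h4 (x (i + 1))
        exact ⟨P'', g1, h2.trans g2, g4.trans (union_subset h3 hs), g3, Or.inr (h5.trans g2)⟩
  obtain ⟨P', h1, h2, h3, h4, h5⟩ := key N le_rfl
  rw [hN] at h4
  rcases h5 with h5 | h5
  · exact absurd hq (disjoint_left.1 h5 h4)
  · exact ⟨P', h1, h2, h5, h3⟩

/-- **[TREE]** finitely many disjoint full continua in a connected open set are contained in one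
full continuum in it -/
theorem tree {T : Set (Set ℂ)} (hT : T.Finite) (hne : T.Nonempty) :
    ∀ {U : Set ℂ} (_ : IsOpen U) (_ : IsPreconnected U) (_ : ∀ Q ∈ T, FC Q ∧ Q ⊆ U)
      (_ : ∀ Q ∈ T, ∀ Q' ∈ T, Q ≠ Q' → Disjoint Q Q'),
      ∃ P, FC P ∧ P ⊆ U ∧ ⋃₀ T ⊆ P := by
  induction T, hT using Set.Finite.induction_on with
  | empty => exact absurd hne not_nonempty_empty
  | @insert Q T' hQT hT' ih =>
    intro U hU hc h hd
    obtain ⟨hQ, hQU⟩ := h Q (mem_insert _ _)
    rcases T'.eq_empty_or_nonempty with he | hne'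
    · subst he
      exact ⟨Q, hQ, hQU, by simp⟩
    · have hU1 : IsOpen (U \ Q) := hU.sdiff hQ.cpt.isClosed
      have hc1 : IsPreconnected (U \ Q) := isPreconnected_diff hU hc hQ.cpt hQ.full hQU
      obtain ⟨P, hP, hPU, hTP⟩ := ih hne' hU1 hc1 (fun R hR => by
        obtain ⟨h1, h2⟩ := h R (mem_insert_of_mem _ hR)
        refine ⟨h1, fun z hz => ⟨h2 hz, fun hzQ => ?_⟩⟩
        have hne2 : R ≠ Q := fun h => hQT (h ▸ hR)
        exact disjoint_left.1 (hd R (mem_insert_of_mem _ hR) Q (mem_insert _ _) hne2) hz hzQ)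
        (fun R hR R' hR' => hd R (mem_insert_of_mem _ hR) R' (mem_insert_of_mem _ hR'))
      have hdPQ : Disjoint P Q := disjoint_left.2 fun z hz hzQ => (hPU hz).2 hzQ
      obtain ⟨P', k1, k2, k3, k4⟩ := hP.connect hU hc hQ hdPQ (hPU.trans sdiff_subset) hQU
      refine ⟨P', k1, k4, ?_⟩
      rw [sUnion_insert]
      exact union_subset k3 (hTP.trans k2)

/-- the frontier clause -/
lemma frontier_disjoint {K U P : Set ℂ} {T : Set (Set ℂ)} (hP : IsClosed P) (hPU : P ⊆ U)
    (hT : ⋃₀ T ⊆ P) (hK : ∀ z ∈ K, z ∈ U → ∃ Q ∈ T, z ∈ interior Q) :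
    Disjoint (frontier P) K := by
  rw [disjoint_left]
  intro z hz hzK
  rw [hP.frontier_eq] at hz
  obtain ⟨Q, hQ, hzQ⟩ := hK z hzK (hPU hz.1)
  exact hz.2 (interior_mono ((subset_sUnion_of_mem hQ).trans hT) hzQ)

end Vale.Agent.P116.KB720
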