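import Vale.Agent.P116.KB.V3
import Vale.Agent.P116.G.Inst
import Vale.Agent.P116.Ms.FI

/-!
# The budget family in the system of the structures with general pieces
-/

open Set Filter Topology

namespace Vale.Agent.P116.KB

open H906 Slow
open G (NS XQ sysK)

variable {K : Set ℂ} {R ρ : ℝ} {𝔘 : Type*}

namespace OscD

variable (D : OscD K 𝔘)

/-- **the budget family** -/
def E (h : G.Far K R ρ) (t : Finset 𝔘 × ℕ) (δ : ℝ) (q : Tn K) : Set (XQ h q) :=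
  {b : XQ h q | D.EU t δ q.st b.1}

variable {D}

lemma mem_E {h : G.Far K R ρ} {t : Finset 𝔘 × ℕ} {δ : ℝ} {q : Tn K} {b : XQ h q} :
    b ∈ D.E h t δ q ↔ D.EU t δ q.st b.1 := Iff.rfl

lemma E_anti (h : G.Far K R ρ) (t t' : Finset 𝔘 × ℕ) (htt : t ≤ t') (δ : ℝ) (q : Tn K) :
    D.E h t' δ q ⊆ D.E h t δ q := fun _ hb => EU.anti htt hb

lemma E_mono (h : G.Far K R ρ) (t : Finset 𝔘 × ℕ) (δ δ' : ℝ) (hd : δ ≤ δ') (q : Tn K) :
    D.E h t δ q ⊆ D.E h t δ' q := fun _ hb => EU.mono hd hb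

lemma EU_jn (hK : IsCompact K) {t : Finset 𝔘 × ℕ} (q : Tn K) {a : ∀ r : Tn K, G.SN r}
    {d : Tn K → ℝ} (ha : ∀ r ∈ cht hK q, D.EU t (d r) r.st (a r).1) :
    D.EU t (∑ r ∈ cht hK q, d r) q.st (G.jn q a) :=
  EU.join hK q (S := fun r => (a r).1) (fun r _ => (a r).2.fin)
    (fun r _ P hP => ((a r).2.pc P hP).nonempty) (fun r _ P hP => (a r).2.sub P hP)
    (fun r hr => ha r ((mem_cht hK).2 hr))

lemma E_join (h : G.Far K R ρ) (hne : K.Nonempty) (t : Finset 𝔘 × ℕ) (q : Tn K)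
    (a : ∀ q, XQ h q) (d : Tn K → ℝ) (_ : ∀ r ∈ (sysK h hne).ch q, 0 ≤ d r)
    (ha : ∀ r ∈ (sysK h hne).ch q, a r ∈ D.E h t (d r) r) :
    (sysK h hne).join q a ∈ D.E h t (∑ r ∈ (sysK h hne).ch q, d r) q :=
  EU_jn h.cpt q ha

lemma E_o (h : G.Far K R ρ) (hne : K.Nonempty) (t : Finset 𝔘 × ℕ) {x : ℂ} (hx : x ∈ K)
    {δ : ℝ} (hδ : 0 < δ) :
    ∃ m₀, ∀ m ≥ m₀, (sysK h hne).o (Slow.br hx m) ∈ D.E h t δ (Slow.br hx m) := by
  obtain ⟨m₀, hm₀⟩ := EU.single (D := D) t hx hδ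
  refine ⟨m₀ + 1, fun m hm => ?_⟩
  obtain ⟨m', rfl⟩ : ∃ m', m = m' + 1 := ⟨m - 1, by omega⟩
  change D.EU t δ (nd K m' x) (G.on (nt m' hx)).1
  rw [G.on_nt h.cpt]
  exact hm₀ m' (by omega)

lemma E_brc (h : G.Far K R ρ) (hne : K.Nonempty) (t : Finset 𝔘 × ℕ)
    (c : ConnectedComponents K) {δ : ℝ} (hδ : 0 < δ) :
    ∃ m₀, ∀ m ≥ m₀, (sysK h hne).o (Ms.brc c m) ∈ D.E h t δ (Ms.brc c m) :=
  E_o h hne t _ hδ

lemma E_fine (h : G.Far K R ρ) (n : ℕ) : ∃ t : Finset 𝔘 × ℕ, ∃ δ > 0,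
    ∀ b ∈ D.E h t δ (rt K), ∀ P ∈ b.1, P ⊆ lev K n :=
  ⟨(∅, n), 1, one_pos, fun _ hb P hP => (mem_E.1 hb).lev P hP⟩

/-- existence in deep nodes gives existence in all nodes -/
theorem exists_EU (hK : IsCompact K) {t : Finset 𝔘 × ℕ}
    (hAD : ∃ k, ∀ q : Tn K, k ≤ q.lv → ∀ δ > 0, ∃ S, NS K q.st S ∧ D.EU t δ q.st S)
    (q : Tn K) {δ : ℝ} (hδ : 0 < δ) : ∃ S, NS K q.st S ∧ D.EU t δ q.st S := by
  classical
  obtain ⟨k, hk⟩ := hAD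
  have key : ∀ (j : ℕ) (q : Tn K), k ≤ q.lv + j → ∀ δ > 0, ∃ S, NS K q.st S ∧ D.EU t δ q.st S := by
    intro j
    induction j with
    | zero => exact fun q hq δ hδ => hk q (by simpa using hq) δ hδ
    | succ j ih =>
      intro q hq δ hδ
      set c : ℝ := δ / ((cht hK q).card + 1) with hc
      have hc0 : 0 < c := by positivity
      have h1 : ∀ r : Tn K, ∃ S, NS K r.st S ∧ (r ∈ cht hK q → D.EU t c r.st S) := by
        intro r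
        by_cases hr : r ∈ cht hK q
        · obtain ⟨S, h2, h3⟩ := ih r (by rw [((mem_cht hK).1 hr).1]; omega) c hc0
          exact ⟨S, h2, fun _ => h3⟩
        · exact ⟨∅, G.ns_empty, fun h' => absurd h' hr⟩
      choose S h2 h3 using h1
      have h4 := EU_jn (D := D) hK q (t := t) (a := fun r => ⟨S r, h2 r⟩) (d := fun _ => c) h3
      refine ⟨_, G.ns_jn hK q fun r => ⟨S r, h2 r⟩, h4.mono ?_⟩
      rw [Finset.sum_const, nsmul_eq_mul, hc]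
      rw [mul_div_assoc', div_le_iff₀ (by positivity)]
      nlinarith
  exact key k q (by omega) δ hδ

lemma E_nonempty (h : G.Far K R ρ)
    (hAD : ∀ t : Finset 𝔘 × ℕ, ∃ k, ∀ q : Tn K, k ≤ q.lv → ∀ δ > 0,
      ∃ S, NS K q.st S ∧ D.EU t δ q.st S) (t : Finset 𝔘 × ℕ) (δ : ℝ) (hδ : 0 < δ) (q : Tn K) :
    (D.E h t δ q).Nonempty := by
  obtain ⟨S, h1, h2⟩ := exists_EU h.cpt (hAD t) q hδ
  exact ⟨⟨S, h1⟩, h2⟩

end OscD

end Vale.Agent.P116.KB
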