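import Vale.Agent.P116.KB.V6
import Vale.Agent.P116.KF.Spec

/-!
# The two literal forms of [7] are equivalent
-/

open Set Filter Topology Metric Bornology MeasureTheory

namespace Vale.Agent.P116.KB

open H906 PBC Slow

theorem ad7_of_AD (h : KF.AD) : AD7 := fun hK hf _ _ hx _ _ ρ h1 h2 h3 _ hδ =>
  h hK hf hx (fun i => ⟨ρ i, h1 i⟩) h2 h3 hδ

theorem AD_of_ad7 (h : AD7) : KF.AD := by
  intro K hK hf n x hx ι _ u h1 h2 h3 δ hδ
  choose ρ hρ using h1
  obtain ⟨m, ⟨e⟩⟩ := Finite.exists_equiv_fin ι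
  obtain ⟨S, hS, hcov, hb⟩ := h hK hf hx (m := m) (fun i => u (e.symm i)) (fun i => ρ (e.symm i))
    (fun i => hρ _) (fun i => h2 _) (fun i j hij => h3 _ _ fun h' => hij (e.symm.injective h')) hδ
  refine ⟨S, hS, hcov, fun i => ?_⟩
  have := hb (e i)
  simpa only [Equiv.symm_apply_apply, Eo] using this

theorem AD_iff_ad7 : KF.AD ↔ AD7 := ⟨ad7_of_AD, AD_of_ad7⟩

end Vale.Agent.P116.KB
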